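import Vale.Agent.P236F.Facts
import Vale.Agent.P236VL.Cells
import Vale.Agent.P236EL.Comm
import Vale.Agent.P236EL.Bc
import Vale.Agent.P236EL.EA

/-!
# P236, steps R0 to R3: algebra on charts
-/

namespace Vale.Agent.P236R

open Vale.Agent.P251.F Vale.Agent.P251.I Vale.Agent.P236EL Vale.Agent.P236SY Vale.Agent.P236F
  Vale.Agent.P236VL Vale.Agent.P236Z AddSubgroup

variable {ι : Type} [Fintype ι] {θ : ι → ι → Cob Laz 1} {d : ι → ℤ} {w ω w' : ℤ} {s m n : ℕ}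
  {t : Cob Laz 1}

theorem le_of_hv (hθ : ∀ c c', Cob.IsWt ((((3 : ℕ) : ℤ) - 1) * (d c - d c')) (θ c c'))
    (h : HV (fun a b => rq 3 1 (θ a b)) d s w) : ZC 3 θ d w 3 s ≤ BQ 3 θ d w 3 s := by
  rintro x ⟨hx, c, -, hc⟩
  have h1 := h (fun a => rq 3 s (x a)) (fun a => (hx a).mapRing (isLawHom_mkZ 3))
    (funext fun a => by
      rw [← mapRing_DD (isLawHom_mkZ 3)]
      exact rq_eq_zero_iff.2 ⟨c a, (congrFun hc a).symm⟩)
  cases s with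
  | zero => exact mem_sup_right (mem_QW_of_rq hx (congrFun h1))
  | succ s =>
    obtain ⟨y, hy, e⟩ := h1
    obtain ⟨Y, hY, u, hu, e⟩ := exists_of_rq hθ hx hy e.symm
    exact mem_BQ_succ.2 ⟨Y, hY, u, hu, e.symm⟩

theorem wt_A (ht : IsT1 3 t) (c c' : Fin 2) :
    Cob.IsWt ((((3 : ℕ) : ℤ) - 1) * (dF 2 c - dF 2 c')) (θA t c c') := by
  have h := (wt_t ht).add (wt_t ht)
  rw [← two_mul] at h
  fin_cases c <;> fin_cases c'
  exacts [Cob.isWt_zero _, Cob.isWt_zero _, h, Cob.isWt_zero _]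

theorem wt_Y (ht : IsT1 3 t) (c c' : Fin 3) :
    Cob.IsWt ((((3 : ℕ) : ℤ) - 1) * (dF 3 c - dF 3 c')) (θY t c c') := by
  have h := (wt_t ht).add (wt_t ht)
  rw [← two_mul] at h
  have h' := h.mul (wt_t ht)
  rw [mul_assoc, ← pow_two] at h'
  fin_cases c <;> fin_cases c'
  exacts [Cob.isWt_zero _, Cob.isWt_zero _, Cob.isWt_zero _, h, Cob.isWt_zero _, Cob.isWt_zero _,
    h', h, Cob.isWt_zero _]

/-- the unit `2` -/
def u2 : (ZMod 3)ˣ := ⟨2, 2, rfl, rfl⟩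

theorem vy_of_lt (ht : IsT1 3 t) (h : w < 3 * s) : VY t w s :=
  le_of_hv (wt_Y ht) (by
    rw [funext₂ (rq_Y p3 rfl)]
    exact hv_three ht u2 u2 2 rfl h)

theorem vt_of_lt (ht : IsT1 3 t) (h : 2 * w + s % 2 < 3 * s + 4) :
    ZT t w (s + 1) ≤ BT t w (s + 1) :=
  le_of_hv (wt_A ht) (by
    rw [funext₂ (rq_A p3)]
    exact hv_two ht u2 h)

theorem zs_iff {z : Cob Laz s} : (fun _ => z) ∈ ZS w s ↔
    Cob.IsWt (2 * w) z ∧ (3 : Cob Laz (s + 1)) ∣ Cob.d s z := mem_ZC_sph rfl rfl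

theorem of_zs {z : Cob Laz s} (hz : (fun _ => z) ∈ ZS w s) :
    Cob.IsWt ((((3 : ℕ) : ℤ) - 1) * w) z ∧ ∃ z', Cob.IsWt ((((3 : ℕ) : ℤ) - 1) * w) z' ∧
      Cob.d s z = 3 • z' := by
  obtain ⟨h1, c, hc, e⟩ := hz
  exact ⟨by simpa using h1 0, c 0, by simpa using hc 0,
    (DD_zero (fun _ : Fin 1 => z) 0).symm.trans (congrFun e 0).symm⟩

theorem zs_eta (F : Fin 1 → Cob Laz s) : F = fun _ => F 0 :=
  funext fun c => by rw [Subsingleton.elim c 0]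

section lc

variable (hθ : MC θ) (h : m + s = n) {z : Cob Laz m} (hz : (fun _ => z) ∈ ZS ω m) (e : ω + w = w')
  {x : ι → Cob Laz s}
include hθ hz e

theorem lcZ (hx : x ∈ ZC 3 θ d w 3 s) : lc ι h z x ∈ ZC 3 θ d w' 3 n := by
  obtain ⟨h1, z', h2, h3⟩ := of_zs hz
  exact e ▸ lc_mem_ZC hθ h h1 h2 h3 hx

theorem lcB (hx : x ∈ BQ 3 θ d w 3 s) : lc ι h z x ∈ BQ 3 θ d w' 3 n := by
  obtain ⟨h1, z', h2, h3⟩ := of_zs hz
  exact e ▸ lc_mem_BQ hθ h h1 h2 h3 hx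

theorem lc_rc [DecidableEq ι]
    (hw : ∀ c c', Cob.IsWt ((((3 : ℕ) : ℤ) - 1) * (d c - d c')) (θ c c')) (h' : s + m = n)
    (hx : x ∈ ZC 3 θ d w 3 s) :
    lc ι h z x - ((-1 : ℤ) ^ (m * s)) • rc θ h' x z ∈ BQ 3 θ d w' 3 n := by
  obtain ⟨h1, z', h2, h3⟩ := of_zs hz
  exact (add_comm ω w).symm.trans e ▸ lc_sub_rc hw hθ h h' h1 h2 h3 hx

end lc

theorem zs_cupE (h : m + s = n) {z : Cob Laz m} (hz : (fun _ => z) ∈ ZS ω m) (e : ω + w = w')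
    {x : Cob Laz s} (hx : (fun _ => x) ∈ ZS w s) : (fun _ => cupE h z x) ∈ ZS w' n :=
  lcZ mc_zero h hz e hx

theorem zs_t (ht : IsT1 3 t) : (fun _ => t) ∈ ZS 1 1 :=
  zs_iff.2 ⟨wt_t ht, by rw [d_t ht]; exact dvd_zero _⟩

theorem zs_pow (ht : IsT1 3 t) (j : ℕ) (e : w = 3 ^ (j + 1)) :
    (fun _ => t ^ 3 ^ (j + 1)) ∈ ZS w 1 := by
  obtain ⟨r, hr⟩ := P236K.d_t1_pow ht j
  exact zs_iff.2 ⟨Det.isWt_cast ((wt_t ht).pow _) (by rw [e]; push_cast; ring),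
    3 * r - P236K.Bt t j, by rw [hr]; ring⟩

theorem zs_nine (ht : IsT1 3 t) : (fun _ => t ^ 9) ∈ ZS 9 1 := zs_pow ht 1 rfl

theorem zs_27 (ht : IsT1 3 t) : (fun _ => t ^ 27) ∈ ZS 27 1 := zs_pow ht 2 rfl

theorem cupE_zero (x y : Cob Laz 0) : cupE (add_zero 0) x y = x * y :=
  congrArg₂ (· * ·) ((congrArg (Cob.map · x) (funext fun _ => Fin.ext rfl)).trans
    (Cob.map_id x)) ((congrArg (Cob.map · y) (funext fun _ => Fin.ext (zero_add _))).trans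
      (Cob.map_id y))

theorem zs_v1 (ht : IsT1 3 t) : (fun _ => v1) ∈ ZS 1 0 := cy_v1 ht

theorem zs_v (ht : IsT1 3 t) (k : ℕ) : (fun _ => v1 ^ k) ∈ ZS k 0 := by
  induction k with
  | zero => exact zs_iff.2 ⟨by simpa using (Cob.isWt_one : Cob.IsWt 0 (1 : Cob Laz 0)), by
      rw [pow_zero, Cob.d_apply, Fin.sum_univ_two]; simp⟩
  | succ k ih =>
    rw [pow_succ', ← cupE_zero]
    exact zs_cupE _ (zs_v1 ht) (by push_cast; ring) ih

omit [Fintype ι] in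
theorem lc_v_succ (k : ℕ) (h : 0 + s = s) (F : ι → Cob Laz s) :
    lc ι h (v1 ^ (k + 1)) F = lc ι h v1 (lc ι h (v1 ^ k) F) := by
  rw [pow_succ', ← cupE_zero, lc_lc]

omit [Fintype ι] in
theorem lc_v_zero (h : 0 + s = s) (F : ι → Cob Laz s) : lc ι h (v1 ^ 0) F = F :=
  funext fun c => by rw [pow_zero, lc_apply, one_cupE]

theorem bb_eq : bb t = 4 * P236K.Bt t 0 := by
  have h1 : Cob.front 1 1 = Fin.succAbove (2 : Fin 3) := funext fun i => by fin_cases i <;> rfl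
  have h2 : Cob.back 1 1 = Fin.succAbove (0 : Fin 3) := funext fun i => by fin_cases i <;> rfl
  simp only [bb, Cob.cup, h1, h2, P236K.Bt, P236K.e01, P236K.e12, map_mul, map_pow, map_ofNat]
  ring

theorem zs_bb (ht : IsT1 3 t) : (fun _ => bb t) ∈ ZS 3 2 := by
  rw [bb_eq, show 4 * P236K.Bt t 0 = (4 : ℕ) • P236K.Bt t 0 by ring]
  exact nsmul_mem (x := fun _ => P236K.Bt t 0)
    (zs_iff.2 ⟨P236K.isWt_Bt ht 0, three_dvd_d_Bt ht 0⟩) 4

theorem b3_mem (ht : IsT1 3 t) {z : Cob Laz 1} (hz : (fun _ => z) ∈ ZS 27 1) : b3 t z ∈ ZS 36 7 :=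
  lcZ mc_zero _ (zs_bb ht) (w := 33) rfl (lcZ mc_zero _ (zs_bb ht) (w := 30) rfl
    (lcZ mc_zero _ (zs_bb ht) (w := 27) rfl hz))

theorem exists_th (ht : IsT1 3 t) (h : FT t) : ∃ z, Th t z ∧ b3 t z ∈ BS 36 7 := by
  obtain ⟨y, h1, h2, h3⟩ := h
  obtain ⟨_, ⟨c, rfl⟩, b, hb, e⟩ := mem_sup.1 (h3 (b3_mem ht (zs_27 ht)))
  refine ⟨t ^ 27 - c • y, ⟨?_, ?_⟩, ?_⟩
  · have h5 := zs_27 ht
    generalize t ^ 27 = u at h5 ⊢
    exact sub_mem h5 (zsmul_mem h1 c)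
  · rw [sub_sub_cancel_left]
    exact neg_mem (zsmul_mem h2 c)
  · have h4 : ∀ z, b3 t (z - c • y) = b3 t z - c • b3 t y := fun z => by
      rw [b3, b3, b3, ← map_zsmul, ← map_zsmul, ← map_zsmul, ← map_sub, ← map_sub, ← map_sub]
      rfl
    rwa [h4, ← e, add_sub_cancel_left]

section single

variable [DecidableEq ι] {c₀ : ι} (h0 : ∀ c, θ c₀ c = 0) (hd : d c₀ = 0)

omit [Fintype ι] in
include hd in
theorem single_CW {z : Fin 1 → Cob Laz s} (hz : z ∈ CW 3 Laz (fun _ => 0) w s) :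
    Pi.single c₀ (z 0) ∈ CW 3 Laz d w s := fun c => by
  rcases eq_or_ne c c₀ with rfl | h
  · rw [Pi.single_eq_same, hd]
    exact hz 0
  · rw [Pi.single_eq_of_ne h]
    exact Cob.isWt_zero _

theorem DD_single' (c : ι) (y : Cob Laz s) : DD θ s (Pi.single c y) =
    Pi.single c (Cob.d s y) + ((-1 : ℤ) ^ (s + 1)) • fun c' => Cob.cup y (θ c c') :=
  funext fun c' => by
    rw [DD_apply, Finset.sum_eq_single c (fun b _ hb => by simp [hb, Cob.cup]) (by simp),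
      Pi.apply_single (fun _ => Cob.d s) (fun _ => map_zero _), Pi.single_eq_same]
    rfl

include h0 in
theorem DD_single (z : Fin 1 → Cob Laz s) :
    DD θ s (Pi.single c₀ (z 0)) = Pi.single c₀ (DD 0 s z 0) := by
  rw [DD_single', DD_zero]
  simp [h0, Cob.cup, ← Pi.zero_def]

include h0 hd

theorem single_ZC {z : Fin 1 → Cob Laz s} (hz : z ∈ ZS w s) :
    Pi.single c₀ (z 0) ∈ ZC 3 θ d w 3 s := by
  obtain ⟨h1, c, hc, e⟩ := mem_ZC.1 hz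
  exact mem_ZC.2 ⟨single_CW hd h1, _, single_CW hd hc, by
    rw [DD_single h0, ← e, ← Pi.single_smul']; rfl⟩

theorem single_BQ {z : Fin 1 → Cob Laz s} (hz : z ∈ BS w s) :
    Pi.single c₀ (z 0) ∈ BQ 3 θ d w 3 s := by
  obtain ⟨b, hb, u, hu, rfl⟩ := mem_BQ.1 hz
  refine mem_BQ.2 ⟨Pi.single c₀ (b 0), ?_, _, single_CW hd hu, by
    rw [← Pi.single_smul', ← Pi.single_add]; rfl⟩
  cases s with
  | zero => rw [mem_bot.1 hb]; simp
  | succ s =>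
    obtain ⟨y, hy, rfl⟩ := hb
    exact ⟨_, single_CW hd hy, DD_single h0 y⟩

end single

omit [Fintype ι] in
theorem lc_single [DecidableEq ι] (h : m + s = n) (z : Cob Laz m) (c : ι) (x : Cob Laz s) :
    lc ι h z (Pi.single c x) = Pi.single c (cupE h z x) := funext fun c' => by
  rw [lc_apply, ← cupH_apply, Pi.apply_single (fun _ => cupH h z) (fun _ => map_zero _),
    cupH_apply]

theorem θY_zero (c : Fin 3) : θY t 0 c = 0 := by fin_cases c <;> rfl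

theorem θA_zero (c : Fin 2) : θA t 0 c = 0 := by fin_cases c <;> rfl

/-- Products with `h_0` die on the bottom cell of `Y`. -/
theorem e0_h0 (ht : IsT1 3 t) {y : Cob Laz s} (hy : (fun _ => y) ∈ ZS w s) (e : w + 1 = w') :
    Pi.single 0 (Cob.cup y t) ∈ BY t w' (s + 1) := by
  obtain ⟨h1, y', h2, h3⟩ := of_zs hy
  have h4 : ∀ {k : ℕ} {a : Cob Laz k}, Cob.IsWt ((((3 : ℕ) : ℤ) - 1) * w) a →
      Pi.single 1 a ∈ CW 3 Laz (dF 3) w' k := fun ha c => by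
    fin_cases c
    exacts [Cob.isWt_zero _, Det.isWt_cast ha (by subst e; simp [dF]), Cob.isWt_zero _]
  have h5 : Pi.single 0 (Cob.cup y t) ∈ CW 3 Laz (dF 3) w' (s + 1) :=
    single_CW (c₀ := 0) (z := fun _ => Cob.cup y t) rfl (zs_cupE rfl hy e (zs_t ht)).1
  have h6 : (fun c' => Cob.cup y (θY t 1 c')) = 2 • Pi.single 0 (Cob.cup y t) := funext fun c => by
    fin_cases c <;> simp [θY, Cob.cup, map_ofNat]
    ring
  have h7 : DD (θY t) s (Pi.single 1 y) ∈ BY t w' (s + 1) := mem_sup_left ⟨_, h4 h1, rfl⟩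
  have hq : ∀ a ∈ CW 3 Laz (dF 3) w' (s + 1), 3 • a ∈ BY t w' (s + 1) := fun a ha =>
    mem_sup_right (mem_QW.2 ⟨a, ha, rfl⟩)
  rw [DD_single', h3, Pi.single_smul', h6] at h7
  have h8 := zsmul_mem ((AddSubgroup.add_mem_cancel_left _ (hq _ (h4 h2))).1 h7) ((-1) ^ (s + 1))
  rw [smul_smul, ← mul_pow, neg_mul_neg, one_mul, one_pow, one_smul] at h8
  have h9 := sub_mem (hq _ h5) h8
  rwa [succ_nsmul' _ 2, add_sub_cancel_right] at h9

theorem e0_142 (ht : IsT1 3 t) (h : G142 t) {x : Fin 1 → Cob Laz 2} (hx : x ∈ ZS 36 2) :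
    Pi.single 0 (x 0) ∈ BY t 36 2 := by
  obtain ⟨_, ha, b, hb, rfl⟩ := mem_sup.1 (h hx)
  obtain ⟨c, rfl⟩ := mem_zmultiples_iff.1 ha
  rw [Pi.add_apply, Pi.single_add, Pi.smul_apply, Pi.single_smul', ← lc_lc (zero_add 1) (show 1 + 1 = 2 from rfl)]
  exact add_mem (zsmul_mem (e0_h0 ht (w := 35)
    (zs_cupE _ (zs_v ht 8) (by norm_num) (zs_27 ht)) rfl) c) (single_BQ θY_zero rfl hb)

/-- the maximal invariant ideal -/
noncomputable abbrev FI : Ideal (CC (ZMod 3)) := Fil 3 (II 3 (ZMod 3) ^ 1)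

theorem rs_pos {a : Cob Laz 0} (ha : Cob.IsWt (2 * w) a) (hw : w ≠ 0) : rs p3 0 a ∈ FI := by
  rw [← pt_cst_ev (rs_mem_Loc p3 0 a)]
  refine pt_mem_Fil (inv_II.pow 1) 0 ?_
  rw [II_eq, mem_JJ_pow fun _ => le_rfl]
  intro E
  rcases eq_or_ne E 0 with rfl | h
  · by_contra h0
    exact hw (by simpa using (grCh_cst.ev (rs_mem_WC p3 (w := w) ha) fun h => h0 (h ▸ dvd_zero _)).symm)
  · obtain ⟨i, hi⟩ := Finsupp.ne_iff.1 h
    rw [Nat.sub_eq_zero_of_le (Finsupp.le_weight_of_ne_zero (w := fun _ : ℕ => 1)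
      (fun _ => Nat.zero_le _) hi), pow_zero]
    exact one_dvd _

theorem rs_cup_pos {a : Cob Laz 0} (ha : Cob.IsWt (2 * w) a) (hw : w ≠ 0) (y : Cob Laz 1) :
    rs p3 1 (Cob.cup a y) ∈ FI := by
  rw [rs_cup p3 a y]
  exact Ideal.mul_mem_right _ _ (rs_pos ha hw)

theorem rs_d_pos {a : Cob Laz 0} (ha : Cob.IsWt (2 * w) a) (hw : w ≠ 0) :
    rs p3 1 (Cob.d 0 a) ∈ FI := by
  rw [rs_d]
  exact alt_mem_Fil (inv_II.pow 1) _ (rs_pos ha hw)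

theorem rs_II {x : Cob Laz 1} (hx : x ∈ Det.II 1) : rs p3 1 x ∈ FI := by
  obtain ⟨a, b, c, rfl⟩ := Det.mem_II.1 hx
  have h : ∀ (k : ℕ) (w : ℤ) (y : Cob Laz 1), ((3 ^ k - 1 : ℕ) : ℤ) = 2 * w → w ≠ 0 →
      rs p3 1 (MvPolynomial.C (Laz.v 3 k) * y) ∈ FI := fun k w y e hw => by
    have h1 := rs_cup_pos (e ▸ isWt_v 3 k (by norm_num) 0) hw 1
    rw [Cob.cup, map_one, mul_one, Det.map_C_of_zero _ rfl] at h1
    rw [map_mul]
    exact Ideal.mul_mem_right _ _ h1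
  rw [map_add, map_add, show 3 * a = 3 • a by ring, rs_three, zero_add]
  exact add_mem (h 1 1 b rfl one_ne_zero) (h 2 4 c rfl (by norm_num))

theorem rs_pow (ht : IsT1 3 t) (k : ℕ) : rs p3 1 (t ^ k) ∉ FI := fun h => by
  rw [map_pow, rs_t1 p3 (by decide) ht, FI, Fil_II_pow, mem_JJ_pow elim_le] at h
  have h1 := h (Finsupp.single (Sum.inr (0, 0)) k)
  simp only [Ch.arr, Ch.univ, MvPolynomial.coe_eval₂Hom, MvPolynomial.eval₂_X,
    MvPolynomial.coeff_X_pow, if_true, Finsupp.weight_single, Sum.elim_inr, smul_zero] at h1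
  exact absurd h1 (by decide)

/-- A cocycle with leading term `t ^ 3 ^ (j + 1)` has the normal form which is detected. -/
theorem det_of (ht : IsT1 3 t) {j : ℕ} {y : Cob Laz 1} (hy : (fun _ => y) ∈ ZS (3 ^ (j + 1)) 1)
    (h : rs p3 1 (y - t ^ 3 ^ (j + 1)) ∈ FI) : Cob.IsWt (Det.w0 j) y ∧ ∃ (z : Cob Laz 0) (c : ℤ),
      Cob.IsWt (Det.w0 j) z ∧ ¬ 3 ∣ c ∧ y - Cob.d 0 z - c * t ^ 3 ^ (j + 1) ∈ Det.II 1 := by
  obtain ⟨h1, x, h2, h3⟩ := of_zs hy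
  obtain ⟨c, z, -, h4, -, h5, -⟩ := P236K.listM ht (j := j) h1 h2 (r := 0) (by rw [h3]; ring)
  refine ⟨h1, z, c, h4, ?_, h5⟩
  rintro ⟨c, rfl⟩
  refine rs_pow ht (3 ^ (j + 1)) ?_
  have h6 := sub_mem (add_mem (rs_II (add_mem h5 (Det.three_mul_mem
    ((c : Cob Laz 1) * t ^ 3 ^ (j + 1)))))
    (rs_d_pos (w := 3 ^ (j + 1)) h4 (by positivity))) h
  rw [← map_add, ← map_sub] at h6
  convert h6 using 2
  push_cast
  ring

/-- A cocycle on the sphere which agrees with `x` on the bottom cell of `Y`. -/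
theorem rs_of_e0 {x : Cob Laz 1} (hw : 2 < w) (h : Pi.single 0 x ∈ BY t w 1) : rs p3 1 x ∈ FI := by
  obtain ⟨b, hb, u, -, e⟩ := mem_BQ_succ.1 h
  have h1 : ∀ c, rs p3 1 (Cob.cup (b c) (θY t c 0)) ∈ FI := fun c =>
    rs_cup_pos (w := w - c) (hb c) (by omega) _
  rw [← Pi.single_eq_same (M := fun _ : Fin 3 => Cob Laz 1) 0 x, ← e, Pi.add_apply, Pi.smul_apply,
    map_add, rs_three, add_zero, DD_apply, map_add, map_zsmul, map_sum]
  exact add_mem (rs_d_pos (w := w - 0) (hb 0) (by omega)) (zsmul_mem (sum_mem fun c _ => h1 c) _)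

end Vale.Agent.P236R
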