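import Vale.Agent.P236R.Alg
import Vale.Agent.P236EL.Grk

/-!
# P236: the facts about the cohomology modulo three which are used for the relations of Toda
-/

namespace Vale.Agent.P236F

open Vale.Agent.P251.F Vale.Agent.P251.I Vale.Agent.P236EL Vale.Agent.P236SY AddSubgroup

variable (t : Cob Laz 1)

/-- the product with `β_1` -/
noncomputable abbrev lb {J : Type} (s : ℕ) {r : ℕ} (h : 2 + s = r) :
    (J → Cob Laz s) →+ (J → Cob Laz r) := lc J h (bb t)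

/-- the class of `β_1 ^ 3 v_1` -/
noncomputable def b3v : Fin 1 → Cob Laz 6 := lb t 4 rfl (lb t 2 rfl (lb t 0 rfl fun _ => v1))

/-- The cohomology of the sphere modulo three vanishes. -/
def VS (w : ℤ) (s : ℕ) : Prop := ZS w s ≤ BS w s

/-- The cohomology of the sphere modulo three is generated by each of its nonzero elements. -/
def LS (w : ℤ) (s : ℕ) : Prop :=
  ∀ z ∈ ZS w s, z ∉ BS w s → ZS w s ≤ zmultiples z ⊔ BS w s

/-- All facts used for the relations of Toda. -/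
structure FX : Prop where
  /-- stem 34, a line of level 1 -/
  g34 : ZS 10 6 ≤ zmultiples (b3v t) ⊔ BS 10 6
  /-- stem 34, a line of level 0 -/
  g33 : ∀ {x c}, Grk 1 1 x c → ZS 9 2 ≤ zmultiples (fun _ => c) ⊔ BS 9 2
  /-- stem 78: the group has generators of levels 3, 1, 0 and `β_1 ^ 2 β_4` has level 3 -/
  rel : ∀ {x c x₂ c₂ x₄ c₄}, Grk 1 1 x c → Grk 0 2 x₂ c₂ → Grk 0 4 x₄ c₄ →
    lb t 4 rfl (lc _ (show 2 + 2 = 4 from rfl) c fun _ => c) ∈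
      closure {lc _ (show 2 + 4 = 6 from rfl) c₂ (lc _ (show 2 + 2 = 4 from rfl) c₂ fun _ => c₂),
        lb t 4 rfl (lb t 2 rfl fun _ => c₄)} ⊔ BS 21 6
  v77 : VS 23 15
  v54 : VS 14 2
  /-- stem 44, a line of level 0 -/
  l44 : LS 12 4
  /-- `β_1 ^ 4 α_1` is not zero, it has level 0 -/
  n43 : lb t 7 rfl (b3 t t) ∉ BS 13 9

end Vale.Agent.P236F

namespace Vale.Agent.P236R

open Vale.Agent.P251.F Vale.Agent.P251.I Vale.Agent.P236EL Vale.Agent.P236SY Vale.Agent.P236F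
  Vale.Agent.P236VL AddSubgroup MvPolynomial

variable {t : Cob Laz 1} {w w' : ℤ} {s r : ℕ}

theorem vs_of_lt (ht : IsT1 3 t) (h : 2 * w + s % 2 < 3 * s) : VS w s :=
  le_of_hv (fun _ _ => Cob.isWt_zero _) (by
    have h1 : (fun a b : Fin 1 => rq 3 1 ((0 : Fin 1 → Fin 1 → Cob Laz 1) a b)) =
        (Ga.sph (ZMod 3)).tht r3.o (rq 3 1 t) := funext₂ fun a b => by
      simp [Ga.tht, Ga.ent, Ga.sph, Subsingleton.elim a b]
    rw [h1]
    exact hv_sph ht h)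

theorem d_bb (ht : IsT1 3 t) : Cob.d 2 (bb t) = 0 := by
  have h1 : Cob.d 1 (2 * t) = 0 := by rw [d_two, d_t ht, mul_zero]
  have h2 : Cob.d 1 (2 * t ^ 2) = -cupH (show 1 + 1 = 2 from rfl) (2 * t) (2 * t) := by
    rw [d_two, d_sq (d_t ht), cupH_apply, cupE_rfl]
    simp only [Cob.cup, map_mul, map_ofNat]
    ring
  rw [bb, map_add, ← cupE_rfl, ← cupE_rfl, d_cupE, d_cupE, h1, h2]
  simp only [← cupH_apply, map_zero, map_neg, AddMonoidHom.neg_apply, AddMonoidHom.zero_apply]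
  simp only [cupH_apply]
  rw [cupE_assoc _ _ (show 1 + 1 = 2 from rfl) (show 1 + 2 = 3 from rfl)]
  simp

section

variable {ι : Type} [Fintype ι] {θ : ι → ι → Cob Laz 1} {d : ι → ℤ} (ht : IsT1 3 t) (hθ : MC θ)
  (h : 2 + s = r) {x : ι → Cob Laz s}
include ht hθ

theorem DD_lb : DD θ r (lb t s h x) = lb t (s + 1) (by omega) (DD θ s x) := by
  rw [DD_lc hθ, d_bb ht, map_zero, AddMonoidHom.zero_apply, zero_add, neg_one_sq, one_smul]

theorem lbZ (e : 3 + w = w') (hx : x ∈ ZC 3 θ d w 3 s) : lb t s h x ∈ ZC 3 θ d w' 3 r :=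
  lcZ hθ h (zs_bb ht) e hx

theorem lbB (e : 3 + w = w') (hx : x ∈ BQ 3 θ d w 3 s) : lb t s h x ∈ BQ 3 θ d w' 3 r :=
  lcB hθ h (zs_bb ht) e hx

end

theorem b3v_mem (ht : IsT1 3 t) : b3v t ∈ ZS 10 6 :=
  lbZ ht mc_zero _ (w := 7) rfl (lbZ ht mc_zero _ (w := 4) rfl
    (lbZ ht mc_zero _ (w := 1) rfl (zs_v1 ht)))

theorem b3t_mem (ht : IsT1 3 t) : b3 t t ∈ ZS 10 7 :=
  lbZ ht mc_zero _ (w := 7) rfl (lbZ ht mc_zero _ (w := 4) rfl
    (lbZ ht mc_zero _ (w := 1) rfl (zs_t ht)))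

theorem DD_b3v (ht : IsT1 3 t) : DD 0 6 (b3v t) = 3 • b3 t t := by
  rw [b3v, DD_lb ht mc_zero, DD_lb ht mc_zero, DD_lb ht mc_zero,
    show DD 0 0 (fun _ : Fin 1 => v1) = 3 • fun _ => t from funext fun c => by
      rw [DD_zero, d_v1 ht]; rfl, map_nsmul, map_nsmul, map_nsmul]
  rfl

/-- The leading term of `β_(3/3)` on the Moore spectrum. -/
theorem rs_grk (ht : IsT1 3 t) {x : Cob Laz 1} {c : Cob Laz 2} (h : Grk 1 1 x c) :
    rs p3 1 (x - t ^ 3 ^ (1 + 1)) ∈ FI := by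
  rw [map_sub, map_pow, h.rx, rs_t1 p3 (by decide) ht, gF, gk, h2, h2, pow_zero, zero_mul, add_zero,
    mul_one, map_pow, show 3 ^ (1 + 1) = 3 * 3 ^ 1 from rfl, pow_mul]
  refine Ideal.mem_of_dvd _ (sub_dvd_pow_sub_pow _ _ _) ?_
  rw [tT, map_sub, map_pow, sub_sub_cancel_left, map_mul, Ch.arr_C, FI, Fil_pow]
  exact neg_mem (Ideal.mul_mem_right _ _ (Ideal.pow_le_pow_right one_le_two (pt_X_mem 0 0 2)))

/-- A nonzero element of a cyclic group of order three is a generator or its negative. -/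
theorem exists_unit {A : Type*} [AddCommGroup A] {B : AddSubgroup A} {z G : A}
    (h : G ∈ zmultiples z ⊔ B) (hG : G ∉ B) (h3 : (3 : ℤ) • z ∈ B) :
    ∃ u : ℤˣ, G - (u : ℤ) • z ∈ B := by
  obtain ⟨_, ⟨c, rfl⟩, b, hb, rfl⟩ := mem_sup.1 h
  have key : ∀ k : ℤ, 3 ∣ c - k → c • z + b - k • z ∈ B := fun k ⟨a, ha⟩ => by
    rw [add_sub_right_comm, ← sub_smul, ha, mul_comm, mul_smul]
    exact add_mem (zsmul_mem h3 a) hb
  rcases (by omega : 3 ∣ c - 0 ∨ 3 ∣ c - 1 ∨ 3 ∣ c - -1) with h1 | h1 | h1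
  · exact absurd (by simpa using key 0 h1) hG
  · exact ⟨1, key 1 h1⟩
  · exact ⟨-1, key (-1) h1⟩

theorem three_mem {ι : Type} [Fintype ι] {θ : ι → ι → Cob Laz 1} {d : ι → ℤ} {x : ι → Cob Laz s}
    (hx : x ∈ CW 3 Laz d w s) : (3 : ℤ) • x ∈ BQ 3 θ d w 3 s :=
  mem_sup_right (mem_QW.2 ⟨x, hx, (ofNat_zsmul _ _).symm⟩)

end Vale.Agent.P236R
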