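import Vale.Agent.P236R.Gen

/-!
# P236, steps R0 to R3
-/

open CategoryTheory MonoidalCategory Limits Pretriangulated MonObj

namespace Vale.Agent.P236SY

open GData Vale.Agent.P251 Vale.Agent.P251.T Vale.Agent.P251.S Vale.Agent.P251.H Vale.Agent.P251.M
  Vale.Agent.P251.F Vale.Agent.P251.I TD Vale.Agent.P236EL Vale.Agent.P236F Vale.Agent.P236R
  Vale.Agent.P236Z
open Vale.Agent.P251.St (SHCat)

theorem rc_eq {J : Type} [Fintype J] [DecidableEq J] (θ : J → J → Cob Laz 1) {a b : ℕ}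
    (F : J → Cob Laz a) (z : Cob Laz b) : rc θ rfl F z = fun c' =>
      Cob.cup (F c') z + ∑ c, Cob.cup (F c) (z * Cob.map (Cx.edge b) (θ c c')) :=
  funext fun c' => by
    simp only [P236EL.rc, mc_apply, P236EL.tp, _root_.mul_add, ← P236EL.cupH_apply,
      map_add,
      Finset.sum_add_distrib, mul_ite, _root_.mul_one, mul_zero, apply_ite (P236EL.cupH _ _),
      map_zero, Finset.sum_ite_eq', Finset.mem_univ, if_true]
    rfl

variable {T : SHCat} {t : Cob Laz 1} {C : Cx T}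

namespace Cx.CY

variable (P : C.CY t) (ht : IsT1 3 t) (hv : ∀ a ∈ vl, VY t a.1 a.2)
include ht

include P hv in
theorem exists_theta {z : Cob Laz 1} (hz : (fun _ => z) ∈ ZS 27 1) (hb : b3 t z ∈ BS 36 7) :
    ∃ x, C.E.Rep 107 1 x (C.φM C.Γ 1 z) := by
  obtain ⟨y, hy⟩ := (cmS (C := C)).exists_ob (n := 107) hz (by norm_num)
  have h1 := ob_pre P.rep_β hy (r := 3) (l := 117) rfl rfl
  have h2 := ob_pre P.rep_β h1 (r := 5) (l := 127) rfl rfl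
  have h3 := ob_pre P.rep_β h2 (r := 7) (l := 137) rfl rfl
  have h4 := h3.eq_zero (cmS.cb hb rfl).q_k
  have h5 := P.β_inj h2.dg (P.z0_Y ht hv (by decide)) (P.z0_Y ht hv (by decide))
    ((smul_eq_zero_iff_eq _).1 h4)
  have h6 := P.β_inj h1.dg (P.z0_Y ht hv (by decide)) (P.z0_Y ht hv (by decide))
    ((smul_eq_zero_iff_eq _).1 h5)
  obtain rfl := P.β_inj hy.dg (P.z0_Y ht hv (by decide)) (P.z0_Y ht hv (by decide))
    ((smul_eq_zero_iff_eq _).1 h6)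
  obtain ⟨x, hx⟩ := hy.rep
  exact ⟨x, by rwa [psi_eS] at hx⟩

theorem exists_f : ∃ f, C.E.Rep 35 1 f (C.φM P.Y 1 (t ^ 9)) := by
  obtain ⟨y, hy⟩ := TD.exists_ob (n := 35) (c := C.φM P.Y 1 (t ^ 9)) ((deg_Φ _ _
    (zs_iff.1 (zs_nine ht)).1 rfl).comp (deg_Qm _ (deg_io _)) rfl) (φM_cyc (zs_nine ht))
  obtain rfl := P.zero_Y hy.dg (P.z0_Y₀ ht (by decide)) (P.z0_Y₀ ht (by decide))
    (P.z0_Y₀ ht (by decide))
  exact hy.rep

theorem z0_A : C.Z0 (C.o (P.A ⊗ C.M)) 31 6 := fun x hx =>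
  P.chA.cm.eq_zero (s := 6) hx fun r w h1 h2 _ => by
    obtain ⟨r, rfl⟩ : ∃ k, r = k + 1 := ⟨r - 1, by omega⟩
    exact vt_of_lt ht (by omega)

variable {f : C.o P.Y ⟶ C.o (P.Y ⊗ C.M)} (hf : C.E.Rep 35 1 f (C.φM P.Y 1 (t ^ 9)))
include hf

omit ht in
theorem rep_hY :
    C.E.Rep 35 1 (C.E.ι P.e₀ ≫ f) (C.psi (mE P.eY) 1 (Pi.single 0 (t ^ 9))) :=
  P.psi_e₀ (t ^ 9) ▸ hf.ι_comp (m := 0) P.st₃.deg₁ rfl

/-- Step R0: the Toda differential on `Y ⊗ M`. -/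
theorem r0 (hA : P236K.EA) : ∃ y, ∃ F ∈ ZT t 9 5, F ∉ BT t 9 5 ∧
    C.E.Rep 31 5 y (C.psi (mE P.eA) 5 F) ∧
    (C.E.ι P.e₀ ≫ f) ≫ C.E.ι (wr P.q C.M) = y ≫ C.E.tp 4 _ := by
  have h1 := (hf.ι_comp (m := 0) (l := 35) P.st₃.deg₁ rfl).comp_even (m := -4) (l := 31)
    (P.st₃.wr C.M).deg₂ (by decide) rfl
  rw [Category.assoc P.e₀, φM_wr, ← Category.assoc P.e₀, (P.st₃.ses (ob C.Γ)).zero, zero_comp,
    ← map_zero (C.psi (mE P.eA) 1)] at h1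
  obtain ⟨y, hy, e⟩ := P.chA.cm.div4 (w := 8) h1 (zero_mem _) (by norm_num)
  obtain ⟨F, hF, h2⟩ := P.chA.cm.exists_rep (s := 5) (w := 9) hy (by norm_num)
  refine ⟨y, F, hF, fun h3 => not_exf hA ?_, h2, e⟩
  rw [P.chA.cm.zero_of h2 h3 (by norm_num) (P.z0_A ht), zero_comp] at e
  obtain ⟨y', hy', e'⟩ := (P.st₃.wr C.M).stri.co₂ (m := 35) (P.rep_hY hf).dg e rfl
  obtain ⟨z, hz, h4⟩ := cmS.exists_rep (s := 1) (w := 9) hy' (by norm_num)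
  rw [psi_eS] at h4
  have h5 := P.rep_e₀ h4
  rw [← e'] at h5
  have h6 := P.chY.cm.rep_uniq (w := 9) h5 (P.rep_hY hf) (single_CW (c₀ := 0) rfl hz.1)
    (single_CW (c₀ := 0) (z := fun _ => t ^ 9) rfl (zs_nine ht).1) (by norm_num)
  rw [← Pi.single_sub] at h6
  rw [zs_eta z] at hz
  exact exf_of ht (j := 1) hz (rs_of_e0 (by norm_num) h6) h4

include hv in
theorem hat_hat : C.hat (C.E.ι P.e₀ ≫ f) ≫ C.hat f = 0 := by
  have h1 := (P.rep_hY hf).dg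
  obtain ⟨y, hy, e⟩ := of_rd (m := 71) ((dg_hat h1).comp (dg_hat hf.dg) (l := 70) (u := 2) rfl rfl)
    (by
      rw [rd_hat_assoc]
      exact P.z0_Y ht hv (n := 70) (s := 2) (by decide) _ (h1.comp (dg_hat hf.dg) rfl rfl)) rfl
  rw [e, P.z0_Y ht hv (by decide) y hy, comp_zero]

variable {z : Cob Laz 1} (hz : Th t z) {x : C.o C.Γ ⟶ C.o (C.Γ ⊗ C.M)}
  (hx : C.E.Rep 107 1 x (C.φM C.Γ 1 z))
include hz hx

omit hf in
theorem perm_139 (h : G139 t) (F : Fin 2 → Cob Laz 1) (hF : F ∈ ZT t 35 1) :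
    ∃ y, C.E.Rep 139 1 y (C.psi (mE P.eA) 1 F) := by
  obtain ⟨a, ha, b, hb, rfl⟩ := AddSubgroup.mem_sup.1 (h z hz hF)
  obtain ⟨y, hy⟩ : ∃ y, C.E.Rep 139 1 y (C.psi (mE P.eA) 1 a) := by
    clear hF
    induction ha using AddSubgroup.closure_induction with
    | mem a ha =>
      rcases ha with rfl | rfl
      · exact perm_v ht (P.rep_i₁ hx) _ 8
      · exact perm_v ht (Chart.rep_red_psi P.rep_αt) _ 33
    | zero => exact ⟨0, by rw [map_zero]; exact rep_zero _ _⟩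
    | add a b _ _ ha hb => exact ⟨_, by rw [map_add]; exact ha.choose_spec.add hb.choose_spec⟩
    | neg a _ ha => exact ⟨_, by rw [map_neg]; exact ha.choose_spec.neg⟩
  exact ⟨y, P.chA.cm.rep_congr (w := 35) hy (by rwa [add_sub_cancel_left]) (by norm_num)⟩

include hv in
/-- Step R1. -/
theorem r1 (hA : P236K.EA) (h142 : G142 t) (h139 : G139 t) (h138 : N138 t) :
    ∃ y, ∃ F ∈ ZY t 37 6, F ∉ BY t 37 6 ∧ C.E.Rep 142 6 y (C.psi (mE P.eY) 6 F) ∧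
      ∃ u : ℤˣ, u • x ≫ C.hat (C.E.ι P.e₀ ≫ f) = y ≫ C.E.tp 4 _ := by
  obtain ⟨y₅, F₅, k1, k2, k3, k4⟩ := P.r0 ht hf hA
  have h1 := rep_mul hx (P.rep_hY hf) (r := 2) (l := 142) rfl rfl
  rw [lc_single] at h1
  obtain ⟨y, hy, e⟩ := P.chY.cm.div4 (w := 36) h1
    (e0_142 ht h142 (zs_cupE _ hz.1 (by norm_num) (zs_nine ht))) (by norm_num)
  obtain ⟨F, hF, h2⟩ := P.chY.cm.exists_rep (s := 6) (w := 37) hy (by norm_num)
  refine ⟨y, F, hF, fun h3 => k2 (h138 z hz F₅ k1 ?_), h2, _, e⟩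
  rw [P.chY.cm.zero_of h2 h3 (by norm_num) (P.z0_Y ht hv (by decide)), zero_comp,
    smul_eq_zero_iff_eq] at e
  have h4 := rep_mul hx k3 (r := 6) (l := 138) rfl rfl
  have h5 := P.chA.cm.tp_inj (s := 1) (n := 139) (w := 35) h4.dg rfl (by norm_num)
    (P.perm_139 ht hz hx h139) (by
      rw [Linear.units_smul_comp, Category.assoc, ← hat_tp, ← k4, ← UF.sr_ι, ← hat_sr,
        reassoc_of% e, zero_comp, smul_zero])
  rw [h5] at h4
  exact P.chA.cm.by_of_zero h4 (lcZ (mc_A ht) _ hz.1 (by norm_num) k1).1 (by norm_num)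

omit hf hz hx in
include hv in
/-- Steps R0 to R2: a nonzero class in stem 177 which is killed by `τ ^ 4`. -/
theorem r2 (hA : P236K.EA) (hT : FT t) (h142 : G142 t) (h139 : G139 t) (h138 : N138 t)
    (h177 : N177 t) : ∃ y, ∃ F ∈ ZY t 46 7, F ∉ BY t 46 7 ∧
      C.E.Rep 177 7 y (C.psi (mE P.eY) 7 F) ∧ y ≫ C.E.tp 4 _ = 0 := by
  obtain ⟨z, hz, hb⟩ := exists_th ht hT
  obtain ⟨x, hx⟩ := P.exists_theta ht hv hz.1 hb
  obtain ⟨f, hf⟩ := P.exists_f ht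
  obtain ⟨y, F, k1, k2, k3, u, k4⟩ := P.r1 ht hv hf hz hx hA h142 h139 h138
  have h1 := (k3.comp (rep_hat_φ hf) (l := 177) rfl).usmul (((6 : ℕ) : ℤ) * 35).negOnePow
  rw [smul_smul, Int.units_mul_self, one_smul, P.chY.cm.cells.psi_cup_φ, ← rc_eq] at h1
  have h2 := lc_rc (mc_Y ht) (show 1 + 6 = 7 from rfl) (zs_nine ht) (w' := 46) (by norm_num)
    (wt_Y ht) rfl k1
  rw [Even.neg_one_pow (by decide), one_smul] at h2
  have h3 := lcZ (mc_Y ht) (show 1 + 6 = 7 from rfl) (zs_nine ht) (w' := 46) (by norm_num) k1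
  refine ⟨_, _, ?_, fun h4 => k2 (h177 F k1 ?_), h1, ?_⟩
  · simpa using sub_mem h3 (BQ_le_ZC (wt_Y ht) (mc_Y ht) h2)
  · simpa using add_mem h2 h4
  · rw [Linear.units_smul_comp, Category.assoc, ← tp_comm, ← reassoc_of% k4,
      Linear.units_smul_comp, Category.assoc, P.hat_hat ht hv hf, comp_zero, smul_zero, smul_zero]

omit hf hz hx in
/-- Step R3: a nonzero class in stem 330 which is killed by `τ ^ 4`. -/
theorem r3' (hA : P236K.EA) (h : FR t) : ∃ y, ∃ F ∈ ZY t 86 14, F ∉ BY t 86 14 ∧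
    C.E.Rep 330 14 y (C.psi (mE P.eY) 14 F) ∧ y ≫ C.E.tp 4 _ = 0 := by
  obtain ⟨y, F, k1, k2, k3, k4⟩ := P.r2 ht h.van hA h.ft h.g142 h.g139 h.n138 h.n177
  obtain ⟨u, hu, Ω, hΩ, h0⟩ := h.u173
  obtain ⟨ω, hω⟩ := P.chY.cm.exists_rep_of (n := 153) hΩ (by norm_num)
    (P.z0_Y ht h.van (by decide))
  obtain ⟨g, hg, rfl⟩ := P.ext_Y hω.dg (P.z0_Y ht h.van (by decide)) (P.z0_Y ht h.van (by decide))
  obtain ⟨Ω', -, h2, h3⟩ := P.rep_ext hg hω hΩ.1 (by norm_num)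
  have h4 := zs_cupE (zero_add 7) (zs_v1 ht) (w' := 46) (by norm_num) hu
  obtain ⟨_, ha, b, hb, e⟩ := AddSubgroup.mem_sup.1
    (h.l177 F k1 k2 (single_ZC (c₀ := 0) θY_zero rfl h4))
  obtain ⟨c, rfl⟩ := AddSubgroup.mem_zmultiples_iff.1 ha
  have h5 := k3.zsmul c
  rw [← map_zsmul] at h5
  have h6 := h3 (P.chY.cm.rep_congr (w := 46) h5 (by rwa [← e, add_sub_cancel_left])
    (by norm_num)) (r := 14) (l := 330) rfl rfl
  have h7 := lcB (mc_Y ht) (show 7 + 7 = 14 from rfl) h4 (w' := 86) (by norm_num) h2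
  have h8 := lcZ (mc_Y ht) (show 7 + 7 = 14 from rfl) h4 (w' := 86) (by norm_num) hΩ
  rw [map_sub] at h7
  refine ⟨_, _, ?_, fun h9 => h0 ?_, h6, ?_⟩
  · simpa using add_mem (BQ_le_ZC (wt_Y ht) (mc_Y ht) h7) h8
  · rw [← lc_lc (zero_add 7) (show 7 + 7 = 14 from rfl)]
    simpa using sub_mem h9 h7
  · rw [Linear.units_smul_comp, Category.assoc, ← tp_comm, ← Category.assoc,
      Preadditive.zsmul_comp, k4, smul_zero, zero_comp, smul_zero]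

omit hf hz hx in
/-- Step R3. -/
theorem r3 (hA : P236K.EA) (h : FR t) {x : C.o C.Γ ⟶ C.o (P.Y ⊗ C.M)} (hx : C.E.Dg 330 14 x) :
    x ≫ C.E.tp 4 _ = 0 := by
  obtain ⟨y, F, k1, k2, k3, k4⟩ := P.r3' ht hA h
  obtain ⟨G, hG, h1⟩ := P.chY.cm.exists_rep (s := 14) (w := 86) hx (by norm_num)
  obtain ⟨_, ha, b, hb, rfl⟩ := AddSubgroup.mem_sup.1 (h.l330 F k1 k2 hG)
  obtain ⟨c, rfl⟩ := AddSubgroup.mem_zmultiples_iff.1 ha
  have h2 := k3.zsmul c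
  rw [← map_zsmul] at h2
  obtain ⟨y', hy', rfl⟩ := P.chY.cm.eq_add (w := 86) h1 h2 (by rwa [add_sub_cancel_left])
    (by norm_num)
  rw [P.z0_Y ht h.van (by decide) y' hy', zero_comp, add_zero, Preadditive.zsmul_comp, k4,
    smul_zero]

end Cx.CY

end Vale.Agent.P236SY
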