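import Vale.Agent.P236R.Toda
import Vale.Agent.P236SY.Zt

/-!
# P236: the group of stem 330 and filtration 10 of `Y ⊗ M` vanishes
-/

open CategoryTheory MonoidalCategory Limits Pretriangulated MonObj

namespace Vale.Agent.P236SY

open GData Vale.Agent.P251 Vale.Agent.P251.T Vale.Agent.P251.S Vale.Agent.P251.H Vale.Agent.P251.M
  Vale.Agent.P251.F Vale.Agent.P251.I TD Vale.Agent.P236EL Vale.Agent.P236F Vale.Agent.P236R
  Vale.Agent.P236Z
open Vale.Agent.P251.St (SHCat)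

variable {T : SHCat} {t : Cob Laz 1} {C : Cx T}

variable (t) in
/-- The facts about the stems 329 and 330 of `Y`. -/
structure F330 : Prop where
  /-- the generator of stem 295 (level 1) times `β_(3/3)` is the generator of stem 329 -/
  g295 : ∀ {x c}, Grk 1 1 x c → ∃ G ∈ ZY t 77 13, lc _ (show 2 + 13 = 15 from rfl) c G ∉ BY t 86 15
  l330 : LY t 85 10
  v62 : VY t 16 2
  v66 : VY t 17 2
  v70 : VY t 18 2
  /-- the product with `v_1` is injective on the multiples of `β_4` in stem 330 -/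
  k272 : ∀ {x c}, Grk 0 4 x c → ∀ F ∈ ZY t 69 4, lc _ (show 0 + 6 = 6 from rfl) v1
    (lc _ (show 2 + 4 = 6 from rfl) c F) ∈ BY t 85 6 →
      lc _ (show 2 + 4 = 6 from rfl) c F ∈ BY t 84 6

section alg

variable {J : Type} [Fintype J] {d : J → ℤ} {θ : J → J → Cob Laz 1} {a s r : ℕ} {ω w v : ℤ}

/-- The Bockstein of a product. -/
theorem DD_lc_three (hθ : MC θ) (h : a + s = r) {x : Cob Laz a} {c : Cob Laz (a + 1)}
    (hx : Cob.d a x = 3 • c) {G : J → Cob Laz s} {G' : J → Cob Laz (s + 1)}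
    (hG : DD θ s G = 3 • G') : DD θ r (lc J h x G) = 3 • (lc J (by omega) c G +
      (-1 : ℤ) ^ a • lc J (show a + (s + 1) = r + 1 by omega) x G') := by
  rw [DD_lc hθ, hx, hG, map_nsmul, map_nsmul, AddMonoidHom.nsmul_apply, smul_add, smul_comm]

end alg

namespace Cx

theorem Chart.cy_bock {J : Type} [Fintype J] {d : J → ℤ} {θ : J → J → Cob Laz 1} {s : ℕ} {w : ℤ}
    {Z : T.C} {e : J → (ob C.Γ ⟶ C.Q 0 Z)} (H : C.Chart e d θ) {F : J → Cob Laz s}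
    {c : J → Cob Laz (s + 1)} (hc : c ∈ CW 3 Laz d w (s + 1)) (h : DD θ s F = 3 • c) :
    Cy d θ (s + 1) w 3 c :=
  H.cm.cy_of_cyc hc (by rw [← psi_comp]; exact cyc_Qm (H.cyc_bock h) _)

namespace CY

variable (P : C.CY t) (ht : IsT1 3 t) (hA : P236K.EA) (hR : FR t) (hH : VH t) (h : F330 t)
include ht hA hR hH h

/-- The generator of stem 330 and degree 10 supports a differential. -/
theorem d5_330 : ∃ F G, P.DZ 3 10 15 85 86 F G ∧ G ∉ BY t 86 15 := by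
  obtain ⟨x, c, hx⟩ := exists_grk 1 1
  obtain ⟨G, hG, h0⟩ := h.g295 hx
  obtain ⟨-, G', h1, h2⟩ := cy_iff.1 hG
  have h3 := lcZ (mc_Y ht) (show 1 + 13 = 14 from rfl) (hx.zx (ω := 9) rfl) (w' := 86) rfl hG
  obtain ⟨y, hy⟩ := P.chY.cm.exists_rep_of (n := 330) h3 rfl (P.z0_Z₀ ht hH (by decide))
  obtain ⟨F, h4⟩ := P.chY.cm.dr_of_tor (k := 3) (s := 9) (w := 85) rfl rfl rfl h3 hy
    (P.r3 ht hA hR hy.dg)
  obtain ⟨-, F', h5, h6⟩ := cy_iff.1 h4.cy
  obtain ⟨u, hu⟩ := P.chY.dr_δ 3 9 14 85 86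
  have h7 := lcB (mc_Y ht) (show 1 + 14 = 15 from rfl) (hx.zx (ω := 9) rfl) (w' := 86) rfl
    (hH 77 14 (by decide) (P.chY.cy_bock h1 h2))
  have h8 := lcZ (mc_Y ht) (show 2 + 13 = 15 from rfl) (hx.zc (ω := 9) rfl) (w' := 86) rfl hG
  refine ⟨F', _, hu h4 h5 (add_mem h8 (zsmul_mem (P.chY.cm.cy_of_by h7) _)).1 h6
    (DD_lc_three (mc_Y ht) _ hx.d h2), fun h9 => h0 ?_⟩
  have h10 := zsmul_mem h9 u
  rw [smul_smul, ← Units.val_mul, Int.units_mul_self, Units.val_one, one_smul] at h10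
  exact (AddSubgroup.add_mem_cancel_right _ (zsmul_mem h7 _)).1 h10

theorem z0_330 : C.Z0 P.oZ 330 10 := by
  obtain ⟨F, G, h1, h2⟩ := P.d5_330 ht hA hR hH h
  exact P.chY.cm.z0 (s := 10) (w := 85) rfl (P.chY.cm.line_not rfl h.l330 h1.cy
    (P.chY.cm.not_perm h1 h2 rfl)) (fun _ hx => P.r3 ht hA hR hx) rfl

/-- Lemma K. -/
theorem lemK (hX : FX t) (hK : P.KZ) : C.Tor C.oM 12 322 18 := by
  obtain ⟨x, c, hx⟩ := exists_grk 0 4
  obtain ⟨ε, Q, k, h1⟩ := P.toda ht hA hX hx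
  refine h1.lemK hK (fun F hF => h.k272 hx F hF ?_) ((P.z0_330 ht hA hR hH h).kill _)
  rw [← lc_lc (zero_add 2) (show 2 + 4 = 6 from rfl)]
  exact P.lc_kill ht (zs_cupE _ (zs_v1 ht) (w' := 16) rfl (hx.zc (ω := 15) rfl)) h.v62 h.v66 h.v70
    hF _ rfl

end CY

end Cx

end Vale.Agent.P236SY
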