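import Vale.Agent.P236R.PhiC
import Vale.Agent.P236JG.Base

/-!
# P236R / PhiU : the product with `β_4 β_(3/3) β_1` on the stem 228 of `C α`
-/

noncomputable section

namespace Vale.Agent.P236R

open Vale.Agent.P251.F Vale.Agent.P251.I Vale.Agent.P236SY Vale.Agent.P236EL
open Vale.Agent.P236KE Vale.Agent.P236K3 Vale.Agent.P236F AddSubgroup Vale.Agent.P236KE.S90
open Vale.Agent.P236JG Vale.Agent.P236JT Vale.Agent.P236JX

variable [hp : Fact (Nat.Prime 3)] {t : Cob Laz 1}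

theorem phi_all (ht : IsT1 3 t) (h : HK) {x c x₄ c₄} (hx : Grk 1 1 x c) (h₄ : Grk 0 4 x₄ c₄) :
    ∀ Y ∈ ZT t 59 8, lc _ (zero_add 8) v1 Y ∈ BT t 60 8 → ![Y 1, 0, 0] ∉ BY t 58 8 →
      lc _ (show 2 + 12 = 14 from rfl) c₄ (lc _ (show 2 + 10 = 12 from rfl) c
        (lb t 8 rfl fun _ => Y 1)) ∈ (ZS 85 14 ⊓ Fl p3 _ 14 (II 3 (ZMod 3) ^ 2)) ⊔ BS 85 14 ∧
      lc (Fin 1) (show 2 + 12 = 14 from rfl) c₄ (lc _ (show 2 + 10 = 12 from rfl) c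
        (lb t 8 rfl fun _ => Y 1)) ∉ BS 85 14 := fun Y hY h1 h2 => by
  have H := w3 h ht
  have L := lf_nm (R := jA) (θ := θA t) (E := eA eJ) (ix := iJ eJ 2) (H.A.cx.ok 8) 59 [(0, 0)]
    [(3, 3)]
  have M := (((L.jA H).bm H.S ht rfl).b2 H.S hx (show 2 + 10 = 12 from rfl)).b0 H.S h₄
    (show 2 + 12 = 14 from rfl)
  obtain ⟨u, hu, h3⟩ := rep2 H.A (grd_spec a228).1 hY
  refine ⟨?_, fun h4 => h2 (((L.jA H).e0 H).memB H.Y (hv H.Y (grd_spec d228).2) (grd_spec d228).1 h3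
    (M.ker H.S .nil (grd_spec b228).1 h3 (WxJ.spn_append ((L.v1 H.A ht (zero_add 8)).ker H.A .nil
      (grd_spec a228).2 h3 hu (mem_sup_right h1))) (mem_sup_right h4)))⟩
  obtain ⟨f, hf⟩ := M
  have h5 := (lf0_spec H.S hf (grd_spec b228).2).2.2.2.2.1 Y u h3
  obtain ⟨y, hy, h6⟩ := h5.ex
  have h7 := h6.fl
  rw [P236J3.mI_pow] at h7
  exact mem_sup.2 ⟨_, mem_inf.2 ⟨sub_mem h5.zc (H.S.wd.bz hy), h7⟩, y, hy, sub_add_cancel _ _⟩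

end Vale.Agent.P236R

end
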