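import Vale.Agent.P236R.K291C
import Vale.Agent.P236JG.Base

/-!
# P236R / K291 : the kernel of `v_1 β ^ 3` on the stem 291
-/

noncomputable section

namespace Vale.Agent.P236R

open Vale.Agent.P251.F Vale.Agent.P251.I Vale.Agent.P236SY Vale.Agent.P236EL
open Vale.Agent.P236KE Vale.Agent.P236K3 Vale.Agent.P236F AddSubgroup Vale.Agent.P236KE.S90
open Vale.Agent.P236JG Vale.Agent.P236JT Vale.Agent.P236JX

variable [hp : Fact (Nat.Prime 3)] {t : Cob Laz 1}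

theorem k291_hk (ht : IsT1 3 t) (h : HK) : ∀ X ∈ ZS 75 9,
    lb t 13 rfl (lb t 11 rfl (lc _ (zero_add 11) v1 (lb t 9 rfl X))) ∈ BS 85 15 →
      ![X 0, 0, 0] ∈ BY t 75 9 := fun X hX hF => by
  have H := w3 h ht
  have L := lf_nm (R := jS) (θ := 0) (E := eJ) (ix := iS) (H.S.cx.ok 9) 75 [(0, 0)] [(3, 3)]
  obtain ⟨u, hu, h1⟩ := (H.S.ajSkip _ _ (H.S.geF (grd_spec a291).1)
    (rep H.S (grd_spec a291).2)).all X hX
  exact (L.e0 H).memB H.Y (hv H.Y d291) c291 h1 (((((L.bm H.S ht rfl).v1 H.S ht (zero_add 11)).bm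
    H.S ht rfl).bm H.S ht rfl).ker H.S .nil b291 h1 (WxJ.spn_append hu) (mem_sup_right hF))

end Vale.Agent.P236R

end
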