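import Vale.Agent.P236EL.Co
import Vale.Agent.P236F.Nm
import Vale.Agent.P236K3.Bk6

/-!
# P236R / RfS : small facts about the cohomology in the stems 15 to 225
-/

noncomputable section

namespace Vale.Agent.P236EL

open Vale.Agent.P251.F Vale.Agent.P251.I Vale.Agent.P236SY Vale.Agent.P236R
open Vale.Agent.P236KE Vale.Agent.P236K3 Vale.Agent.P236F AddSubgroup Vale.Agent.P236KE.S90

variable [hp : Fact (Nat.Prime 3)] {t : Cob Laz 1} (ht : IsT1 3 t)

include ht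

theorem rf_g58 {x c} (hx : Grk 1 1 x c) : ZS 16 6 ≤ zmultiples (lb t 4 rfl (lb t 2 rfl
    (lc _ (zero_add 2) v1 fun _ => c))) ⊔ BS 16 6 := by
  have S := wS 16 (by decide)
  have h : CS 16 2 (fun _ => c) _ :=
    CS.base (S.b2 hx rfl (cs_one ht (by decide)))
  exact (S.skip (T := 16) (a := 0) (b := 1) (by decide +kernel) (S.step (.one (S.bm ht rfl
    (S.bm ht rfl (S.v1 ht (zero_add 2) h)))) (by decide +kernel) (S.top (by decide +kernel)))).le

theorem rf_vx {x c} (hx : Grk 0 1 x c) : (lc _ (zero_add 1) v1 fun _ => x) ∈ BS 4 1 := by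
  have S := wS 4 (by decide)
  have h : CS 4 1 (fun _ => x) _ := CS.base (S.gm hx rfl (cs_one ht (by decide)))
  exact S.memB (T := 4) (k := 4) (S.v1 ht (zero_add 1) h) (S.top (by decide +kernel))
    (by decide +kernel)

theorem rf_v189 : VY t 49 7 :=
  ((wY ht 49 (by decide)).top (T := 49) (a := 0) (by decide +kernel)).van

theorem rf_l142 : LY t 37 6 := (wY ht 37 (by decide)).line (T := 37) 1 [⟨99, 1, 0, 0, 0, 1⟩]
  (by decide +kernel) (by decide +kernel) (by decide +kernel)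

theorem rf_l225 : LY t 57 3 := (wY ht 57 (by decide)).line (T := 57) 3 [⟨6, 0, 0, 3, 0, 1⟩]
  (by decide +kernel) (by decide +kernel) (by decide +kernel)

theorem rf_n224 {x c} (hx : Grk 1 2 x c) : ∃ G ∈ ZY t 37 6,
    lc _ (show 2 + 6 = 8 from rfl) c G ∉ BY t 58 8 := by
  have H := wY ht 58 (by decide)
  obtain ⟨x', c', hx'⟩ := exists_grk 2 1
  obtain ⟨G, hG, h⟩ := H.named (s := 6) 37 1 [⟨99, 1, 0, 0, 0, 1⟩] (by decide +kernel)
    (by decide +kernel)
  obtain ⟨y, -, h2⟩ := H.named (s := 5) 31 0 [⟨55, 0, 0, 0, 0, 1⟩, ⟨54, 0, 1, 0, 0, 2⟩,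
    ⟨52, 0, 2, 0, 0, 2⟩] (by decide +kernel) (by decide +kernel)
  exact ⟨G, hG, H.ne (T := 58) (k := 4) (H.b1 hx (show 2 + 6 = 8 from rfl) h)
    ((H.ds_step (k := 0) (.one (H.b2 hx' (show 2 + 5 = 7 from rfl) h2)) (by decide +kernel)
      (by decide)).trans (H.ds_skip (by decide +kernel) le_rfl)) (by decide +kernel)⟩

theorem rf_p189 : ∀ G ∈ ZY t 48 3, ![G 1, G 2, 0] ∈ BY t 47 3 → G ∈ BY t 48 3 := by
  have H := wY ht 48 (by decide)
  obtain ⟨y, -, h2⟩ := H.named (s := 1) 20 2 [⟨1, 0, 1, 1, 0, 1⟩, ⟨6, 0, 4, 0, 0, 1⟩,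
    ⟨6, 3, 0, 1, 0, 1⟩] (by decide +kernel) (by decide +kernel)
  have hd : Ds rY (θY t) 2 0 (7 - 2) 7 (47 : ℕ) :=
    (H.ds_skip (b := 2) (by decide +kernel) (by decide)).trans ((H.ds_step (k := 2)
      (.one (H.tm ht 27 (zs_27 ht) (show 1 + 1 = 2 from rfl) h2)) (by decide +kernel)
        (by decide)).trans (H.ds_skip (by decide +kernel) le_rfl))
  refine Al.all (R := rY) (T := 48) (H.skipA (b := 7) (by decide +kernel) ?_)
  exact H.stepA [[⟨68, 0, 7, 0, 0, 1⟩, ⟨69, 1, 6, 0, 0, 1⟩, ⟨71, 2, 5, 0, 0, 2⟩,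
    ⟨77, 6, 1, 0, 0, 1⟩]] (by decide +kernel) (H.sd (by decide) fun _ _ h hc hx =>
      (H.ne (T := 47) (k := 7) (CY.pp ht (by decide) h) hd hc hx).elim) (by decide +kernel)
    (H.topA (by decide +kernel) fun _ h _ => h)

theorem rf_e189 : ∀ F ∈ ZS 48 3, ![F 0, 0, 0] ∈ BY t 48 3 := fun F hF => by
  refine rf_p189 ht _ ?_ ?_
  · have h1 := single_ZC (c₀ := 0) (d := dF 3) (θY_zero (t := t)) rfl (zs_eta F ▸ hF)
    rwa [show (Pi.single 0 (F 0) : Fin 3 → Cob Laz 3) = ![F 0, 0, 0] from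
      funext fun c => by fin_cases c <;> rfl] at h1
  · change ![(0 : Cob Laz 3), 0, 0] ∈ BY t 47 3
    rw [show ![(0 : Cob Laz 3), 0, 0] = 0 from funext fun c => by fin_cases c <;> rfl]
    exact zero_mem _

theorem rf_vz : ∀ z ∈ ZY t 86 14, lc _ (zero_add 14) v1 z ∈ BY t 87 14 := by
  have H := wY ht 87 (by decide)
  refine Al.all (R := rY) (T := 86) (H.skipA (b := 2) (by decide +kernel) ?_)
  exact H.al (fun _ _ h hc => H.memB (T := 87) (k := 1) (H.v1 ht (zero_add 14) h)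
    (H.top (by decide +kernel)) hc) (by decide +kernel)

theorem rf_c10 {x c} (hx : Grk 0 1 x c) :
    (fun _ => bb t) ∈ zmultiples (fun _ => c) ⊔ BS 3 2 := by
  have B := wbS 3 (by decide)
  have S := B.wx
  have h : CS 3 1 (fun _ => x) _ := CS.base (S.gm hx rfl (cs_one ht (by decide)))
  have h1 : CS 3 2 (fun _ => bb t) _ := CS.base (S.bm ht rfl (cs_one ht (by decide)))
  exact S.mem (T := 3) (k := 1) h1 (.one (B.bock h 3 (hx.zc rfl)
    (funext fun i => (DD_zero (fun _ : Fin 1 => x) i).trans hx.d)))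
    (S.top (by decide +kernel)) (by decide +kernel)

end Vale.Agent.P236EL

end
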