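import Vale.Agent.P236JG.Dat
import Vale.Agent.P236JY.EmF

/-!
# P236R / T275C : checks for the classes of the stems 228 and 276 of `Y`
-/

namespace Vale.Agent.P236R

open Vale.Agent.P236EL Vale.Agent.P236KE Vale.Agent.P236K3 Vale.Agent.P236F Vale.Agent.P236JX
  Vale.Agent.P236JT Vale.Agent.P236JG

/-- the terms of a class of stem 228 -/
def l228 : List Tr := [⟨22, 0, 0, 0, 0, 1⟩, ⟨6, 0, 0, 0, 1, 1⟩]

/-- the terms of a class of stem 276 -/
def l276 : List Tr := [⟨22, 0, 3, 0, 0, 1⟩, ⟨6, 0, 3, 0, 1, 1⟩, ⟨106, 4, 0, 0, 0, 2⟩,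
  ⟨107, 4, 0, 0, 0, 1⟩]

theorem c228 : grd ((eY eJ).exCF 4 58 0 2 l228) ((eY eJ).htAF 5 58 1 50) = true := by
  decide +kernel

theorem c276 : grd ((eY eJ).exCF 4 70 3 2 l276) ((eY eJ).htAF 5 70 4 59) = true := by
  decide +kernel

end Vale.Agent.P236R
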