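import Vale.Agent.P236R.T275A
import Vale.Agent.P236R.T275C
import Vale.Agent.P236JG.Base

/-!
# P236R / T275J : the classes of the stems 228 and 276 of `Y`
-/

noncomputable section

namespace Vale.Agent.P236EL

open Vale.Agent.P251.F Vale.Agent.P251.I Vale.Agent.P236SY Vale.Agent.P236R
open Vale.Agent.P236KE Vale.Agent.P236K3 Vale.Agent.P236F AddSubgroup Vale.Agent.P236KE.S90
open Vale.Agent.P236JG (HK wnY)

variable [hp : Fact (Nat.Prime 3)] {t : Cob Laz 1} (ht : IsT1 3 t)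

include ht

theorem ex228 (h : HK) : ∃ g, LY' t 4 58 0 2 l228 g := by
  have H := wnY h ht
  have h1 := H.ex (H.exCF (grd_spec c228).1) (H.hi (H.htAF (grd_spec c228).2)) (by decide)
  rwa [iT_eq 90 3] at h1

theorem ex276 (h : HK) : ∃ g, LY' t 4 70 3 5 l276 g := by
  have H := wnY h ht
  have h1 := H.ex (H.exCF (grd_spec c276).1) (H.hi (H.htAF (grd_spec c276).2)) (by decide)
  rwa [iT_eq 90 3] at h1

theorem tf_255 {x c g} (hx : Grk 0 2 x c) (hg : LY' t 4 58 0 2 l228 g) :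
    ZY t 65 5 ≤ zmultiples (lc _ (show 1 + 4 = 5 from rfl) x g) ⊔ BY t 65 5 :=
  have H := wY ht 65 (by decide)
  (H.skip (T := 65) (a := 0) (b := 2) (by decide +kernel) (H.step (.one (H.gm hx
    (show 1 + 4 = 5 from rfl) (H.nmE (iT_eq 65 3) hg (by decide)))) (by decide +kernel)
      (H.top (by decide +kernel)))).le

theorem tf_303 {x c y d g k} (hx : Grk 0 2 x c) (hy : Grk 0 5 y d) (hg : LY' t 4 58 0 2 l228 g)
    (hk : LY' t 4 70 3 5 l276 k) : lc _ (show 1 + 4 = 5 from rfl) y g ∈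
      zmultiples (lc _ (show 1 + 4 = 5 from rfl) x k) ⊔ BY t 77 5 :=
  have H := wY ht 77 (by decide)
  H.mem (T := 77) (k := 6) (H.gm hy (show 1 + 4 = 5 from rfl) (H.nmE (iT_eq 77 3) hg (by decide)))
    (.one (H.gm hx (show 1 + 4 = 5 from rfl) (H.nmE (iT_eq 77 3) hk (by decide))))
    (H.top (by decide +kernel)) (by decide +kernel)

theorem g228 (h : HK) : G228 t := fun hx hy => by
  obtain ⟨g, hg⟩ := ex228 ht h
  obtain ⟨k, hk⟩ := ex276 ht h
  exact ⟨g, hg.zc, k, hk.zc, tf_255 ht hx hg, tf_303 ht hx hy hg hk⟩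

/-- the facts for the differential into stem 275 -/
theorem tfJ (h : HK) : TF t := tf_of ht (g228 ht h)

end Vale.Agent.P236EL

end
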