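import Vale.Agent.P236R.Gen
import Vale.Agent.P236SY.Leib

/-!
# P236: the Bockstein commutes with the obstructions, with uniform signs
-/

open CategoryTheory MonoidalCategory Limits Pretriangulated MonObj

namespace Vale.Agent.P236SY

open GData Vale.Agent.P251 Vale.Agent.P251.T Vale.Agent.P251.S Vale.Agent.P251.H Vale.Agent.P251.M
  Vale.Agent.P251.F Vale.Agent.P251.I TD Vale.Agent.P236EL
open Vale.Agent.P251.St (SHCat)

variable {T : SHCat}

/-- Completion of morphisms of triangles, with a sign which only depends on the degree. -/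
theorem DT.fill' {X Y Z X' Y' Z' : Gr T.C} {f : X ⟶ Y} {g : Y ⟶ Z} {h : Z ⟶ X} {f' : X' ⟶ Y'}
    {g' : Y' ⟶ Z'} {h' : Z' ⟶ X'} {a b a' b' : ℤ} (H : DT a b f g h) (H' : DT a' b' f' g' h')
    (k : ℤ) : ∃ e : ℤˣ, ∀ {l m : ℤ} {u : X ⟶ X'} {w : Y ⟶ Y'}, Deg k u → Deg l w →
      f ≫ w = u ≫ f' → a + l = k + a' → b + m = l + b' →
      ∃ z : Z ⟶ Z', Deg m z ∧ g ≫ z = w ≫ g' ∧ h ≫ u = e • z ≫ h' := by
  obtain ⟨p, X₀, Y₀, Z₀, f₀, g₀, h₀, e₁, e₂, e₃, D, d₁, d₂, d₃, c₁, c₂, c₃⟩ := H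
  obtain ⟨e, X₁, Y₁, Z₁, f₁, g₁, h₁, u₁, u₂, u₃, D', k₁, k₂, k₃, w₁, w₂, w₃⟩ := H'.at (p - k)
  refine ⟨e, fun {l m u w} hu hw c h1 h2 => ?_⟩
  obtain ⟨u₀, hu₀⟩ := Deg.exists_io (d₁.inv.comp (hu.comp k₁ rfl) (by omega))
  obtain ⟨w₀, hw₀⟩ := Deg.exists_io (d₂.inv.comp (hw.comp k₂ rfl) (by omega))
  obtain ⟨z₀, hz, hz'⟩ := D.map₃ D' u₀ w₀ (io_inj (by
    rw [io_comp, io_comp, ← hu₀, ← hw₀, ← cancel_epi e₁.hom, ← reassoc_of% c₁]
    simp [reassoc_of% c, w₁]))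
  refine ⟨e₃.hom ≫ io z₀ ≫ u₃.inv, d₃.comp ((deg_io _).comp k₃.inv rfl) (by omega), ?_, ?_⟩
  · rw [reassoc_of% c₂, ← io_comp_assoc, hz, io_comp, ← hw₀, ← cancel_mono u₃.hom]
    simp [w₂]
  · have h3 : u ≫ u₁.hom = e₁.hom ≫ io u₀ := by simp [← hu₀]
    rw [← cancel_mono u₁.hom, Category.assoc, h3, reassoc_of% c₃, sm_io, hz', ← io_sm,
      ← Linear.comp_units_smul, Category.assoc, w₃]
    simp

namespace Cx

variable {C : Cx T} {A B D X : T.C} {n m : ℤ}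

@[reassoc] theorem wr_muZ (f : ob A ⟶ ob B) :
    wr (wr f C.M) C.M ≫ io (C.muZ B) = io (C.muZ A) ≫ wr f C.M := by
  rw [muZ, muZ, io_comp, io_comp, wr_α_assoc, wr_ex, Category.assoc]

variable (C) in
/-- The three by three lemma for a triangle and the Moore spectrum. -/
theorem fill₃ {a b : ℤ} {f : ob A ⟶ ob B} {g : ob B ⟶ ob D} {h : ob D ⟶ ob A} (H : DT a b f g h)
    (V : T.C) (k : ℤ) : ∃ u : ℤˣ, ∀ {x : ob V ⟶ ob (A ⊗ C.M)} {y : ob V ⟶ ob B}, Deg k x →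
      Deg (k + a) y → x ≫ wr f C.M = y ≫ io (C.red B) → ∃ w : ob V ⟶ ob D, Deg (k + a + b) w ∧
        (3 : ℤ) • w = y ≫ g ∧ w ≫ h = u • x ≫ C.dl A := by
  obtain ⟨e, he⟩ := (C.dt_red V).rot'.fill' H (k + 1)
  refine ⟨k.negOnePow * e, fun {x y} dx dy c => ?_⟩
  have h1 : C.dl V ≫ (k.negOnePow • y) = (wr x C.M ≫ io (C.muZ A) ≫ C.dl A) ≫ f := by
    have h2 := C.dl_nat H.deg₁
    have h3 := C.dl_nat dy
    rw [Int.negOnePow_add, mul_comm, mul_smul, ← smul_left_cancel_iff a.negOnePow, smul_smul,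
      smul_smul, Int.units_mul_self, _root_.one_mul] at h3
    rw [← smul_left_cancel_iff a.negOnePow, smul_smul, Int.units_mul_self, one_smul] at h2
    rw [Category.assoc, Category.assoc, ← h2, Linear.comp_units_smul, Linear.comp_units_smul,
      Linear.comp_units_smul, ← wr_muZ_assoc, ← wr_comp_assoc, c, wr_comp_assoc, wr_io,
      ← io_comp_assoc, wr_red_muZ, io_id, Category.id_comp, h3]
  obtain ⟨z, dz, h2, h3⟩ := he (m := k + a + b) ((Deg.wr _ dx).comp ((deg_io _).comp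
    (C.deg_dl A) rfl) (by omega)) (dy.usmul _) h1 (by omega) (by omega)
  rw [Preadditive.zsmul_comp, Category.id_comp] at h2
  rw [← red_nat_assoc, ← io_comp_assoc, red_muZ, io_id, Category.id_comp] at h3
  refine ⟨k.negOnePow • z, dz.usmul _, ?_, ?_⟩
  · rw [smul_comm, h2, Linear.units_smul_comp, smul_smul, Int.units_mul_self, one_smul]
  · rw [h3, smul_smul, _root_.mul_assoc, Int.units_mul_self, _root_.mul_one,
      Linear.units_smul_comp]

variable {V : T.C} (h : C.E.TF (ob V) (ob X)) {s : ℕ}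
include h

theorem tf_M {w : ob V ⟶ C.E.K.M.obj (C.E.K.B s (ob X))} (h0 : (3 : ℤ) • w = 0) : w = 0 := by
  obtain ⟨b, hb⟩ := C.E.tri_co (C.E.tri_M (tri_Fm s (C.E.tri_rot (C.E.tri_rot
    (C.tri_red X))))) w (by
      rw [map_zsmul, Fm_id, ← h0]
      exact (congrArg _ ((wl_zsmul _ _ _).trans (congrArg _ (wl_id _ _)))).trans
        ((Preadditive.comp_zsmul _ _ _).trans (congrArg _ (Category.comp_id _))))
  rwa [h.null] at hb

theorem cyc_bock {y : ob V ⟶ C.Q s X} {z : ob V ⟶ C.Q (s + 1) X}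
    (hy : y ≫ C.E.K.d (s + 1) _ = (3 : ℤ) • z) : z ≫ C.E.K.d (s + 2) _ = 0 :=
  h _ _ (by rw [← Preadditive.zsmul_comp, ← hy, Category.assoc, C.E.K.d_d, comp_zero])

omit h in
theorem q_red (s : ℕ) (X : T.C) : C.E.K.Qm (s + 1) (io (C.red X)) ≫ C.E.K.q s _ =
    C.E.K.q s _ ≫ C.E.K.M.map (C.E.Fm s (io (C.red X))) := by
  have h0 := C.E.K.q_naturality s (io (C.red X))
  rwa [Bm_eq s (deg_io _), mul_zero, Int.negOnePow_zero, one_smul] at h0

variable (n s) in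
/-- The obstruction of a Bockstein. -/
theorem ob_bd : ∃ u : ℤˣ, ∀ {x : C.o V ⟶ C.o (X ⊗ C.M)} {y : ob V ⟶ C.Q s X}
    {z : ob V ⟶ C.Q (s + 1) X} {m : ℤ}, C.E.Ob n s (y ≫ C.E.K.Qm (s + 1) (io (C.red X))) x →
      Deg (-(n + s)) y → Deg (-(n + s)) z → y ≫ C.E.K.d (s + 1) _ = (3 : ℤ) • z → n - 1 = m →
      C.E.Ob m (s + 1) z (u • bd h x) := by
  obtain ⟨u, hu⟩ := C.fill₃ (A := (C.E.K.B (s + 2) (ob X)).obj)
    (B := (C.E.K.B (s + 1) (ob X)).obj) (C.dt_oc (s + 1) X) V (-(n - 1))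
  refine ⟨u, fun {x y z m} hx dy dz hy hm => ?_⟩
  obtain ⟨ω, dω, rfl, e⟩ := hx.ex
  have := C.isIso_νs C.M (s + 1) X
  have := C.isIso_νs C.M (s + 2) X
  have hk := C.E.k_nat s (deg_io (C.red X))
  rw [Int.negOnePow_zero, one_smul] at hk
  obtain ⟨w, -, h1, h2⟩ := hu (x := ω ≫ inv ((C.U.cR C.M).νs (s + 2) (ob X)))
    (y := y ≫ C.E.K.q s _ ≫ C.E.K.k s _)
    (dω.comp (Deg.inv (e := asIso _) ((C.U.cR C.M).deg_νs _ _)) (by omega))
    (dy.comp ((C.E.deg_q _ _).comp (C.E.deg_k _ _) rfl) (by omega)) (by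
      rw [← cancel_mono ((C.U.cR C.M).νs (s + 1) (ob X)), Category.assoc, Category.assoc,
        Category.assoc, red_νs, Category.assoc, Category.assoc, hk, ← reassoc_of% q_red,
        ← Category.assoc y, ← e]
      exact congrArg _ ((congrArg _ ((C.U.cR C.M).νs_oc _ _).symm).trans
        (IsIso.inv_hom_id_assoc _ _)))
  rw [Category.assoc, Category.assoc, ← d_q', reassoc_of% hy, ← sub_eq_zero,
    Preadditive.zsmul_comp, ← smul_sub] at h1
  rw [sub_eq_zero.1 (tf_M h h1), ← C.νs_dl (s + 2) X, Category.assoc, Category.assoc,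
    IsIso.inv_hom_id_assoc] at h2
  obtain ⟨y', hy'⟩ := TD.exists_ob (n := m) (dz.cast (by push_cast; omega)) (cyc_bock h hy)
  obtain ⟨ω', -, e1, e2⟩ := hy'.ex
  rwa [show bd h _ = _ from h.null.bd_cl _ (j := (s + 1 : ℕ) + 2) (by push_cast; ring) _ (by omega)
    (w := u • ω') (by
    rw [Linear.units_smul_comp, e2, h2, smul_smul, Int.units_mul_self, one_smul]),
    Units.smul_def u ω', map_zsmul, ← e1, ← Units.smul_def, smul_smul, Int.units_mul_self, one_smul]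

variable (n s) in
/-- The class of a Bockstein. -/
theorem rep_bd : ∃ u : ℤˣ, ∀ {x : C.o V ⟶ C.o (X ⊗ C.M)} {y : ob V ⟶ C.Q s X}
    {z : ob V ⟶ C.Q (s + 1) X} {m : ℤ}, C.E.Rep n s x (y ≫ C.E.K.Qm (s + 1) (io (C.red X))) →
      Deg (-(n + s)) y → Deg (-(n + s)) z → y ≫ C.E.K.d (s + 1) _ = (3 : ℤ) • z → n - 1 = m →
      C.E.Rep m (s + 1) (u • bd h x) z := by
  obtain ⟨u, hu⟩ := C.fill₃ (C.dt_oc s X).rot V (-n)
  refine ⟨u, fun {x y z m} hx dy dz hy hm => ?_⟩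
  obtain ⟨g, dg, rfl, e⟩ := hx.ex
  have := C.isIso_νs C.M s X
  have : IsIso ((C.U.rR C.M).m (C.E.K.B s (ob X))) := (ioI (α_ _ _ _)).isIso_hom
  have : IsIso (C.E.K.M.map ((C.U.cR C.M).νs s (ob X))) := Functor.map_isIso _ _
  obtain ⟨w, dw, h1, h2⟩ := hu (x := g ≫ inv ((C.U.cR C.M).νs s (ob X))) (y := y ≫ C.E.K.q s _)
    (dg.comp (Deg.inv (e := asIso _) ((C.U.cR C.M).deg_νs _ _)) (by omega))
    (dy.comp (C.E.deg_q _ _) (by omega)) (by
      rw [← cancel_mono ((C.U.rR C.M).m (C.E.K.B s (ob X))),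
        ← cancel_mono (C.E.K.M.map ((C.U.cR C.M).νs s (ob X)))]
      have h3 := (C.U.rR C.M).m_un (C.E.K.B s (ob X))
      have h4 : io (C.red (C.E.K.M.obj (C.E.K.B s (ob X))).obj) ≫
          (C.U.rR C.M).m (C.E.K.B s (ob X)) = C.E.K.M.map (io (C.red _)) :=
        (io_comp _ _).symm.trans ((congrArg io (C.red_α _ _)).trans (wl_io _ _).symm)
      refine Eq.trans (b := g ≫ C.E.K.un _) ?_ ?_
      · rw [Category.assoc, Category.assoc, Category.assoc]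
        refine congrArg _ ((congrArg _ ((reassoc_of% h3) _)).trans ?_)
        rw [← C.E.K.un_nat, IsIso.inv_hom_id_assoc]
      · rw [e, Category.assoc, Category.assoc, Category.assoc, Category.assoc, q_red,
          ← red_νs, Functor.map_comp, ← h4]
        exact congrArg _ (congrArg _ (Category.assoc _ _ _)))
  rw [← C.νs_dl, Category.assoc, IsIso.inv_hom_id_assoc] at h2
  refine ⟨dz.cast (by push_cast; omega), cyc_bock h hy, w, dw.cast (by omega), ?_,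
    sub_eq_zero.1 (tf_M h ?_)⟩
  · rw [show bd h _ = _ from h.null.bd_cl _ (j := (s + 1 : ℕ)) (by push_cast; ring) _ (by simp)
      (w := u • w) (by
      rw [Linear.units_smul_comp, h2, smul_smul, Int.units_mul_self, one_smul]),
      Units.smul_def u w, map_zsmul, ← Units.smul_def, smul_smul, Int.units_mul_self, one_smul]
  · rw [smul_sub, ← Preadditive.zsmul_comp, h1, ← Preadditive.zsmul_comp, ← hy, Category.assoc,
      Category.assoc, Category.assoc, d_q', sub_self]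

end Cx

end Vale.Agent.P236SY
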