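import Vale.Agent.P236R.D5
import Vale.Agent.P236SY.Ex

/-!
# P236: naturality of classes and differentials for the cell maps and the Bockstein
-/

open CategoryTheory MonoidalCategory Limits Pretriangulated MonObj

namespace Vale.Agent.P236SY

open GData Vale.Agent.P251 Vale.Agent.P251.T Vale.Agent.P251.S Vale.Agent.P251.H Vale.Agent.P251.M
  Vale.Agent.P251.F Vale.Agent.P251.I TD Vale.Agent.P236EL Vale.Agent.P236F Vale.Agent.P236R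
  Vale.Agent.P236Z
open Vale.Agent.P251.St (SHCat)

variable {T : SHCat} {t : Cob Laz 1}

namespace Cx

variable {C : Cx T} {J L : Type} [Fintype J] [Fintype L] {d : J → ℤ} {θ : J → J → Cob Laz 1}
  {k s s' a r r' : ℕ} {n m l w w' v v' : ℤ} {W W' Y Z : T.C}

theorem act_cr (e : ob C.Γ ⟶ C.Q 0 Z) (c : ob Z ⟶ C.Q a Y) :
    C.E.act (e ≫ C.E.K.Qm 1 (io (C.red Z))) (C.cr C.M c) =
      C.E.act e c ≫ C.E.K.Qm (a + 1) (io (C.red Y)) :=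
  (C.E.act_mid e _ _).trans (by rw [red_cr, C.E.act_comp])

theorem rep_post {e : J → (ob C.Γ ⟶ C.Q 0 W)} {e' : L → (ob C.Γ ⟶ C.Q 0 W')} {x : C.o C.Γ ⟶ C.o W}
    {F : J → Cob Laz s} (h : C.E.Rep n s x (C.psi e s F)) {f : C.o W ⟶ C.o W'}
    {c : ob W ⟶ C.Q a W'} (hf : C.E.Rep m a f c) {A : J → L → Cob Laz a}
    (hA : ∀ j, C.E.act (e j) c = C.psi e' a (A j)) (e₁ : s + a = r) (hl : n + m = l) :
    C.E.Rep l r ((s * m : ℤ).negOnePow • x ≫ f) (C.psi e' r (mc e₁ F A)) := by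
  subst e₁
  have h1 := (h.comp hf hl).usmul (s * m : ℤ).negOnePow
  rwa [smul_smul, Int.units_mul_self, one_smul, psi_cup _ hA,
    show (fun k => ∑ c, Cob.cup (F c) (A c k)) = mc rfl F A from
      funext fun k => (mc_apply rfl F A k).symm] at h1

theorem ob_post {e : J → (ob C.Γ ⟶ C.Q 0 W)} {e' : L → (ob C.Γ ⟶ C.Q 0 W')} {x : C.o C.Γ ⟶ C.o W}
    {F : J → Cob Laz s} (h : C.E.Ob n s (C.psi e s F) x) {f : C.o W ⟶ C.o W'}
    {c : ob W ⟶ C.Q a W'} (hf : C.E.Rep m a f c) {A : J → L → Cob Laz a}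
    (hA : ∀ j, C.E.act (e j) c = C.psi e' a (A j)) (e₁ : s + a = r) (hl : n + m = l) :
    C.E.Ob l r (C.psi e' r (mc e₁ F A)) (((s + 1) * m : ℤ).negOnePow • x ≫ f) := by
  subst e₁
  have h1 := h.post hf hl
  rwa [psi_cup _ hA, show (fun k => ∑ c, Cob.cup (F c) (A c k)) = mc rfl F A from
      funext fun k => (mc_apply rfl F A k).symm] at h1

/-- The product of a permanent class of the Moore spectrum and an obstruction. -/
theorem ob_mul {e : J → (ob C.Γ ⟶ C.Q 0 Z)} {x : C.o C.Γ ⟶ C.o (C.Γ ⊗ C.M)} {z : Cob Laz a}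
    (hx : C.E.Rep n a x (C.φM C.Γ a z)) {y : C.o C.Γ ⟶ C.o (Z ⊗ C.M)} {F : J → Cob Laz s}
    (hy : C.E.Ob m s (C.psi (mE e) s F) y) (h : a + s = r) (hl : n + m = l) :
    C.E.Ob l r (C.psi (mE e) r (lc J h z F)) ((a * m : ℤ).negOnePow • x ≫ C.hat y) := by
  have h1 := Ob.pre (C.sym _) hx (ob_hat_red (psi_comp e F _ ▸ hy)) hl
  rw [← cx_cupE_psi]
  subst h
  exact h1

namespace Chart

variable {e : J → (ob C.Γ ⟶ C.Q 0 Z)} (H : C.Chart e d θ)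

/-- the Bockstein on `Z ⊗ M` -/
noncomputable def δ : (C.o C.Γ ⟶ C.o (Z ⊗ C.M)) →+ (C.o C.Γ ⟶ C.o (Z ⊗ C.M)) :=
  (Preadditive.rightComp _ (C.rd Z)).comp (bd H.tf)

theorem δ_eq (x : C.o C.Γ ⟶ C.o (Z ⊗ C.M)) : H.δ x = bd H.tf x ≫ C.rd Z := rfl

theorem δ_tp (k : ℕ) (x : C.o C.Γ ⟶ C.o (Z ⊗ C.M)) :
    H.δ (x ≫ C.E.tp k _) = H.δ x ≫ C.E.tp k _ := by
  rw [δ_eq, δ_eq, tp_bd, Category.assoc, Category.assoc, tp_comm]

theorem comp_δ (u : C.o C.Γ ⟶ C.o C.Γ) (x : C.o C.Γ ⟶ C.o (Z ⊗ C.M)) :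
    H.δ (u ≫ x) = u ≫ H.δ x := by
  have := H.fc.tors
  rw [δ_eq, δ_eq, comp_bd H.tf H.tf, Category.assoc]

theorem dg_δ {s s' : ℤ} {x : C.o C.Γ ⟶ C.o (Z ⊗ C.M)} (hx : C.E.Dg n s x) (hm : n - 1 = m)
    (hs : s + 1 = s') : C.E.Dg m s' (H.δ x) :=
  (dg_bd H.tf hx hm hs).comp (C.dg_rd Z) (add_zero _) (add_zero _)

variable (n s) in
theorem rep_bd' : ∃ u : ℤˣ, ∀ {x : C.o C.Γ ⟶ C.o (Z ⊗ C.M)} {F : J → Cob Laz s}
    {c : J → Cob Laz (s + 1)} {m w : ℤ}, C.E.Rep n s x (C.psi (mE e) s F) → F ∈ CW 3 Laz d w s →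
      c ∈ CW 3 Laz d w (s + 1) → DD θ s F = 3 • c → n + s = 4 * w → n - 1 = m →
      C.E.Rep m (s + 1) (u • bd H.tf x) (C.psi e (s + 1) c) :=
  (rep_bd (n := n) H.tf s).imp fun _ hu _ _ _ _ _ hx hF hc h hn hm =>
    hu (by rwa [psi_comp]) (H.cells.deg_cw hF (by rw [hn])) (H.cells.deg_cw hc (by rw [hn]))
      (by rw [H.cells.psi_d, h, map_nsmul, ofNat_zsmul]) hm

variable (n s) in
theorem ob_bd' : ∃ u : ℤˣ, ∀ {x : C.o C.Γ ⟶ C.o (Z ⊗ C.M)} {F : J → Cob Laz s}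
    {c : J → Cob Laz (s + 1)} {m w : ℤ}, C.E.Ob n s (C.psi (mE e) s F) x → F ∈ CW 3 Laz d w s →
      c ∈ CW 3 Laz d w (s + 1) → DD θ s F = 3 • c → n + s = 4 * w → n - 1 = m →
      C.E.Ob m (s + 1) (C.psi e (s + 1) c) (u • bd H.tf x) :=
  (ob_bd (n := n) H.tf s).imp fun _ hu _ _ _ _ _ hx hF hc h hn hm =>
    hu (by rwa [psi_comp]) (H.cells.deg_cw hF (by rw [hn])) (H.cells.deg_cw hc (by rw [hn]))
      (by rw [H.cells.psi_d, h, map_nsmul, ofNat_zsmul]) hm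

variable (n s) in
theorem rep_δ : ∃ u : ℤˣ, ∀ {x : C.o C.Γ ⟶ C.o (Z ⊗ C.M)} {F : J → Cob Laz s}
    {c : J → Cob Laz (s + 1)} {m w : ℤ}, C.E.Rep n s x (C.psi (mE e) s F) → F ∈ CW 3 Laz d w s →
      c ∈ CW 3 Laz d w (s + 1) → DD θ s F = 3 • c → n + s = 4 * w → n - 1 = m →
      C.E.Rep m (s + 1) (u • H.δ x) (C.psi (mE e) (s + 1) c) :=
  (H.rep_bd' s n).imp fun _ hu _ _ _ _ _ hx hF hc h hn hm => by
    rw [δ_eq, ← Linear.units_smul_comp]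
    exact rep_red_psi (hu hx hF hc h hn hm)

variable (n s) in
theorem ob_δ : ∃ u : ℤˣ, ∀ {x : C.o C.Γ ⟶ C.o (Z ⊗ C.M)} {F : J → Cob Laz s}
    {c : J → Cob Laz (s + 1)} {m w : ℤ}, C.E.Ob n s (C.psi (mE e) s F) x → F ∈ CW 3 Laz d w s →
      c ∈ CW 3 Laz d w (s + 1) → DD θ s F = 3 • c → n + s = 4 * w → n - 1 = m →
      C.E.Ob m (s + 1) (C.psi (mE e) (s + 1) c) (u • H.δ x) :=
  (H.ob_bd' s n).imp fun _ hu _ _ _ _ _ hx hF hc h hn hm => by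
    have h1 := (hu hx hF hc h hn hm).comp_ι (m := 0) (deg_io (C.red Z)) (add_zero _)
    rwa [mul_zero, Int.negOnePow_zero, one_smul, psi_comp, Linear.units_smul_comp] at h1

include H in
variable (k s s' w w') in
/-- The differentials commute with the Bockstein, up to a sign depending on the degree. -/
theorem dr_δ : ∃ u : ℤˣ, ∀ {F : J → Cob Laz s} {G : J → Cob Laz s'} {c : J → Cob Laz (s + 1)}
    {c' : J → Cob Laz (s' + 1)}, C.Dr d θ k s s' w w' (mE e) F G → c ∈ CW 3 Laz d w (s + 1) →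
      c' ∈ CW 3 Laz d w' (s' + 1) → DD θ s F = 3 • c → DD θ s' G = 3 • c' →
      C.Dr d θ k (s + 1) (s' + 1) w w' (mE e) c ((u : ℤ) • c') := by
  obtain ⟨u, hu⟩ := H.ob_δ s (4 * w - s)
  obtain ⟨u', hu'⟩ := H.rep_δ s' (4 * w - s - 1)
  refine ⟨u * u', fun {F G c c'} h hc hc' h1 h2 => ?_⟩
  obtain ⟨y, h3, h4⟩ := h.ex
  have := h.es
  have := h.ew
  have h5 := hu h3 h.cy.1 hc h1 (by ring) rfl
  have h6 := (hu' h4 h.cy'.1 hc' h2 (by omega) rfl).usmul (u * u')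
  rw [smul_smul, _root_.mul_assoc, Int.units_mul_self, _root_.mul_one, Units.smul_def (u * u'),
    ← map_zsmul] at h6
  rw [δ_tp, ← Linear.units_smul_comp] at h5
  exact dr_of (by omega) (by push_cast; ring) rfl (by push_cast; omega)
    (H.cm.cy_of_cyc hc h5.cyc) (H.cm.cy_of_cyc (zsmul_mem hc' _) h6.cyc) h5 h6

end Chart

namespace CY

variable (P : C.CY t)

theorem act_αt (j : Fin 1) : C.E.act (mE C.eS j) (C.cr C.M (C.psi P.eA 1 ![2 * t ^ 2, 2 * t])) =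
    C.psi (mE P.eA) 1 ![2 * t ^ 2, 2 * t] := by rw [act_cr, act_eS, psi_comp]

theorem act_αb (j : Fin 2) : C.E.act (mE P.eA j) (C.cr C.M P.xb) =
    C.psi (mE C.eS) 1 fun _ => ![2 * t, 2 * t ^ 2] j := by rw [act_cr, P.act_xb, psi_eS]

theorem act_α (j : Fin 1) : C.E.act (mE C.eS j) (C.cr C.M (C.φ C.Γ 1 (2 * t))) =
    C.psi (mE C.eS) 1 fun _ => 2 * t := by rw [act_cr, act_eS, psi_eS]

omit P

theorem cw_iA {F : Fin 1 → Cob Laz s} (h : F ∈ CW 3 Laz (fun _ => 0) w s) :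
    ![F 0, 0] ∈ CW 3 Laz (dF 2) w s := fun c => by
  fin_cases c
  exacts [h 0, Cob.isWt_zero _]

theorem cw_ee {F : Fin 2 → Cob Laz s} (h : F ∈ CW 3 Laz (dF 2) w s) :
    ![F 0, F 1, 0] ∈ CW 3 Laz (dF 3) w s := fun c => by
  fin_cases c
  exacts [h 0, h 1, Cob.isWt_zero _]

theorem cw_qq {F : Fin 3 → Cob Laz s} (h : F ∈ CW 3 Laz (dF 3) w s) (e : w + -1 = v) :
    ![F 1, F 2] ∈ CW 3 Laz (dF 2) v s := fun c => by
  fin_cases c
  exacts [Det.isWt_cast (h 1) (by subst e; simp [dF]; ring),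
    Det.isWt_cast (h 2) (by subst e; simp [dF]; ring)]

theorem cw_top {a : ℕ} {F : Fin a → Cob Laz s} (h : F ∈ CW 3 Laz (dF a) w s) (c : Fin a)
    (e : w + -(c : ℤ) = v) : (fun _ : Fin 1 => F c) ∈ CW 3 Laz (fun _ => 0) v s := fun _ =>
  Det.isWt_cast (h c) (by subst e; simp [dF]; ring)

theorem cw_αb (ht : IsT1 3 t) (j : Fin 2) :
    (fun _ : Fin 1 => ![2 * t, 2 * t ^ 2] j) ∈ CW 3 Laz (fun _ => 0) (dF 2 j + 1) 1 := fun _ => by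
  fin_cases j
  exacts [wt_two ht, wt_sq ht]

variable (P : C.CY t)

/-- differentials of the Moore spectrum -/
abbrev _root_.Vale.Agent.P236SY.Cx.DM (C : Cx T) (k s s' : ℕ) (w w' : ℤ) (F : Fin 1 → Cob Laz s)
    (G : Fin 1 → Cob Laz s') : Prop := C.Dr (fun _ => 0) 0 k s s' w w' (mE C.eS) F G

/-- differentials of `C α ⊗ M` -/
abbrev DA (k s s' : ℕ) (w w' : ℤ) (F : Fin 2 → Cob Laz s) (G : Fin 2 → Cob Laz s') : Prop :=
  C.Dr (dF 2) (θA t) k s s' w w' (mE P.eA) F G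

/-- differentials of `Y ⊗ M` -/
abbrev DZ (k s s' : ℕ) (w w' : ℤ) (F : Fin 3 → Cob Laz s) (G : Fin 3 → Cob Laz s') : Prop :=
  C.Dr (dF 3) (θY t) k s s' w w' (mE P.eY) F G

section

variable {F : Fin 1 → Cob Laz s} {G : Fin 1 → Cob Laz s'} (h : C.DM k s s' w w' F G)
include h

theorem dr_iA : P.DA k s s' w w' ![F 0, 0] ![G 0, 0] :=
  h.map P.chA.cm (ω := 0) (P.st₁.wr C.M).deg₁ (psi_wr (P.psi_i₁' F)) (psi_wr (P.psi_i₁' G))
    (cw_iA h.cy.1) (cw_iA h.cy'.1) (add_zero _) (add_zero _)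

theorem dr_e0 : P.DZ k s s' w w' ![F 0, 0, 0] ![G 0, 0, 0] :=
  h.map P.chY.cm (ω := 0) (P.st₃.wr C.M).deg₁ (psi_wr (P.psi_e₀' F)) (psi_wr (P.psi_e₀' G))
    (cw_ee (cw_iA h.cy.1)) (cw_ee (cw_iA h.cy'.1)) (add_zero _) (add_zero _)

theorem dr_atil (ht : IsT1 3 t) (e : w + 2 = v) (e' : w' + 2 = v') :
    P.DA k (s + 1) (s' + 1) v v' (fun j => Cob.cup (F 0) (![2 * t ^ 2, 2 * t] j))
      fun j => Cob.cup (G 0) (![2 * t ^ 2, 2 * t] j) := by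
  have h1 := h.post P.chA.cm (rep_sr P.rep_αt _) P.act_αt (ω := 2) (fun _ => cw_αt ht) rfl rfl rfl
    e e'
  rwa [mc_eq, mc_eq, Fin.sum_univ_one, Fin.sum_univ_one] at h1

include P in
theorem dr_al (ht : IsT1 3 t) (e : w + 1 = v) (e' : w' + 1 = v') :
    C.DM k (s + 1) (s' + 1) v v' (fun _ => Cob.cup (F 0) (2 * t))
      fun _ => Cob.cup (G 0) (2 * t) := by
  have h1 := h.post cmS (rep_sr P.rep_α _) act_α (ω := 1) (fun _ _ => wt_two ht) rfl rfl rfl e e'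
  rwa [mc_eq, mc_eq, Fin.sum_univ_one, Fin.sum_univ_one] at h1

end

section

variable {F : Fin 2 → Cob Laz s} {G : Fin 2 → Cob Laz s'} (h : P.DA k s s' w w' F G)
include h

theorem dr_ee : P.DZ k s s' w w' ![F 0, F 1, 0] ![G 0, G 1, 0] :=
  h.map P.chY.cm (ω := 0) (P.st₂.wr C.M).deg₁ (psi_wr (P.psi_i₂ F)) (psi_wr (P.psi_i₂ G))
    (cw_ee h.cy.1) (cw_ee h.cy'.1) (add_zero _) (add_zero _)

theorem dr_jA (e : w + -1 = v) (e' : w' + -1 = v') :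
    C.DM k s s' v v' (fun _ => F 1) fun _ => G 1 :=
  h.map cmS (ω := -1) ((P.st₁.wr C.M).deg₂.cast (by decide)) (psi_wr (P.psi_p₁ F))
    (psi_wr (P.psi_p₁ G)) (cw_top h.cy.1 1 e) (cw_top h.cy'.1 1 e') e e'

theorem dr_abar (ht : IsT1 3 t) (e : w + 1 = v) (e' : w' + 1 = v') :
    C.DM k (s + 1) (s' + 1) v v' (fun _ => Cob.cup (F 0) (2 * t) + Cob.cup (F 1) (2 * t ^ 2))
      fun _ => Cob.cup (G 0) (2 * t) + Cob.cup (G 1) (2 * t ^ 2) := by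
  have h1 := h.post cmS (rep_sr P.rep_αb _) P.act_αb (ω := 1) (cw_αb ht) rfl rfl rfl e e'
  rwa [mc_eq, mc_eq, Fin.sum_univ_two, Fin.sum_univ_two] at h1

end

section

variable {F : Fin 3 → Cob Laz s} {G : Fin 3 → Cob Laz s'} (h : P.DZ k s s' w w' F G)
include h

theorem dr_qq (e : w + -1 = v) (e' : w' + -1 = v') : P.DA k s s' v v' ![F 1, F 2] ![G 1, G 2] :=
  h.map P.chA.cm (ω := -1) ((P.st₃.wr C.M).deg₂.cast (by decide)) (psi_wr (P.psi_q F))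
    (psi_wr (P.psi_q G)) (cw_qq h.cy.1 e) (cw_qq h.cy'.1 e') e e'

theorem dr_jy (e : w + -2 = v) (e' : w' + -2 = v') :
    C.DM k s s' v v' (fun _ => F 2) fun _ => G 2 :=
  h.map cmS (ω := -2) ((P.st₂.wr C.M).deg₂.cast (by decide)) (psi_wr (P.psi_p₂ F))
    (psi_wr (P.psi_p₂ G)) (cw_top h.cy.1 2 e) (cw_top h.cy'.1 2 e') e e'

end

end CY

end Cx

end Vale.Agent.P236SY
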