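import Vale.Agent.P236R.Bock

/-!
# P236: the calculus of differentials on charts

`C.Dr e d θ k w w' s s' F G` says that `d_{k+2} F = G`.
-/

open CategoryTheory MonoidalCategory Limits Pretriangulated MonObj

namespace Vale.Agent.P236SY

open GData Vale.Agent.P251 Vale.Agent.P251.T Vale.Agent.P251.S Vale.Agent.P251.H Vale.Agent.P251.M
  Vale.Agent.P251.F Vale.Agent.P251.I TD Vale.Agent.P236EL Vale.Agent.P236F Vale.Agent.P236R
open Vale.Agent.P251.St (SHCat)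

variable {T : SHCat}

theorem cx_cupE_psi {C : Cx T} {J : Type} [Fintype J] {Z : T.C} (e : J → (ob C.Γ ⟶ C.Q 0 Z))
    {a b r : ℕ} (h : a + b = r) (z : Cob Laz a) (F : J → Cob Laz b) :
    C.E.cupE h (C.φM C.Γ a z) (C.cr C.M (C.psi e b F)) = C.psi (Cx.mE e) r (lc J h z F) := by
  subst h
  rw [TD.cupE_rfl, ← cup_mid, Cx.red_cr, Cx.psi_comp, Cx.cup_psi]
  rfl

namespace Cx

variable {C : Cx T} {J L : Type} [Fintype J] [Fintype L] {d : J → ℤ} {θ : J → J → Cob Laz 1}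
  {k s s' a a' r r' : ℕ} {n m l w w' ω ω' v v' : ℤ} {W W' Z : T.C}

variable (C d θ k w w' s s') in
/-- `d_{k+2} F = G` -/
structure Dr (e : J → (ob C.Γ ⟶ C.Q 0 W)) (F : J → Cob Laz s) (G : J → Cob Laz s') : Prop where
  es : s + (k + 2) = s'
  ew : 4 * w + k + 1 = 4 * w'
  cy : Cy d θ s w 3 F
  cy' : Cy d θ s' w' 3 G
  ex : ∃ y, C.E.Ob (4 * w - s) s (C.psi e s F) (y ≫ C.E.tp k _) ∧
    C.E.Rep (4 * w - s - 1) s' y (C.psi e s' G)

variable {e : J → (ob C.Γ ⟶ C.Q 0 W)} {F F' : J → Cob Laz s} {G G' : J → Cob Laz s'}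
  {x y : C.o C.Γ ⟶ C.o W}

theorem dr_of (es : s + (k + 2) = s') (hn : n + s = 4 * w) (hm : n - 1 = m)
    (hm' : m + s' = 4 * w') (hF : Cy d θ s w 3 F) (hG : Cy d θ s' w' 3 G)
    (h : C.E.Ob n s (C.psi e s F) (y ≫ C.E.tp k _)) (h' : C.E.Rep m s' y (C.psi e s' G)) :
    C.Dr d θ k s s' w w' e F G :=
  ⟨es, by omega, hF, hG, y, h.cast (by omega), h'.cast (by omega)⟩

theorem dr_zero (es : s + (k + 2) = s') (ew : 4 * w + k + 1 = 4 * w') :
    C.Dr d θ k s s' w w' e 0 0 :=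
  ⟨es, ew, zero_mem _, zero_mem _, 0, by
    rw [map_zero, zero_comp]; exact (rep_zero _ _).ob, by rw [map_zero]; exact rep_zero _ _⟩

/-- Permanent cycles support no differential. -/
theorem dr_of_rep (es : s + (k + 2) = s') (ew : 4 * w + k + 1 = 4 * w') (hn : n + s = 4 * w)
    (hF : Cy d θ s w 3 F) (h : C.E.Rep n s x (C.psi e s F)) :
    C.Dr d θ k s s' w w' e F (0 : J → Cob Laz s') :=
  dr_of (y := 0) es hn rfl (by omega) hF (zero_mem _) (by rw [zero_comp]; exact h.ob)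
    (by rw [map_zero]; exact rep_zero _ _)

namespace Dr

variable (h : C.Dr d θ k s s' w w' e F G)
include h

theorem ex' (hn : n + s = 4 * w) (hm : n - 1 = m) : ∃ y,
    C.E.Ob n s (C.psi e s F) (y ≫ C.E.tp k _) ∧ C.E.Rep m s' y (C.psi e s' G) :=
  h.ex.imp fun _ h => ⟨h.1.cast (by omega), h.2.cast (by omega)⟩

theorem add (h' : C.Dr d θ k s s' w w' e F' G') : C.Dr d θ k s s' w w' e (F + F') (G + G') := by
  obtain ⟨y, h1, h2⟩ := h.ex
  obtain ⟨y', h3, h4⟩ := h'.ex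
  exact ⟨h.es, h.ew, add_mem h.cy h'.cy, add_mem h.cy' h'.cy', y + y', by
    rw [map_add, Preadditive.add_comp]; exact h1.add h3, by rw [map_add]; exact h2.add h4⟩

theorem zsmul (c : ℤ) : C.Dr d θ k s s' w w' e (c • F) (c • G) := by
  obtain ⟨y, h1, h2⟩ := h.ex
  exact ⟨h.es, h.ew, zsmul_mem h.cy c, zsmul_mem h.cy' c, c • y, by
    rw [map_zsmul, Preadditive.zsmul_comp]; exact h1.zsmul c, by
      rw [map_zsmul]; exact h2.zsmul c⟩

theorem neg : C.Dr d θ k s s' w w' e (-F) (-G) := by simpa using h.zsmul (-1)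

theorem sub (h' : C.Dr d θ k s s' w w' e F' G') : C.Dr d θ k s s' w w' e (F - F') (G - G') := by
  simpa only [sub_eq_add_neg] using h.add h'.neg

/-- The target has a lift which is killed by `τ ^ (k + 1)`. -/
theorem tor (hm : m + s' = 4 * w') :
    ∃ y, C.E.Rep m s' y (C.psi e s' G) ∧ y ≫ C.E.tp (k + 1) _ = 0 := by
  obtain ⟨y, h1, h2⟩ := h.ex
  have := h.es
  have := h.ew
  exact ⟨y, h2.cast (by omega), by rw [tp_succ, ← Category.assoc, h1.τ]⟩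

/-- The target is a permanent cycle. -/
theorem tgt {k' s'' : ℕ} {w'' : ℤ} (es : s' + (k' + 2) = s'') (ew : 4 * w' + k' + 1 = 4 * w'') :
    C.Dr d θ k' s' s'' w' w'' e G (0 : J → Cob Laz s'') := by
  obtain ⟨y, h1, -⟩ := h.tor (m := 4 * w' - s') (by ring)
  exact dr_of_rep es ew (by ring) h.cy' h1

end Dr

namespace CM

variable (H : C.CM e d θ)
include H

theorem cw_of_by (h : By d θ s w 3 F) : F ∈ CW 3 Laz d w s := by
  obtain ⟨b, hb, u, hu, rfl⟩ := by_iff.1 h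
  exact add_mem (H.cells.BC_le hb) (nsmul_mem hu 3)

theorem cy_of_cyc (hF : F ∈ CW 3 Laz d w s) (h : C.psi e s F ≫ C.E.K.d (s + 1) _ = 0) :
    Cy d θ s w 3 F := cy_iff.2 ⟨hF, H.ker (H.cells.DD_mem hF) (by rw [← H.cells.psi_d, h])⟩

theorem cy_of_by (h : By d θ s w 3 F) : Cy d θ s w 3 F :=
  H.cy_of_cyc (H.cw_of_by h) (H.cb h rfl).cyc

theorem ob_congr (h : C.E.Ob n s (C.psi e s F) y) (h' : By d θ s w 3 (F' - F))
    (hn : n + s = 4 * w) : C.E.Ob n s (C.psi e s F') y :=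
  h.cob (by rw [← map_sub]; exact H.cb h' (by rw [hn]))

theorem dr_congr (h : C.Dr d θ k s s' w w' e F G) (hF : By d θ s w 3 (F' - F))
    (hG : By d θ s' w' 3 (G' - G)) : C.Dr d θ k s s' w w' e F' G' := by
  obtain ⟨y, h1, h2⟩ := h.ex
  have := h.es
  have := h.ew
  exact ⟨h.es, h.ew, by simpa using add_mem (H.cy_of_by hF) h.cy,
    by simpa using add_mem (H.cy_of_by hG) h.cy', y, H.ob_congr h1 hF (by ring),
    H.rep_congr h2 hG (by omega)⟩

theorem dr_left (h : C.Dr d θ k s s' w w' e F G) (hF : By d θ s w 3 (F' - F)) :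
    C.Dr d θ k s s' w w' e F' G := H.dr_congr h hF (by rw [sub_self]; exact zero_mem _)

theorem dr_right (h : C.Dr d θ k s s' w w' e F G) (hG : By d θ s' w' 3 (G' - G)) :
    C.Dr d θ k s s' w w' e F G' := H.dr_congr h (by rw [sub_self]; exact zero_mem _) hG

theorem dr_of_by (es : s + (k + 2) = s') (ew : 4 * w + k + 1 = 4 * w') (h : By d θ s w 3 F) :
    C.Dr d θ k s s' w w' e F (0 : J → Cob Laz s') :=
  H.dr_left (dr_zero es ew) (by rwa [sub_zero])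

/-- `τ ^ 3` is injective. -/
theorem tp3_inj {t : ℤ} (hx : C.E.Dg m t x) (hm : m + t = 4 * w) (h0 : x ≫ C.E.tp 3 _ = 0) :
    x = 0 := by
  have key : ∀ {t : ℤ} {x : C.o C.Γ ⟶ C.o W}, C.E.Dg m t x → ¬ (4 : ℤ) ∣ m + t - 1 →
      x ≫ C.E.τ _ = 0 → x = 0 := fun {t x} hx ht h => by
    rcases le_or_gt t 1 with h1 | h1
    · exact hx.τ_inj h1 h
    · exact (H.sparse (n := m + 1) (s := (t - 2).toNat) (by omega)).τ_inj hx h (by ring)
        (by omega)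
  have h1 : ∀ k : ℕ, C.E.Dg m (t - k) (x ≫ C.E.tp k _) := fun k =>
    hx.comp (C.E.dg_tp k _) (add_zero _) (by ring)
  have h2 : ∀ k : ℕ, x ≫ C.E.tp (k + 1) _ = (x ≫ C.E.tp k _) ≫ C.E.τ _ := fun k => by
    rw [tp_succ, Category.assoc]
  have h5 := key (h1 2) (by omega) ((h2 2).symm.trans h0)
  have h6 := key (h1 1) (by omega) ((h2 1).symm.trans h5)
  have h7 := key (h1 0) (by omega) ((h2 0).symm.trans h6)
  rwa [tp_zero, Category.comp_id] at h7

/-- Division by `τ ^ 3`. -/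
theorem div3 (hx : C.E.Dg m s x) (hm : m + s' = 4 * w) (es : s + 3 = s') :
    ∃ y, C.E.Dg m s' y ∧ x = y ≫ C.E.tp 3 _ := by
  obtain ⟨y, hy, e⟩ := div_of_van 3 (fun r h1 h2 => H.sparse (by omega)) hx
  exact ⟨y, hy.cast rfl (by omega), e⟩

theorem exists_d5 (hF : Cy d θ s w 3 F) (es : s + 5 = s') (ew : w + 1 = w') :
    ∃ G : J → Cob Laz s', C.Dr d θ 3 s s' w w' e F G := by
  obtain ⟨y, hy⟩ := H.exists_ob (n := 4 * w - s) hF (by ring)
  obtain ⟨y, hy', rfl⟩ := H.div3 (s := s + 2) (s' := s') (w := w') hy.dg (by omega) (by omega)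
  obtain ⟨G, hG, h⟩ := H.exists_rep (w := w') hy' (by omega)
  exact ⟨G, es, by omega, hF, hG, y, hy, h⟩

theorem d5_uniq (h : C.Dr d θ 3 s s' w w' e F G) (h' : C.Dr d θ 3 s s' w w' e F' G')
    (hF : By d θ s w 3 (F - F')) : By d θ s' w' 3 (G - G') := by
  obtain ⟨y, h1, h2⟩ := h.ex
  obtain ⟨y', h3, h4⟩ := h'.ex
  have := h.es
  have := h.ew
  have h5 := h1.uniq h3 (by rw [← map_sub]; exact H.cb hF rfl)
  rw [← sub_eq_zero, ← Preadditive.sub_comp] at h5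
  obtain rfl := sub_eq_zero.1 (H.tp3_inj (w := w') (h2.dg.sub h4.dg) (by omega) h5)
  exact H.rep_uniq h2 h4 h.cy'.1 h'.cy'.1 (by omega)

theorem d5_uniq' (h : C.Dr d θ 3 s s' w w' e F G) (h' : C.Dr d θ 3 s s' w w' e F G') :
    By d θ s' w' 3 (G - G') := H.d5_uniq h h' (by rw [sub_self]; exact zero_mem _)

theorem d5_by (h : C.Dr d θ 3 s s' w w' e F G) (hF : By d θ s w 3 F) : By d θ s' w' 3 G := by
  simpa using H.d5_uniq h (dr_zero h.es h.ew) (by rwa [sub_zero])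

theorem d5_perm (h : C.Dr d θ 3 s s' w w' e F G) (hx : C.E.Rep n s x (C.psi e s F))
    (hn : n + s = 4 * w) : By d θ s' w' 3 G := by
  simpa using H.d5_uniq' h (dr_of_rep h.es h.ew hn h.cy hx)

/-- A class killed by `τ ^ (k + 1)` is hit by a differential. -/
theorem dr_of_tor (es : s + (k + 2) = s') (ew : 4 * w + k + 1 = 4 * w') (hm : m + s' = 4 * w')
    (hG : Cy d θ s' w' 3 G) (h : C.E.Rep m s' y (C.psi e s' G)) (h0 : y ≫ C.E.tp (k + 1) _ = 0) :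
    ∃ F : J → Cob Laz s, C.Dr d θ k s s' w w' e F G := by
  obtain ⟨F, hF, h1⟩ := H.exists_of_τ (n := m + 1) (s := s) (w := w)
    (h.dg.comp (C.E.dg_tp k _) (add_zero _) rfl) (by rw [Category.assoc, ← tp_succ, h0]) (by ring)
    (by omega) (by omega)
  exact ⟨F, dr_of es (by omega) (by ring) hm hF hG h1 h⟩

/-- The next differential. -/
theorem dr_next (h : C.Dr d θ k s s' w w' e F G) (hG : By d θ s' w' 3 G) {s'' : ℕ}
    (es : s' + 4 = s'') (ew : w' + 1 = v) :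
    ∃ G' : J → Cob Laz s'', C.Dr d θ (k + 4) s s'' w v e F G' := by
  obtain ⟨y, h1, h2⟩ := h.ex
  have := h.es
  have := h.ew
  obtain ⟨y, hy, rfl⟩ := H.div4 h2 hG (by omega)
  obtain ⟨G', hG', h3⟩ := H.exists_rep (s := s'') (w := v) (hy.cast rfl (by omega)) (by omega)
  exact ⟨G', by omega, by push_cast; omega, h.cy, hG', y, by
    rwa [Category.assoc, ← tp_add, add_comm 4 k] at h1, h3⟩

/-- Two lifts of the same class differ by a multiple of `τ ^ 4`. -/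
theorem eq_add4 {x' : C.o C.Γ ⟶ C.o W} (h : C.E.Rep n s x (C.psi e s F))
    (h' : C.E.Rep n s x' (C.psi e s F')) (hF : By d θ s w 3 (F - F')) (hn : n + s = 4 * w) :
    ∃ y, C.E.Dg n (s + 4) y ∧ x = x' + y ≫ C.E.tp 4 _ := by
  obtain ⟨y, hy, e⟩ := H.div4 (by rw [map_sub]; exact h.sub h') hF hn
  exact ⟨y, hy, by rw [← e, add_sub_cancel]⟩

end CM

theorem ob_hat_red {X : T.C} {c : ob X ⟶ C.Q s W} {y : C.o X ⟶ C.o (W ⊗ C.M)}
    (h : C.E.Ob n s (c ≫ C.E.K.Qm (s + 1) (io (C.red W))) y) :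
    C.E.Ob n s (C.cr C.M c) (C.hat y) := by
  have h1 := (ob_sr h C.M).comp_ι (m := 0) (deg_io (C.muZ W)) (add_zero n)
  rwa [mul_zero, Int.negOnePow_zero, one_smul, cr_comp, Category.assoc, ← C.E.K.Qm_comp, wr_io,
    ← io_comp, wr_red_muZ, io_id, C.E.K.Qm_id, Category.comp_id] at h1

section lc

variable {e : J → (ob C.Γ ⟶ C.Q 0 Z)} (hθ : MC θ) {z : Cob Laz a} {z' : Cob Laz a'}
include hθ

/-- The Leibniz rule. -/
theorem Dr.lc (hz : C.Dr (fun _ => 0) 0 k a a' ω ω' (mE C.eS) (fun _ => z) fun _ => z')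
    (h : C.Dr d θ k s s' w w' (mE e) F G) (e₁ : a + s = r) (e₂ : a' + s = r') (e₃ : a + s' = r')
    (hr : 1 ≤ r) (ev : ω + w = v) (ev' : ω + w' = v') :
    C.Dr d θ k r r' v v' (mE e) (lc J e₁ z F) (lc J e₂ z' F + (-1 : ℤ) ^ a • lc J e₃ z G) := by
  obtain ⟨y, h1, h2⟩ := hz.ex
  obtain ⟨y', h3, h4⟩ := h.ex
  have := hz.es
  have := hz.ew
  have := h.ew
  rw [psi_eS] at h1 h2
  rw [← psi_comp] at h3 h4
  have h5 := ob_hat_red h3
  rw [hat_tp] at h5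
  obtain ⟨u, h6, h7⟩ := leib (C.G.cpl C.Γ) e₁ e₂ e₃ hz.es hr h1 h2 h5 (rep_hat_red h4) rfl rfl
    (l := 4 * v - r) (by omega) rfl
  rw [cx_cupE_psi] at h6
  rw [cx_cupE_psi, cx_cupE_psi, Int.negOnePow_even _ (Even.mul_left ⟨2 * (w' - w), by omega⟩ _),
    one_smul, Units.smul_def, Int.coe_negOnePow_natCast, ← map_zsmul, ← map_add] at h7
  exact ⟨by omega, by omega, lcZ hθ _ hz.cy ev h.cy, add_mem (lcZ hθ _ hz.cy' (by omega) h.cy)
    (zsmul_mem (lcZ hθ _ hz.cy ev' h.cy') _), u, h6, h7⟩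

/-- The product with a permanent cycle. -/
theorem Dr.lc_perm {x : C.o C.Γ ⟶ C.o (C.Γ ⊗ C.M)} (hx : C.E.Rep n a x (C.φM C.Γ a z))
    (hz : (fun _ => z) ∈ ZS ω a) (hn : n + a = 4 * ω) (h : C.Dr d θ k s s' w w' (mE e) F G)
    (e₁ : a + s = r) (e₃ : a + s' = r') (hr : 1 ≤ r) (ev : ω + w = v) (ev' : ω + w' = v') :
    C.Dr d θ k r r' v v' (mE e) (P236EL.lc J e₁ z F) ((-1 : ℤ) ^ a • P236EL.lc J e₃ z G) := by
  have := h.es
  have := h.ew
  have h1 := Dr.lc hθ (z' := 0) (dr_of_rep (w' := ω + w' - w) rfl (by omega) hn hz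
    (by rwa [psi_eS])) h e₁ (by omega) e₃ hr ev ev'
  rwa [map_zero, AddMonoidHom.zero_apply, zero_add] at h1

end lc

section post

variable {e' : L → (ob C.Γ ⟶ C.Q 0 W')} {d' : L → ℤ} {θ' : L → L → Cob Laz 1}
  (H' : C.CM e' d' θ')
include H'

/-- Naturality for a map with a matrix of cochains. -/
theorem Dr.post (h : C.Dr d θ k s s' w w' e F G) {f : C.o W ⟶ C.o W'} {c : ob W ⟶ C.Q a W'}
    (hf : C.E.Rep m a f c) {A : J → L → Cob Laz a} (hA : ∀ j, C.E.act (e j) c = C.psi e' a (A j))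
    (wA : ∀ j, A j ∈ CW 3 Laz d' (d j + ω) a) (hm : m + a = 4 * ω) (e₁ : s + a = r)
    (e₂ : s' + a = r') (ev : w + ω = v) (ev' : w' + ω = v') :
    C.Dr d' θ' k r r' v v' e' (mc e₁ F A) (mc e₂ G A) := by
  obtain ⟨y, h1, h2⟩ := h.ex
  have := h.es
  have := h.ew
  subst e₁ e₂ ev ev'
  have h3 := h1.post hf (l := 4 * (w + ω) - (s + a : ℕ)) (by push_cast; omega)
  have h4 := (h2.comp hf (l := 4 * (w + ω) - (s + a : ℕ) - 1) (by push_cast; omega)).usmul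
    ((s + 1) * m).negOnePow
  rw [psi_cup _ hA, smul_smul, ← Int.negOnePow_add, ← add_mul, Int.negOnePow_even _
    ((show Even ((s : ℤ) + 1 + s') from ⟨s + 2 * (w' - w) + 1, by omega⟩).mul_right _),
    one_smul] at h4
  rw [psi_cup _ hA, Category.assoc, tp_comm, ← Category.assoc, ← Linear.units_smul_comp] at h3
  have h5 : ∀ {b : ℕ} (F : J → Cob Laz b), (fun k => ∑ c, Cob.cup (F c) (A c k)) = mc rfl F A :=
    fun F => funext fun k => (mc_apply rfl F A k).symm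
  rw [h5] at h3 h4
  exact ⟨by omega, by omega, H'.cy_of_cyc (mc_mem_CW _ h.cy.1 wA) h3.cyc,
    H'.cy_of_cyc (mc_mem_CW _ h.cy'.1 wA) h4.cyc, _, h3, h4⟩

/-- Naturality for a map of filtration zero and even degree. -/
theorem Dr.map (h : C.Dr d θ k s s' w w' e F G) {f : ob W ⟶ ob W'} (hf : Deg (-(4 * ω)) f)
    {F' : L → Cob Laz s} {G' : L → Cob Laz s'}
    (hF : C.psi e s F ≫ C.E.K.Qm (s + 1) f = C.psi e' s F')
    (hG : C.psi e s' G ≫ C.E.K.Qm (s' + 1) f = C.psi e' s' G') (wF : F' ∈ CW 3 Laz d' v s)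
    (wG : G' ∈ CW 3 Laz d' v' s') (ev : w + ω = v) (ev' : w' + ω = v') :
    C.Dr d' θ' k s s' v v' e' F' G' := by
  obtain ⟨y, h1, h2⟩ := h.ex
  have := h.es
  have := h.ew
  have h3 := h1.comp_ι hf (l := 4 * v - s) (by omega)
  have h4 := h2.comp_even hf ⟨2 * ω, by ring⟩ (l := 4 * v - s - 1) (by omega)
  rw [hF, Int.negOnePow_even _ (Even.mul_left ⟨2 * ω, by ring⟩ _), one_smul, Category.assoc,
    tp_comm, ← Category.assoc] at h3
  rw [hG] at h4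
  exact ⟨h.es, by omega, H'.cy_of_cyc wF h3.cyc, H'.cy_of_cyc wG h4.cyc, _, h3, h4⟩

end post

end Cx

end Vale.Agent.P236SY
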