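import Vale.Agent.P236R.Cell

/-!
# P236: the geometric boundary theorem
-/

open CategoryTheory MonoidalCategory Limits Pretriangulated MonObj

namespace Vale.Agent.P236SY

open GData Vale.Agent.P251 Vale.Agent.P251.T Vale.Agent.P251.S Vale.Agent.P251.H Vale.Agent.P251.M
  Vale.Agent.P251.F Vale.Agent.P251.I TD Vale.Agent.P236EL Vale.Agent.P236F Vale.Agent.P236R
open Vale.Agent.P251.St (SHCat)

namespace TD

variable {O : Type*} {D : GData O} {E : TD D} {V X Y Z : D.Cat} {a b c n m l : ℤ} {s : ℕ}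

theorem un_sRs (s : ℕ) (X : D.Cat) :
    E.Fm s (E.K.un X) ≫ (E.sRs s X).hom = E.K.un (E.K.B s X) := by
  induction s generalizing X with
  | zero => exact Category.comp_id _
  | succ s ih => rw [sRs_succ, Fm_succ, ← Fm_comp_assoc, sR_un]; exact ih _

theorem sRs_k (s : ℕ) {X : D.Cat} (hX : E.Sym X) (e : V ⟶ E.K.B s (E.K.M.obj X))
    (he : e ≫ (E.sRs s X).hom ≫ E.K.k s X ≫ E.K.un _ = 0) :
    e ≫ E.Fm s (E.K.ρ X) = e ≫ (E.sRs s X).hom ≫ E.K.k s X := by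
  induction s generalizing X with
  | zero => exact congrArg _ (Category.id_comp _).symm
  | succ s ih =>
    rw [sRs_succ, Category.assoc] at he ⊢
    have h1 := ih hX.G (e ≫ E.Fm s (E.sR X).hom) ((Category.assoc _ _ _).trans he)
    obtain ⟨w, hw⟩ := E.exists_oc (s := s + 2)
      ((e ≫ E.Fm s (E.sR X).hom) ≫ (E.sRs s _).hom ≫ E.K.k (s + 1) X)
      (by simpa only [Category.assoc] using he)
    have h2 : E.oc (s + 2) X ≫ E.Fm s (E.σ X) = E.oc (s + 2) X := by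
      have h3 : E.oc (s + 2) X = E.Fm s (E.ε _) := (hX.G.G s).symm
      rw [h3, ← Fm_comp, ← E.ε_nat, ← hX.G.fm, ← fm_comp, σ_ε, hX.fm]
    have h4 : E.Fm s (E.fm (E.K.ρ X)) =
        E.Fm s (E.sR X).hom ≫ E.Fm s (E.K.ρ _) ≫ E.Fm s (E.σ X) := by
      rw [← Fm_comp, ← Fm_comp, reassoc_of% E.sR_ρ, σ_σ, Category.comp_id]
    have h5 := h1.trans hw
    rw [Fm_succ, h4, ← Category.assoc, ← Category.assoc, h5, Category.assoc, h2, ← h5, h1,
      Category.assoc]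
    rfl

theorem gb (hX : E.Sym X) {f : X ⟶ Y} {g : Y ⟶ Z} {h : Z ⟶ E.K.G.obj X} {φ : Y ⟶ E.K.M.obj X}
    (df : Deg (-a) f) (dg : Deg (-b) g) (fg : f ≫ g = 0) (h1 : f ≫ φ = E.K.un X) {e : ℤˣ}
    (h2 : g ≫ h = e • φ ≫ E.K.ρ X) {z : V ⟶ E.K.Q (s + 1) X} {y : E.so V ⟶ E.so X}
    {x : E.so V ⟶ E.so Y} (hz : E.Ob n s z y) (hx : E.Rep m s x (z ≫ E.K.Qm (s + 1) f))
    (hl : m + b = l) : ∃ y', E.Dg l (s + 1) y' ∧ x ≫ E.ι g = y' ≫ E.τ _ ∧
      y' ≫ E.up h = (e * (s * a : ℤ).negOnePow) • y := by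
  obtain ⟨w, -, rfl, ew⟩ := hz.ex
  obtain ⟨ω, dω, rfl, eω⟩ := hx.ex
  rw [Category.assoc, E.K.q_naturality, Bm_eq s df, mul_neg, Int.negOnePow_neg, Units.smul_def,
    Functor.map_zsmul, Preadditive.comp_zsmul, Preadditive.comp_zsmul, ← Units.smul_def] at eω
  obtain ⟨y', hy'⟩ := E.exists_oc (ω ≫ E.Fm s g) (by
    rw [Category.assoc, E.K.un_nat, reassoc_of% eω, Linear.units_smul_comp, Category.assoc,
      Category.assoc, ← Functor.map_comp, ← Fm_comp, fg, map_zero, Functor.map_zero, comp_zero,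
      comp_zero, smul_zero])
  obtain ⟨y', dy', hy'⟩ := (dω.comp (deg_Fm s dg) rfl).left (E.deg_oc s Z) hy'
    (show -l + 0 = _ by omega)
  have h3 : ω ≫ E.Fm s φ ≫ (E.sRs s X).hom = (s * a : ℤ).negOnePow • z ≫ E.K.q s X := by
    rw [← Category.comp_id (E.sRs s X).hom, ← E.K.left_unit, E.K.un_nat_assoc, E.K.un_nat_assoc,
      reassoc_of% eω, Linear.units_smul_comp, Category.assoc, Category.assoc,
      ← Functor.map_comp_assoc, ← Functor.map_comp_assoc, ← Fm_comp, h1, un_sRs, E.K.right_unit,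
      Category.comp_id]
  have h4 := sRs_k s hX (ω ≫ E.Fm s φ) (by
    rw [Category.assoc, reassoc_of% h3, Linear.units_smul_comp, Category.assoc,
      ← reassoc_of% ew, oc_un, comp_zero, smul_zero])
  refine ⟨E.cl (s + 1) (by simp) y', dg_cl _ _ dy', ?_, ?_⟩
  · rw [cl_ι, hy', cl_oc, E.cl_τ (j := s) (by ring)]
  · rw [E.cl_up (j := s + 2) (by ring) _ (by omega), Units.smul_def, ← map_zsmul]
    refine cl_eq_of_oc _ ?_
    rw [Preadditive.zsmul_comp, ew, Category.assoc]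
    refine (congrArg _ (E.oc_nat s h)).trans ?_
    rw [← reassoc_of% hy', ← Fm_comp, h2, Units.smul_def, map_zsmul, Preadditive.comp_zsmul,
      Fm_comp, ← Category.assoc, h4, Category.assoc, reassoc_of% h3, Linear.units_smul_comp,
      Category.assoc, Units.smul_def, smul_smul, Units.val_mul]

end TD

variable {T : SHCat}

namespace Cx

variable {C : Cx T} {a b c : ℤ} {X Y Z : T.C} {f : ob X ⟶ ob Y} {g : ob Y ⟶ ob Z}
  {k : C.o Z ⟶ C.o X}

/-- The geometric boundary theorem: a differential in `X` which dies in `Y` gives a hidden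
extension of the map `g`. -/
theorem ST.gb [C.G.Tors X] (H : C.ST a b c f g k) : ∃ u : ℤˣ, ∀ {V : Gr T.C} {s : ℕ} {n m l : ℤ}
    {z : V ⟶ C.Q s X} {y : C.E.so V ⟶ C.o X} {x : C.E.so V ⟶ C.o Y}, C.E.Ob n s z y →
      C.E.Rep m s x (z ≫ C.E.K.Qm (s + 1) f) → m + b = l → ∃ y', C.E.Dg l (s + 1) y' ∧
        x ≫ C.E.ι g = y' ≫ C.E.τ _ ∧ y' ≫ k = (u * (s * a : ℤ).negOnePow) • y := by
  have hs := H.sum
  obtain ⟨h, D, dh, rfl⟩ := H.ex
  obtain ⟨φ, e, -, h1, h2⟩ := D.rot'.fill (C.U.dt X) (u := h) (w := 𝟙 _) (m := a) dh (deg_id _)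
    (Category.comp_id _) (by omega) (by omega)
  exact ⟨e, fun hz hx hl => TD.gb (C.sym X) D.deg₁ D.deg₂ D.zero
    (h1.trans (Category.id_comp _)) h2 hz hx hl⟩

end Cx

end Vale.Agent.P236SY
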