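import Vale.Agent.P236R.Alg
import Vale.Agent.P236SY.CY
import Vale.Agent.P236SY.Hat
import Vale.Agent.P236SY.Nf
import Vale.Agent.P236K.Glue2

/-!
# P236, steps R0 to R3: general tools in the synthetic calculus
-/

open CategoryTheory MonoidalCategory Limits Pretriangulated MonObj

namespace Vale.Agent.P236SY

open GData Vale.Agent.P251 Vale.Agent.P251.T Vale.Agent.P251.S Vale.Agent.P251.H Vale.Agent.P251.M
  Vale.Agent.P251.F Vale.Agent.P251.I TD Vale.Agent.P236EL Vale.Agent.P236F Vale.Agent.P236R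
  Vale.Agent.P236Z
open Vale.Agent.P251.St (SHCat)

variable {T : SHCat} {t : Cob Laz 1}

namespace Cx

variable {C : Cx T} {J : Type} [Fintype J] {d : J → ℤ} {θ : J → J → Cob Laz 1} {a b r s : ℕ}
  {n m l w : ℤ} {W Z : T.C}

/-- the cells of `Z ⊗ M` -/
noncomputable abbrev mE (e : J → (ob C.Γ ⟶ C.Q 0 Z)) : J → (ob C.Γ ⟶ C.Q 0 (Z ⊗ C.M)) :=
  fun c => e c ≫ C.E.K.Qm 1 (io (C.red Z))

variable (C) in
/-- the cell of the sphere -/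
noncomputable abbrev eS : Fin 1 → (ob C.Γ ⟶ C.Q 0 C.Γ) := fun _ => C.E.K.un (ob C.Γ)

variable (C) in
/-- the reduction of the cochain `z` -/
noncomputable abbrev φM (Z : T.C) (s : ℕ) (z : Cob Laz s) : ob Z ⟶ C.Q s (Z ⊗ C.M) :=
  C.φ Z s z ≫ C.E.K.Qm (s + 1) (io (C.red Z))

theorem cmS : C.CM (mE C.eS) (fun _ => 0) 0 := chart_Γ.cm

theorem psi_eS (F : Fin 1 → Cob Laz s) : C.psi (mE C.eS) s F = C.φM C.Γ s (F 0) := by
  rw [← psi_comp, psi_un]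
  rfl

variable (C) in
/-- The group of stem `n` and filtration `s` vanishes. -/
def Z0 (W : C.E.Syn) (n s : ℤ) : Prop := ∀ x : C.o C.Γ ⟶ W, C.E.Dg n s x → x = 0

/-- The product of a class on the Moore spectrum and a class on `Z ⊗ M`. -/
theorem rep_mul {e : J → (ob C.Γ ⟶ C.Q 0 Z)} {x : C.o C.Γ ⟶ C.o (C.Γ ⊗ C.M)} {z : Cob Laz a}
    (hx : C.E.Rep n a x (C.φM C.Γ a z)) {y : C.o C.Γ ⟶ C.o (Z ⊗ C.M)} {F : J → Cob Laz b}
    (hy : C.E.Rep m b y (C.psi (mE e) b F)) (h : a + b = r) (hl : n + m = l) :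
    C.E.Rep l r ((a * m : ℤ).negOnePow • x ≫ C.hat y) (C.psi (mE e) r (lc J h z F)) := by
  subst h
  have h1 := (hx.comp (rep_hat_red (psi_comp e F _ ▸ hy)) hl).usmul (a * m : ℤ).negOnePow
  rwa [smul_smul, Int.units_mul_self, one_smul, ← cup_mid, red_cr, psi_comp, cup_psi] at h1

theorem rep_pre {e : J → (ob C.Γ ⟶ C.Q 0 W)} {x : C.o C.Γ ⟶ C.o C.Γ} {z : Cob Laz a}
    (hx : C.E.Rep n a x (C.φ C.Γ a z)) {y : C.o C.Γ ⟶ C.o W} {F : J → Cob Laz b}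
    (hy : C.E.Rep m b y (C.psi e b F)) (h : a + b = r) (hl : n + m = l) :
    C.E.Rep l r ((a * m : ℤ).negOnePow • x ≫ y) (C.psi e r (lc J h z F)) := by
  subst h
  have h1 := (hx.comp hy hl).usmul (a * m : ℤ).negOnePow
  rwa [smul_smul, Int.units_mul_self, one_smul, cup_psi] at h1

theorem ob_pre [C.G.Tors W] {e : J → (ob C.Γ ⟶ C.Q 0 W)} {x : C.o C.Γ ⟶ C.o C.Γ} {z : Cob Laz a}
    (hx : C.E.Rep n a x (C.φ C.Γ a z)) {y : C.o C.Γ ⟶ C.o W} {F : J → Cob Laz b}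
    (hy : C.E.Ob m b (C.psi e b F) y) (h : a + b = r) (hl : n + m = l) :
    C.E.Ob l r (C.psi e r (lc J h z F)) ((a * m : ℤ).negOnePow • x ≫ y) := by
  subst h
  have h1 := Ob.pre (C.sym W) hx hy hl
  rwa [cup_psi] at h1

namespace CM

variable {e : J → (ob C.Γ ⟶ C.Q 0 W)} (H : C.CM e d θ) {F : J → Cob Laz s} {x : C.o C.Γ ⟶ C.o W}
include H

theorem div4 (h : C.E.Rep n s x (C.psi e s F)) (h' : By d θ s w 3 F) (hn : n + s = 4 * w) :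
    ∃ y, C.E.Dg n (s + 4) y ∧ x = y ≫ C.E.tp 4 _ := by
  obtain ⟨y, hy, rfl⟩ := H.div h h' hn
  obtain ⟨y, hy', rfl⟩ := div_of_van (s := s + 1) 3 (fun r h1 h2 => H.sparse (by omega)) hy
  exact ⟨y, hy'.cast rfl (by push_cast; ring), by rw [C.E.tp_succ 3, Category.assoc]⟩

theorem exists_rep_of (hF : Cy d θ s w 3 F) (hn : n + s = 4 * w)
    (h : C.Z0 (C.o W) (n - 1) (s + 2)) : ∃ x, C.E.Rep n s x (C.psi e s F) := by
  obtain ⟨y, hy⟩ := H.exists_ob hF hn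
  obtain rfl := h y hy.dg
  exact hy.rep

theorem zero_of (h : C.E.Rep n s x (C.psi e s F)) (h' : By d θ s w 3 F) (hn : n + s = 4 * w)
    (h0 : C.Z0 (C.o W) n (s + 1)) : x = 0 := by
  obtain ⟨y, hy, rfl⟩ := H.div h h' hn
  rw [h0 y hy, zero_comp]

/-- If all cocycles are permanent then `τ ^ 4` is injective. -/
theorem tp_inj (hx : C.E.Dg m (s + 5) x) (hm : m = n - 1) (hn : n + s = 4 * w)
    (h : ∀ F, Cy d θ s w 3 F → ∃ y, C.E.Rep n s y (C.psi e s F)) (h0 : x ≫ C.E.tp 4 _ = 0) :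
    x = 0 := by
  have h1 : ∀ k : ℕ, C.E.Dg m (s + 5 - k) (x ≫ C.E.tp k _) := fun k =>
    hx.comp (C.E.dg_tp k _) (add_zero _) (by ring)
  have h2 : ∀ k : ℕ, x ≫ C.E.tp (k + 1) _ = (x ≫ C.E.tp k _) ≫ C.E.τ _ := fun k => by
    rw [tp_succ, Category.assoc]
  obtain ⟨F, hF, h3⟩ := H.exists_of_τ (h1 3) ((h2 3).symm.trans h0) hm (by push_cast; ring) hn
  obtain ⟨y, hy⟩ := h F hF
  have h4 := h3.uniq hy.ob (a := 0) (by rw [sub_self]; exact cb_zero _ _)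
  have h5 := (H.sparse (n := n) (s := s + 1) (by omega)).τ_inj (h1 2) ((h2 2).symm.trans h4) hm
    (by push_cast; ring)
  have h6 := (H.sparse (n := n) (s := s + 2) (by omega)).τ_inj (h1 1) ((h2 1).symm.trans h5) hm
    (by push_cast; ring)
  have h7 := (H.sparse (n := n) (s := s + 3) (by omega)).τ_inj (h1 0) ((h2 0).symm.trans h6) hm
    (by push_cast; ring)
  rwa [tp_zero, Category.comp_id] at h7

theorem cy_of_rep (h : C.E.Rep n s x (C.psi e s F)) (hF : F ∈ CW 3 Laz d w s) :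
    Cy d θ s w 3 F :=
  cy_iff.2 ⟨hF, H.ker (H.cells.DD_mem hF) (by rw [← H.cells.psi_d, h.cyc])⟩

end CM

theorem φM_cyc {z : Cob Laz s} (hz : (fun _ => z) ∈ ZS w s) :
    C.φM Z s z ≫ C.E.K.d (s + 1) _ = 0 := by
  obtain ⟨-, z', -, h⟩ := of_zs hz
  rw [Category.assoc, C.E.K.d_naturality, ← Category.assoc, ← Φ_d, h, map_nsmul, ← natCast_zsmul]
  exact three_red _

theorem exists_v (ht : IsT1 3 t) : ∃ v, C.E.Rep 4 0 v (C.φM C.Γ 0 v1) := by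
  obtain ⟨v, hv⟩ := (cmS (C := C)).exists_rep' (n := 4) (zs_v1 ht) (by norm_num)
    fun r hr c => by omega
  exact ⟨v, by rwa [psi_eS] at hv⟩

theorem perm_v (ht : IsT1 3 t) {e : J → (ob C.Γ ⟶ C.Q 0 Z)} {y : C.o C.Γ ⟶ C.o (Z ⊗ C.M)}
    {F : J → Cob Laz s} (hy : C.E.Rep m s y (C.psi (mE e) s F)) (h : 0 + s = s) (k : ℕ) :
    ∃ x, C.E.Rep (4 * k + m) s x (C.psi (mE e) s (lc J h (v1 ^ k) F)) := by
  obtain ⟨v, hv⟩ := exists_v (C := C) ht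
  induction k with
  | zero => exact ⟨y, by rw [lc_v_zero]; exact hy.cast (by simp)⟩
  | succ k ih =>
    obtain ⟨x, hx⟩ := ih
    exact ⟨_, lc_v_succ k h F ▸ rep_mul hv hx h (by push_cast; ring)⟩

/-- A class with leading term `t ^ 3 ^ (j + 1)` is detected by `h_{j+1}`. -/
theorem exf_of (ht : IsT1 3 t) {j : ℕ} {y : Cob Laz 1} (hy : (fun _ => y) ∈ ZS (3 ^ (j + 1)) 1)
    (h : rs p3 1 (y - t ^ 3 ^ (j + 1)) ∈ FI) {x : C.o C.Γ ⟶ C.o (C.Γ ⊗ C.M)}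
    (hx : C.E.Rep (4 * 3 ^ (j + 1) - 1) 1 x (C.φM C.Γ 1 y)) : P236K.EXF j := by
  have := locallySmall_self.{0} T.C
  obtain ⟨H, _, _, hH⟩ := Dt.exists_HFmon C.F (p := 3) (by norm_num)
  obtain ⟨h1, z, c, h2, h3, h4⟩ := det_of ht hy h
  obtain ⟨g, dg, e⟩ := (hx.dg.τ (t := 0) rfl).exists_ι
  obtain ⟨g, dg', rfl⟩ := j_surj dg
  obtain ⟨f, hf⟩ := Deg.exists_io ((deg_ush (𝟙_ T.C) _).comp dg' (add_neg_cancel _))
  have h5 := not_af hH ht h1 h2 h3 h4 hx (by rw [Det.w0]; ring)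
    ((deg_io C.G.j).comp (deg_ush_inv (𝟙_ T.C) _) (zero_add _)) (f := f)
    (by rw [e, ← hf, Category.assoc, Iso.inv_hom_id_assoc])
  refine ⟨T, C.F, H, _, C.M, C.i, C.δ, f ≫ C.G.lam C.M, hH, C.dist, fun h6 => h5 ?_⟩
  simpa using h6.post (inv (C.G.lam C.M))

theorem not_exf (hA : P236K.EA) : ¬ P236K.EXF 1 := fun h => by
  obtain ⟨T, F, H, a, hH, h1⟩ := P236K.not_one hA
  obtain ⟨x, -, h2⟩ := P236K.ext_transfer (P236K.stMoore 1 h) F hH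
  exact h2 (h1 x)

namespace CY

variable (P : C.CY t)

instance : C.G.Tors P.A := P.chA.fc.tors

instance : C.G.Tors P.Y := P.chY.fc.tors

/-- the bottom cell of `Y` -/
noncomputable abbrev e₀ : ob C.Γ ⟶ ob P.Y := P.i₁ ≫ P.i₂

/-- The condition for the vanishing of a group of `Y ⊗ M`. -/
abbrev Ok (L : List (ℤ × ℕ)) (n s : ℤ) : Prop := 0 ≤ s ∧ n < 352 ∧
  ∀ r : Fin 32, s ≤ r.1 ∧ 11 * (r.1 : ℤ) ≤ n ∧ (n + r.1) % 4 = 0 → ((n + r.1) / 4, r.1) ∈ L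

theorem z0_Y (ht : IsT1 3 t) {L : List (ℤ × ℕ)} (hL : ∀ a ∈ L, VY t a.1 a.2) {s : ℤ}
    (h : Ok L n s) : C.Z0 (C.o (P.Y ⊗ C.M)) n s := fun x hx => by
  obtain ⟨h1, h2, h3⟩ := h
  obtain ⟨s, rfl⟩ := Int.eq_ofNat_of_zero_le h1
  refine P.chY.cm.eq_zero hx fun r w h4 h5 _ => ?_
  rcases lt_or_ge w (3 * r) with h6 | h6
  · exact vy_of_lt ht h6
  · have h7 := hL _ (h3 ⟨r, by omega⟩ ⟨by simpa using h4, by simp only; omega, by simp only; omega⟩)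
    rw [h5, Int.mul_ediv_cancel_left _ (by norm_num)] at h7
    exact h7

theorem z0_Y₀ (ht : IsT1 3 t) {s : ℤ} (h : Ok [] n s) : C.Z0 (C.o (P.Y ⊗ C.M)) n s :=
  P.z0_Y ht (fun _ h => absurd h List.not_mem_nil) h

section src

variable {V : C.E.Syn} {s : ℤ}

theorem zero_A {y : C.o P.A ⟶ V} (hy : C.E.Dg n s y) (h1 : C.Z0 V n s) (h2 : C.Z0 V (n + 4) s) :
    y = 0 := by
  obtain ⟨y', hy', rfl⟩ := P.st₁.stri.yo₂ (m := n + 4) hy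
    (h1 _ (P.st₁.stri.dg₁.comp hy (zero_add _) (zero_add _))) (by ring)
  rw [h2 _ hy', comp_zero]

theorem zero_Y {y : C.o P.Y ⟶ V} (hy : C.E.Dg n s y) (h1 : C.Z0 V n s) (h2 : C.Z0 V (n + 4) s)
    (h3 : C.Z0 V (n + 4 + 4) s) : y = 0 := by
  obtain ⟨y', hy', rfl⟩ := P.st₃.stri.yo₂ (m := n + 4) hy
    (h1 _ (P.st₃.stri.dg₁.comp hy (zero_add _) (zero_add _))) (by ring)
  rw [P.zero_A hy' h2 h3, comp_zero]

/-- Extension over `Y`. -/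
theorem ext_Y {x : C.o C.Γ ⟶ V} (hx : C.E.Dg n s x) (h1 : C.Z0 V (3 + n) (1 + s))
    (h2 : C.Z0 V (3 + n + 4) (1 + s)) : ∃ y, C.E.Dg n s y ∧ x = C.E.ι P.e₀ ≫ y :=
  P.st₃.stri.yo₁ hx (P.zero_A (P.st₃.dg₃.comp hx rfl rfl) h1 h2) (zero_add _)

end src

theorem eY_zero : P.eY 0 = C.E.K.un _ ≫ C.E.K.Qm 1 P.e₀ := by
  rw [show P.eY 0 = _ from P.eY_cast 0, C.E.K.Qm_comp, ← Category.assoc, ← P.eA_zero]

theorem psi_e₀ (z : Cob Laz s) : C.psi (mE P.eY) s (Pi.single 0 z) = P.e₀ ≫ C.φM P.Y s z := by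
  rw [← psi_comp, psi_single, eY_zero, C.E.cup_comp (t := 0), cup_un, Φ_nat, Category.assoc]

theorem psi_i₁ (z : Cob Laz s) : C.psi (mE P.eA) s (Pi.single 0 z) = P.i₁ ≫ C.φM P.A s z := by
  rw [← psi_comp, psi_single, P.eA_zero, C.E.cup_comp (t := 0), cup_un, Φ_nat, Category.assoc]

theorem φM_wr {X Y : T.C} (f : ob X ⟶ ob Y) (z : Cob Laz s) :
    C.φM X s z ≫ C.E.K.Qm (s + 1) (wr f C.M) = f ≫ C.φM Y s z := by
  rw [← red_M, Φ_nat, Category.assoc]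

theorem rep_e₀ {x : C.o C.Γ ⟶ C.o (C.Γ ⊗ C.M)} {z : Cob Laz s}
    (h : C.E.Rep n s x (C.φM C.Γ s z)) :
    C.E.Rep n s (x ≫ C.E.ι (wr P.e₀ C.M)) (C.psi (mE P.eY) s (Pi.single 0 z)) := by
  rw [psi_e₀, ← φM_wr]
  exact h.comp_even (m := 0) (P.st₃.wr C.M).deg₁ Even.zero (add_zero _)

theorem rep_i₁ {x : C.o C.Γ ⟶ C.o (C.Γ ⊗ C.M)} {z : Cob Laz s}
    (h : C.E.Rep n s x (C.φM C.Γ s z)) :
    C.E.Rep n s (x ≫ C.E.ι (wr P.i₁ C.M)) (C.psi (mE P.eA) s (Pi.single 0 z)) := by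
  rw [psi_i₁, ← φM_wr]
  exact h.comp_even (m := 0) (P.st₁.wr C.M).deg₁ Even.zero (add_zero _)

/-- the class `β_1` -/
noncomputable def β : C.o C.Γ ⟶ C.o C.Γ := -(P.αt ≫ P.αb)

theorem rep_β : C.E.Rep 10 2 P.β (C.φ C.Γ 2 (bb t)) := by
  have h := (P.rep_αt.comp P.rep_αb (l := 10) rfl).neg
  rw [psi_cup _ (e' := C.eS) (A := fun c _ => ![2 * t, 2 * t ^ 2] c)
    (fun c => (P.act_xb c).trans (psi_un fun _ => _).symm), psi_un, Fin.sum_univ_two,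
    show (((1 : ℕ) : ℤ) * 3).negOnePow = -1 from rfl, Units.neg_smul, one_smul, neg_neg] at h
  exact h

theorem β_inj {s : ℤ} {y : C.o C.Γ ⟶ C.o (C.Γ ⊗ C.M)} (hy : C.E.Dg n s y)
    (h1 : C.Z0 (C.o (P.Y ⊗ C.M)) (n + 8) s) (h2 : C.Z0 (C.o (P.Y ⊗ C.M)) (n + 11) (s + 1))
    (h : P.β ≫ y = 0) : y = 0 := by
  have h3 := comp_act (Z := C.Γ ⊗ C.M) P.rep_β.dg hy
  rw [h, smul_zero, ← sr_act, act_Γ, β, map_neg, Preadditive.comp_neg, neg_eq_zero, UF.sr_comp,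
    ← Category.assoc] at h3
  obtain ⟨y', hy', e⟩ := (P.st₃.wr C.M).stri.co₃ (m := n + 11)
    (hy.comp (P.st₂.wr C.M).dg₃ rfl rfl) h3 (by ring)
  rw [h2 _ hy', zero_comp] at e
  obtain ⟨y', hy', rfl⟩ := (P.st₂.wr C.M).stri.co₃ (m := n + 8) hy e (by ring)
  rw [h1 _ hy', zero_comp]

/-- The linear extension of a map on `Y` acts on classes of the bottom cell by the product. -/
theorem rep_ext {f : C.o P.Y ⟶ C.o (P.Y ⊗ C.M)} (hf : C.E.Dg m b f) {F : Fin 3 → Cob Laz b}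
    (hF : C.E.Rep m b (C.E.ι P.e₀ ≫ f) (C.psi (mE P.eY) b F)) (hw : F ∈ CW 3 Laz (dF 3) w b)
    (hm : m + b = 4 * w) : ∃ F' ∈ CW 3 Laz (dF 3) w b, F' - F ∈ BY t w b ∧
      ∀ {a r : ℕ} {n l : ℤ} {x : C.o C.Γ ⟶ C.o (P.Y ⊗ C.M)} {z : Cob Laz a},
        C.E.Rep n a x (C.psi (mE P.eY) a (Pi.single 0 z)) → ∀ h : a + b = r, n + m = l →
        C.E.Rep l r ((a * m : ℤ).negOnePow • x ≫ C.hat f) (C.psi (mE P.eY) r (lc _ h z F')) := by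
  obtain ⟨c, hc⟩ := hf.exists_rep
  have h1 := hc.ι_comp (m := 0) P.st₃.deg₁ (zero_add _)
  obtain ⟨F', hF', e⟩ := P.chY.cm.surj (w := w) (h1.deg.cast (by rw [hm]))
  refine ⟨F', hF', P.chY.cm.rep_uniq (e ▸ h1) hF hF' hw hm, fun {a r n l x z} hx h hl => ?_⟩
  subst h
  have h2 := (hx.comp (rep_hat hc) hl).usmul (a * m : ℤ).negOnePow
  rwa [smul_smul, Int.units_mul_self, one_smul, psi_e₀, ← Category.assoc, ← Φ_nat, Category.assoc,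
    ← C.E.K.Qm_comp, ← cup_mid, Category.assoc, reassoc_of% red_cr, ← C.E.K.Qm_comp, ← io_comp,
    red_muZ, io_id, C.E.K.Qm_id, Category.comp_id, e, cup_psi] at h2

end CY

end Cx

end Vale.Agent.P236SY
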