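import Vale.Agent.P236R.Seed

/-!
# P236: differentials on `Y ⊗ M` in the stems 251 to 334
-/

open CategoryTheory MonoidalCategory Limits Pretriangulated MonObj

namespace Vale.Agent.P236SY

open GData Vale.Agent.P251 Vale.Agent.P251.T Vale.Agent.P251.S Vale.Agent.P251.H Vale.Agent.P251.M
  Vale.Agent.P251.F Vale.Agent.P251.I TD Vale.Agent.P236EL Vale.Agent.P236F Vale.Agent.P236R
  Vale.Agent.P236Z AddSubgroup
open Vale.Agent.P251.St (SHCat)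

variable {T : SHCat} {t : Cob Laz 1} {C : Cx T}

variable (t) in
/-- The product with `z` is injective on the cohomology of `Y`. -/
def InjL {a : ℕ} (z : Cob Laz a) (w v : ℤ) (s r : ℕ) (e : a + s = r) : Prop :=
  ∀ G ∈ ZY t w s, lc _ e z G ∈ BY t v r → G ∈ BY t w s

variable (t) in
/-- The facts about the cohomology which give the differentials. -/
structure HF : Prop where
  w78 : ∀ {x c}, Grk 1 2 x c → ∃ ω ∈ ZY t 20 2, lc _ (show 1 + 2 = 3 from rfl) t ω ∈ BY t 21 3 ∧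
    ![c, 0, 0] ∈ zmultiples (lc _ (show 0 + 2 = 2 from rfl) v1 ω) ⊔ BY t 21 2
  u173 : ∀ {x c}, Grk 1 2 x c → ∃ u ∈ ZS 45 7, ∀ G ∈ ZY t 66 10,
    DD (θY t) 9 (lc _ (show 2 + 7 = 9 from rfl) c ![u 0, 0, 0]) = 3 • G → G ∉ BY t 66 10
  v85 : VY t 22 3
  v218 : VY t 57 10
  g251 : ∃ g ∈ ZY t 64 5,
    ZY t 65 5 ≤ zmultiples (lc _ (show 0 + 5 = 5 from rfl) v1 g) ⊔ BY t 65 5
  g259 : ∀ {x c}, Grk 1 2 x c → ∃ g ∈ ZY t 66 5, ∃ h ∈ ZY t 68 6, ∃ k ∈ ZY t 74 6,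
    ∃ n ∈ ZY t 56 5, ZY t 65 5 ≤ zmultiples ![g 1, g 2, 0] ⊔ BY t 65 5 ∧
      lc _ (show 1 + 5 = 6 from rfl) (t ^ 3) g ∈
        zmultiples (lc _ (show 0 + 6 = 6 from rfl) v1 h) ⊔ BY t 69 6 ∧
      lc _ (show 1 + 6 = 7 from rfl) (t ^ 9) h ∈ closure {lc _ (show 1 + 6 = 7 from rfl) (t ^ 3) k,
        lc _ (show 2 + 5 = 7 from rfl) c n} ⊔ BY t 77 7
  i250 : ∀ {x c}, Grk 1 2 x c → InjL t x 65 86 10 11 rfl
  i258 : InjL t (t ^ 3) 67 70 10 11 rfl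
  i265 : ∀ {x c}, Grk 1 1 x c → InjL t c 69 78 11 13 rfl
  j265 : InjL t (t ^ 9) 69 78 11 12 rfl
  l289 : LY t 75 11
  l299 : LY t 78 13
  l333 : LY t 86 11

namespace Cx

variable {J : Type} [Fintype J] {d : J → ℤ} {θ : J → J → Cob Laz 1} {s s' a r r' : ℕ}
  {n m w w' v v' ω : ℤ} {W : T.C} {e : J → (ob C.Γ ⟶ C.Q 0 W)}

variable (C d θ s s' w w' e) in
/-- The classes with vanishing first differential. -/
def K5 (es : s + 5 = s') (ew : w + 1 = w') : AddSubgroup (J → Cob Laz s) where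
  carrier := {F | C.Dr d θ 3 s s' w w' e F (0 : J → Cob Laz s')}
  zero_mem' := dr_zero es (by omega)
  add_mem' h h' := (add_zero (0 : J → Cob Laz s')) ▸ Dr.add h h'
  neg_mem' h := (neg_zero (G := J → Cob Laz s')) ▸ Dr.neg h

variable {es : s + 5 = s'} {ew : w + 1 = w'} {F : J → Cob Laz s} {G : J → Cob Laz s'}

theorem mem_K5 : F ∈ C.K5 d θ s s' w w' e es ew ↔
    C.Dr d θ 3 s s' w w' e F (0 : J → Cob Laz s') := Iff.rfl

namespace CM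

variable (H : C.CM e d θ)
include H

theorem k5_of (h : C.Dr d θ 3 s s' w w' e F G) (hG : G ∈ BQ 3 θ d w' 3 s') :
    F ∈ C.K5 d θ s s' w w' e es ew := H.dr_right h (by rw [zero_sub]; exact neg_mem hG)

theorem of_k5 (h : C.Dr d θ 3 s s' w w' e F G) (hF : F ∈ C.K5 d θ s s' w w' e es ew) :
    G ∈ BQ 3 θ d w' 3 s' := by simpa only [sub_zero] using H.d5_uniq' h hF

theorem sup_k5 {S : AddSubgroup (J → Cob Laz s)} (h : S ≤ C.K5 d θ s s' w w' e es ew) :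
    S ⊔ BQ 3 θ d w 3 s ≤ C.K5 d θ s s' w w' e es ew :=
  _root_.sup_le h fun _ hF => H.dr_of_by es (by omega) hF

theorem zm_k5 (h : F ∈ C.K5 d θ s s' w w' e es ew) :
    zmultiples F ⊔ BQ 3 θ d w 3 s ≤ C.K5 d θ s s' w w' e es ew :=
  H.sup_k5 (zmultiples_le_of_mem h)

theorem k5_of_all (hF : F ∈ ZC 3 θ d w 3 s)
    (h : ∀ G, C.Dr d θ 3 s s' w w' e F G → G ∈ BQ 3 θ d w' 3 s') :
    F ∈ C.K5 d θ s s' w w' e es ew :=
  (H.exists_d5 hF es ew).elim fun G hG => H.k5_of hG (h G hG)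

theorem exists_ne (hF : F ∈ ZC 3 θ d w 3 s) (h : F ∉ C.K5 d θ s s' w w' e es ew) :
    ∃ G, C.Dr d θ 3 s s' w w' e F G ∧ G ∉ BQ 3 θ d w' 3 s' :=
  (H.exists_d5 hF es ew).imp fun _ hG => ⟨hG, fun h1 => h (H.k5_of hG h1)⟩

/-- A line which is hit. -/
theorem hit_line (h : C.Dr d θ 3 s s' w w' e F G) (hG : G ∉ BQ 3 θ d w' 3 s')
    (hl : ∀ z ∈ ZC 3 θ d w' 3 s', z ∉ BQ 3 θ d w' 3 s' →
      ZC 3 θ d w' 3 s' ≤ zmultiples z ⊔ BQ 3 θ d w' 3 s') {G' : J → Cob Laz s'}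
    (hG' : G' ∈ ZC 3 θ d w' 3 s') : ∃ F', C.Dr d θ 3 s s' w w' e F' G' := by
  obtain ⟨_, ⟨c, rfl⟩, b, hb, rfl⟩ := mem_sup.1 (hl G h.cy' hG hG')
  exact ⟨_, H.dr_right (h.zsmul c) (by rwa [add_sub_cancel_left])⟩

theorem tor_of_hit (hn : n + s' = 4 * w')
    (h : ∀ G ∈ ZC 3 θ d w' 3 s', ∃ F, C.Dr d θ 3 s s' w w' e F G) {u : ℤ}
    (h0 : C.Z0 (C.o W) n u) (hu : u = s' + 4) : C.Tor (C.o W) 4 n s' :=
  H.tor (b := 4) hn (fun G hG _ => (h G hG).elim fun _ h1 =>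
    (h1.tor hn).elim fun _ h2 => mem_cls_kr h2.1 h2.2) (h0.kill _) hu (by omega)

end CM

namespace CY

variable (P : C.CY t) (ht : IsT1 3 t)

/-- The classes on `Y ⊗ M` with vanishing first differential. -/
noncomputable abbrev KY (s s' : ℕ) (w w' : ℤ) (es : s + 5 = s') (ew : w + 1 = w') :
    AddSubgroup (Fin 3 → Cob Laz s) := C.K5 (dF 3) (θY t) s s' w w' (mE P.eY) es ew

variable {F : Fin 3 → Cob Laz s} {G : Fin 3 → Cob Laz s'} {er : r + 5 = r'} {ev : v + 1 = v'}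

theorem ky_pp (h : F ∈ P.KY s s' w w' es ew) (e : w + -1 = v) :
    ![F 1, F 2, 0] ∈ P.KY s s' v v' es ev := by
  have h1 := P.dr_pp h e (v' := v') (by omega)
  rwa [show ![(0 : Fin 3 → Cob Laz s') 1, (0 : Fin 3 → Cob Laz s') 2, 0] = 0 from
    funext fun c => by fin_cases c <;> rfl] at h1

section

variable (hH : VH t) {z : Cob Laz a} (hz : (fun _ => z) ∈ ZS ω a) (hω : ω + 3 < mnY (a + 5))
include ht hH hz hω

theorem dz_lc (h : P.DZ 3 s s' w w' F G) (e₁ : a + s = r) (e₃ : a + s' = r') (hr : 1 ≤ r)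
    (e : ω + w = v) (e' : ω + w' = v') :
    P.DZ 3 r r' v v' (lc _ e₁ z F) ((-1 : ℤ) ^ a • lc _ e₃ z G) :=
  DZ.lc P ht h hz (hH _ _ (by omega)) (hH _ _ (by omega)) (hH _ _ (by omega)) e₁ e₃ hr e e'

theorem ky_lc (h : F ∈ P.KY s s' w w' es ew) (e₁ : a + s = r) (hr : 1 ≤ r) (e : ω + w = v) :
    lc _ e₁ z F ∈ P.KY r r' v v' er ev := by
  have h1 := P.dz_lc ht hH hz hω h e₁ (r' := r') (by omega) hr e (v' := v') (by omega)
  rwa [map_zero, smul_zero] at h1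

theorem ky_of_lc (hF : F ∈ ZY t w s) (e₁ : a + s = r) (hr : 1 ≤ r) (e : ω + w = v)
    (h : lc _ e₁ z F ∈ P.KY r r' v v' er ev) {e₃ : a + s' = r'} (hi : InjL t z w' v' s' r' e₃) :
    F ∈ P.KY s s' w w' es ew :=
  P.chY.cm.k5_of_all hF fun G hG => hi G hG.cy' (by
    have h1 := zsmul_mem (P.chY.cm.of_k5 (P.dz_lc ht hH hz hω hG e₁ e₃ hr e (by omega)) h)
      ((-1 : ℤ) ^ a)
    rwa [smul_smul, ← mul_pow, neg_mul_neg, _root_.one_mul, one_pow, one_smul] at h1)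

end

/-- Extension over `Y`. -/
theorem ext_Y' {V : C.E.Syn} {u : ℤ} {x : C.o C.Γ ⟶ V} (hx : C.E.Dg n u x) (h1 : P.α ≫ x = 0)
    (h2 : C.Z0 V (3 + n + 4) (1 + u)) : ∃ y, C.E.Dg n u y ∧ x = C.E.ι P.e₀ ≫ y := by
  refine P.st₃.stri.yo₁ hx ?_ (zero_add _)
  obtain ⟨y', hy', e⟩ := P.st₁.stri.yo₂ (m := 3 + n + 4) (P.st₃.dg₃.comp hx rfl rfl)
    (by rw [reassoc_of% P.i_αb, h1]) (by ring)
  rw [e, h2 _ hy', comp_zero]

include ht

/-- A self map sends a class which is hit to a class which is hit. -/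
theorem hit_ext {b : ℕ} {g : C.o P.Y ⟶ P.oZ} (hg : C.E.Dg m b g) {Ω : Fin 3 → Cob Laz b}
    (hΩ : Ω ∈ ZY t v b) (h1 : C.E.Rep m b (C.E.ι P.e₀ ≫ g) (C.psi (mE P.eY) b Ω))
    (hm : m + b = 4 * v) {y : Cob Laz s'} (hy : (fun _ => y) ∈ ZS w' s')
    (h : P.DZ 3 s s' w w' F (Pi.single 0 y)) (e : s' + b = r') (er : r + 5 = r') {u u' : ℤ}
    (eu : w' + v = u') (eu' : u + 1 = u') : ∃ F', P.DZ 3 r r' u u' F' (lc _ e y Ω) := by
  obtain ⟨Ω', -, h2, h3⟩ := P.rep_ext hg h1 hΩ.1 hm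
  obtain ⟨x, h4, h5⟩ := h.tor (m := 4 * w' - s') (by ring)
  have h6 := lcZ (mc_Y ht) e hy eu hΩ
  have h7 := P.chY.cm.rep_congr (w := u') (h3 h4 e (l := 4 * u' - r') (by omega))
    (F' := lc _ e y Ω) (by
      rw [← map_sub, ← neg_sub]
      exact lcB (mc_Y ht) e hy eu (neg_mem h2)) (by ring)
  exact P.chY.cm.dr_of_tor (k := 3) er (by omega) (by ring) h6 h7 (by
    rw [Linear.units_smul_comp, Category.assoc, ← tp_comm, reassoc_of% h5, zero_comp, smul_zero])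

variable (hA : P236K.EA) (hR : FR t) (hH : VH t) (h : HF t)
include hA hR hH h

/-- The generator of stem 255 and degree 5 supports a differential. -/
theorem hub : ¬ ZY t 65 5 ≤ P.KY 5 10 65 66 rfl rfl := fun h0 => by
  obtain ⟨x, c, hx⟩ := exists_grk 1 2
  obtain ⟨ω, hω, h1, h2⟩ := h.w78 hx
  obtain ⟨u, hu, h3⟩ := h.u173 hx
  have zc := hx.zc (ω := 21) rfl
  have hu' : (fun _ => u 0) ∈ ZS 45 7 := zs_eta u ▸ hu
  obtain ⟨y, hy⟩ := P.chY.cm.exists_rep_of (n := 78) hω rfl (P.z0_Z₀ ht hH (by decide))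
  have h4 := P.chY.cm.zero_of (w := 21) (rep_pre P.rep_α hy (r := 3) (l := 81) rfl rfl) (by
    rw [two_mul, map_add, AddMonoidHom.add_apply]
    exact add_mem h1 h1) rfl (P.z0_Z₀ ht hH (by decide))
  obtain ⟨g, hg, rfl⟩ := P.ext_Y' hy.dg ((smul_eq_zero_iff_eq _).1 h4)
    (P.z0_Z ht hH (L := [(22, 3)]) (by simpa using h.v85) (by decide))
  have h5 := zs_cupE (add_zero 7) hu' (w' := 46) rfl (zs_v1 ht)
  obtain ⟨F, h6⟩ := P.seed_a ht hA hR (single_ZC (c₀ := 0) θY_zero rfl h5)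
  obtain ⟨F', h7⟩ := P.hit_ext ht hg hω hy rfl h5 h6 (r := 4) (r' := 9) rfl rfl (u := 65)
    (u' := 66) rfl rfl
  rw [lc_lc (add_zero 7) _ (zero_add 2) (show 7 + 2 = 9 from rfl)] at h7
  obtain ⟨_, ⟨k, rfl⟩, b, hb, e⟩ := mem_sup.1 h2
  have h8 := single_BQ (c₀ := 0) (d := dF 3) (θY_zero (t := t)) rfl
    (lc_comm (d := fun _ : Fin 1 => 0) rfl (show 2 + 7 = 9 from rfl) (show 7 + 2 = 9 from rfl)
      zc hu')
  have e1 : ∀ {q : ℕ} (z : Cob Laz q), (Pi.single 0 z : Fin 3 → Cob Laz q) = ![z, 0, 0] :=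
    fun z => funext fun c => by fin_cases c <;> rfl
  rw [Even.neg_one_pow (by decide), one_smul, Pi.sub_apply, Pi.single_sub, lc_apply, lc_apply,
    ← lc_single, ← lc_single, e1, e1, ← e, map_add, map_zsmul] at h8
  have h9 := P.chY.cm.dr_right (h7.zsmul k) (G' := lc _ (show 2 + 7 = 9 from rfl) c ![u 0, 0, 0])
    (by
      have h9 := add_mem h8 (lcB (mc_Y ht) (show 7 + 2 = 9 from rfl) hu' (w' := 21 + 45) rfl hb)
      rwa [← sub_sub, sub_add_cancel] at h9)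
  obtain ⟨-, A, a1, a2⟩ := cy_iff.1 h9.cy
  obtain ⟨-, B, b1, b2⟩ := cy_iff.1 h9.cy'
  obtain ⟨ε, hε⟩ := P.chY.dr_δ 3 4 9 65 66
  have h10 := hε h9 a1 b1 a2 b2
  have h11 := zsmul_mem (P.chY.cm.of_k5 h10 (h0 h10.cy)) ε
  rw [smul_smul, ← Units.val_mul, Int.units_mul_self, Units.val_one, one_smul] at h11
  exact h3 B (P.chY.cy_bock b1 b2) b2 h11

/-- A class of stem 251 supports a differential. -/
theorem d5_251 : ∃ F G, P.DZ 3 5 10 64 65 F G ∧ G ∉ BY t 65 10 := by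
  obtain ⟨g, hg, h1⟩ := h.g251
  exact ⟨g, P.chY.cm.exists_ne (es := rfl) (ew := rfl) hg fun h2 => P.hub ht hA hR hH h
    (h1.trans (P.chY.cm.zm_k5 (P.ky_lc ht hH (zs_v1 ht) (by decide) h2 _ (by decide) rfl)))⟩

/-- The group of stem 333 and degree 11 is hit by differentials. -/
theorem hit333 {G : Fin 3 → Cob Laz 11} (hG : G ∈ ZY t 86 11) :
    ∃ F, P.DZ 3 6 11 85 86 F G := by
  obtain ⟨x, c, hx⟩ := exists_grk 1 2
  obtain ⟨F, G', h1, h2⟩ := P.d5_251 ht hA hR hH h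
  refine P.chY.cm.hit_line (P.dz_lc ht hH (hx.zx (ω := 21) rfl) (by decide) h1 (r := 6) rfl rfl
    (by decide) rfl rfl).neg (fun h3 => h2 (h.i250 hx G' h1.cy' ?_)) h.l333 hG
  rwa [pow_one, neg_smul, one_smul, neg_neg] at h3

/-- Classes of the stems 266 and 290 support differentials. -/
theorem d5_266 : (∃ F G, P.DZ 3 6 11 68 69 F G ∧ G ∉ BY t 69 11) ∧
    ∃ F G, P.DZ 3 6 11 74 75 F G ∧ G ∉ BY t 75 11 := by
  obtain ⟨x, c, hx⟩ := exists_grk 1 2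
  obtain ⟨g, hg, f, hf, k, hk, n, hn, h1, h2, h3⟩ := h.g259 hx
  have z := zs_pow ht (w := 3) 0 rfl
  have h4 : f ∉ P.KY 6 11 68 69 rfl rfl := fun h5 => P.hub ht hA hR hH h
    (h1.trans (P.chY.cm.zm_k5 (P.ky_pp (es := rfl) (ew := rfl) (P.ky_of_lc ht hH z (by decide) hg _
      (by decide) rfl (er := rfl) (ev := rfl) (P.chY.cm.zm_k5 (P.ky_lc ht hH (zs_v1 ht) (by decide)
        h5 _ (by decide) rfl) h2) h.i258) rfl)))
  refine ⟨⟨f, P.chY.cm.exists_ne hf h4⟩, k, P.chY.cm.exists_ne (es := rfl) (ew := rfl) hk fun h5 =>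
    h4 (P.ky_of_lc ht hH (zs_nine ht) (by decide) hf _ (by decide) rfl (er := rfl) (ev := rfl)
      (P.chY.cm.sup_k5 ((closure_le _).2 (Set.pair_subset ?_ ?_)) h3) h.j265)⟩
  · exact P.ky_lc ht hH z (by decide) h5 _ (by decide) rfl
  · exact P.ky_lc ht hH (hx.zc (ω := 21) rfl) (by decide) (P.chY.cm.k5_of_all (es := rfl)
      (ew := rfl) hn fun G hG => h.v218 hG.cy') _ (by decide) rfl

theorem t299 : C.Tor P.oZ 4 299 13 := by
  obtain ⟨x, c, hx⟩ := exists_grk 1 1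
  obtain ⟨⟨F, G, h1, h2⟩, -⟩ := P.d5_266 ht hA hR hH h
  have h3 := P.dz_lc ht hH (hx.zc (ω := 9) rfl) (by decide) h1 (r := 8) (r' := 13) rfl rfl
    (by decide) (v := 77) (v' := 78) rfl rfl
  rw [Even.neg_one_pow (by decide), one_smul] at h3
  exact P.chY.cm.tor_of_hit (s' := 13) rfl (fun _ hG => P.chY.cm.hit_line h3
    (fun h4 => h2 (h.i265 hx G h1.cy' h4)) h.l299 hG) (P.z0_Z₀ ht hH (by decide)) rfl

theorem t289 : C.Tor P.oZ 4 289 11 := by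
  obtain ⟨-, F, G, h1, h2⟩ := P.d5_266 ht hA hR hH h
  exact P.chY.cm.tor_of_hit (s' := 11) rfl (fun _ hG => P.chY.cm.hit_line h1 h2 h.l289 hG)
    (P.z0_Z₀ ht hH (by decide)) rfl

end CY

end Cx

end Vale.Agent.P236SY
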