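import Vale.Agent.P236EL.Co
import Vale.Agent.P236F.Nm
import Vale.Agent.P236K3.Bk6

/-!
# P236R / HubA : facts about the cohomology of `Y` for the differentials near stem 255
-/

noncomputable section

namespace Vale.Agent.P236EL

open Vale.Agent.P251.F Vale.Agent.P251.I Vale.Agent.P236SY Vale.Agent.P236R
open Vale.Agent.P236KE Vale.Agent.P236K3 Vale.Agent.P236F AddSubgroup Vale.Agent.P236KE.S90

variable [hp : Fact (Nat.Prime 3)] {t : Cob Laz 1} (ht : IsT1 3 t)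

include ht

theorem hb_w78 {x c} (hx : Grk 1 2 x c) : ∃ ω ∈ ZY t 20 2,
    lc _ (show 1 + 2 = 3 from rfl) t ω ∈ BY t 21 3 ∧
      ![c, 0, 0] ∈ zmultiples (lc _ (show 0 + 2 = 2 from rfl) v1 ω) ⊔ BY t 21 2 := by
  have H := wY ht 21 (by decide)
  obtain ⟨ω, h⟩ := H.lift (s := 2) (T := 20) (k := 1) (l := [⟨2, 0, 0, 1, 0, 1⟩, ⟨17, 1, 0, 1, 0, 2⟩,
    ⟨36, 0, 2, 0, 0, 1⟩, ⟨5, 1, 1, 0, 0, 1⟩, ⟨32, 2, 0, 1, 0, 1⟩, ⟨18, 0, 3, 0, 0, 1⟩,
    ⟨35, 1, 2, 0, 0, 2⟩]) (by decide +kernel) (H.kv (by decide +kernel))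
  have h1 := H.nm' (H.ext' h (H.cy (b := 4) le_rfl (by decide +kernel)) (by decide +kernel))
    (by decide)
  have h2 : CS 21 2 (fun _ => c) _ :=
    CS.base ((wS 21 (by decide)).b1 hx rfl (cs_one ht (by decide)))
  exact ⟨ω, h.zc, H.memB (T := 21) (k := 1) (H.t1 ht rfl h1) (H.top (by decide +kernel))
    (by decide +kernel), H.mem (T := 21) (k := 4) (CS.e0 ht (by decide) h2)
      (.one (H.v1 ht rfl h1)) (H.top (by decide +kernel)) (by decide +kernel)⟩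

theorem hb_u {x c} (hx : Grk 1 2 x c) : ∃ u ∈ ZS 45 7, ∀ G ∈ ZY t 66 10,
    DD (θY t) 9 (lc _ (show 2 + 7 = 9 from rfl) c ![u 0, 0, 0]) = 3 • G → G ∉ BY t 66 10 := by
  have S := wS 66 (by decide)
  have B := wbY ht 66 (by decide)
  have H := B.wx
  obtain ⟨x', c', hx'⟩ := exists_grk 2 1
  obtain ⟨u, h⟩ := S.lift (s := 7) (T := 45) (k := 0) (l := [⟨12, 0, 0, 0, 0, 1⟩])
    (by decide +kernel) (S.kv (by decide +kernel))
  have h1 := S.nm' (S.ext' h (S.cy (b := 3) le_rfl (by decide +kernel)) (by decide +kernel))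
    (by decide)
  obtain ⟨y, -, h2⟩ := H.named (s := 7) 39 0 [⟨51, 0, 0, 0, 0, 1⟩] (by decide +kernel)
    (by decide +kernel)
  exact ⟨u, h.zc, fun G hG hd => H.ne (T := 66) (k := 3)
    (B.bock (H.b1 hx rfl (CS.e0 ht (by decide) h1)) 66 hG hd)
    (H.ds_step (k := 0) (.one (H.b2 hx' (show 2 + 7 = 9 from rfl) h2)) (by decide +kernel) le_rfl)
    (by decide +kernel)⟩

theorem hb_i258 : ∀ G ∈ ZY t 67 10,
    lc _ (show 1 + 10 = 11 from rfl) (t ^ 3) G ∈ BY t 70 11 → G ∈ BY t 67 10 := by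
  have H := wY ht 70 (by decide)
  have z := zs_pow ht (w := 3) 0 rfl
  refine Al.all (R := rY) (T := 67) ?_
  refine H.stepA [[⟨65, 0, 0, 0, 0, 1⟩, ⟨66, 0, 0, 0, 0, 1⟩, ⟨13, 0, 0, 1, 0, 2⟩,
    ⟨64, 1, 0, 0, 0, 2⟩, ⟨105, 1, 1, 0, 0, 2⟩, ⟨62, 1, 1, 0, 0, 2⟩, ⟨107, 2, 0, 0, 0, 2⟩]]
    (by decide +kernel) (H.extA [] (by decide +kernel)
      (H.sd (by decide) fun _ _ h hc hx => (H.neN (T := 70) (k := 1)
        (H.tm ht 3 z (show 1 + 10 = 11 from rfl) h) (H.nbLow (by decide) (by decide) (by decide))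
        hc hx).elim))
    (by decide +kernel) (H.skipA (b := 3) (by decide +kernel) ?_)
  exact H.stepA [[⟨57, 0, 3, 0, 0, 1⟩]] (by decide +kernel)
    (H.sd (by decide) fun _ _ h hc hx => (H.ne (T := 70) (k := 3)
      (H.tm ht 3 z (show 1 + 10 = 11 from rfl) h) (H.ds_skip (by decide +kernel) le_rfl)
        hc hx).elim) (by decide +kernel) (H.topA (by decide +kernel) fun _ h _ => h)

/-- the terms of the generator of stem 265 -/
def l265 : List Tr := [⟨108, 1, 0, 0, 0, 1⟩, ⟨109, 1, 0, 0, 0, 2⟩, ⟨105, 1, 1, 0, 0, 1⟩,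
  ⟨106, 1, 1, 0, 0, 2⟩, ⟨61, 2, 1, 0, 0, 1⟩, ⟨107, 3, 0, 0, 0, 1⟩]

theorem hb_i265 {x c} (hx : Grk 1 1 x c) : ∀ G ∈ ZY t 69 11,
    lc _ (show 2 + 11 = 13 from rfl) c G ∈ BY t 78 13 → G ∈ BY t 69 11 := by
  have H := wY ht 78 (by decide)
  refine Al.all (R := rY) (T := 69) (H.skipA (b := 1) (by decide +kernel) ?_)
  exact H.stepA [l265] (by decide +kernel) (H.extA [] (by decide +kernel)
    (H.sd (by decide) fun _ _ h hc hx' => (H.neN (T := 78) (k := 2)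
      (H.b2 hx (show 2 + 11 = 13 from rfl) h) (H.nbLow (by decide) (by decide) le_rfl)
      hc hx').elim)) (by decide +kernel)
    (H.topA (by decide +kernel) fun _ h _ => h)

theorem hb_j265 : ∀ G ∈ ZY t 69 11,
    lc _ (show 1 + 11 = 12 from rfl) (t ^ 9) G ∈ BY t 78 12 → G ∈ BY t 69 11 := by
  have H := wY ht 78 (by decide)
  refine Al.all (R := rY) (T := 69) (H.skipA (b := 1) (by decide +kernel) ?_)
  exact H.stepA [l265] (by decide +kernel) (H.extA [] (by decide +kernel)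
    (H.sd (by decide) fun _ _ h hc hx' => (H.neN (T := 78) (k := 2)
      (H.tm ht 9 (zs_nine ht) (show 1 + 11 = 12 from rfl) h)
      (H.nbLow (by decide) (by decide) le_rfl) hc hx').elim))
    (by decide +kernel) (H.topA (by decide +kernel) fun _ h _ => h)

theorem hb_i250 {x c} (hx : Grk 1 2 x c) : ∀ G ∈ ZY t 65 10,
    lc _ (show 1 + 10 = 11 from rfl) x G ∈ BY t 86 11 → G ∈ BY t 65 10 := by
  have H := wY ht 86 (by decide)
  refine Al.all (R := rY) (T := 65) (H.skipA (b := 1) (by decide +kernel) ?_)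
  exact H.stepA [[⟨60, 0, 1, 0, 0, 1⟩, ⟨102, 1, 1, 0, 0, 2⟩, ⟨59, 1, 1, 0, 0, 1⟩,
    ⟨106, 2, 0, 0, 0, 1⟩, ⟨101, 1, 2, 0, 0, 2⟩, ⟨62, 3, 0, 0, 0, 1⟩]] (by decide +kernel)
    (H.extA [] (by decide +kernel) (H.sd (by decide) fun _ _ h hc hx' => (H.neN (T := 86) (k := 5)
      (H.gm hx (show 1 + 10 = 11 from rfl) h) (H.nbDs (by decide) (by decide)
        (H.ds_skip (by decide +kernel) le_rfl)) hc hx').elim)) (by decide +kernel) (H.topA (by decide +kernel) fun _ h _ => h)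

theorem hb_l299 : LY t 78 13 := (wY ht 78 (by decide)).line (T := 78) 2 [⟨90, 2, 0, 0, 0, 1⟩]
  (by decide +kernel) (by decide +kernel) (by decide +kernel)

theorem hb_l289 : LY t 75 11 := (wY ht 75 (by decide)).line (T := 75) 2 [⟨14, 0, 1, 1, 0, 1⟩,
  ⟨59, 1, 0, 1, 0, 1⟩, ⟨64, 0, 2, 0, 0, 1⟩, ⟨68, 1, 1, 0, 0, 1⟩, ⟨114, 2, 0, 0, 0, 1⟩,
  ⟨115, 2, 0, 0, 0, 1⟩] (by decide +kernel) (by decide +kernel) (by decide +kernel)

theorem hb_l333 : LY t 86 11 := (wY ht 86 (by decide)).line (T := 86) 5 [⟨20, 0, 5, 0, 0, 1⟩,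
  ⟨20, 3, 1, 1, 0, 2⟩, ⟨110, 1, 4, 0, 0, 1⟩, ⟨110, 4, 0, 1, 0, 1⟩, ⟨70, 2, 3, 0, 0, 1⟩,
  ⟨71, 2, 3, 0, 0, 2⟩, ⟨34, 4, 1, 0, 0, 2⟩, ⟨123, 5, 0, 0, 0, 1⟩] (by decide +kernel)
  (by decide +kernel) (by decide +kernel)

theorem hb_v218 : VY t 57 10 :=
  ((wY ht 57 (by decide)).top (T := 57) (a := 0) (by decide +kernel)).van

theorem hb_v85 : VY t 22 3 :=
  ((wY ht 22 (by decide)).top (T := 22) (a := 0) (by decide +kernel)).van

end Vale.Agent.P236EL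

end
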