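import Vale.Agent.P236EL.Co
import Vale.Agent.P236F.Nm
import Vale.Agent.P236K3.Bk6

/-!
# P236R / HubB : classes in the stems 251, 259, 266, 290 of `Y`
-/

noncomputable section

namespace Vale.Agent.P236EL

open Vale.Agent.P251.F Vale.Agent.P251.I Vale.Agent.P236SY Vale.Agent.P236R
open Vale.Agent.P236KE Vale.Agent.P236K3 Vale.Agent.P236F AddSubgroup Vale.Agent.P236KE.S90

/-- the terms of a class of stem 259 -/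
def l259 : List Tr := [⟨7, 0, 1, 0, 1, 1⟩, ⟨53, 1, 0, 0, 1, 2⟩, ⟨62, 0, 0, 2, 0, 1⟩,
  ⟨65, 0, 1, 1, 0, 2⟩, ⟨51, 1, 1, 0, 1, 2⟩, ⟨97, 2, 0, 0, 1, 2⟩, ⟨66, 2, 0, 1, 0, 1⟩,
  ⟨68, 3, 0, 0, 0, 1⟩, ⟨95, 2, 1, 0, 1, 1⟩, ⟨52, 0, 1, 3, 0, 1⟩, ⟨98, 1, 0, 3, 0, 1⟩,
  ⟨105, 2, 0, 2, 0, 2⟩, ⟨61, 2, 0, 2, 0, 1⟩, ⟨107, 0, 3, 1, 0, 2⟩, ⟨108, 1, 2, 1, 0, 2⟩,
  ⟨110, 0, 4, 0, 0, 2⟩, ⟨110, 3, 0, 1, 0, 1⟩]

/-- the terms of a class of stem 266 -/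
def l266 : List Tr := [⟨19, 0, 0, 1, 0, 1⟩, ⟨67, 1, 0, 0, 0, 2⟩, ⟨105, 0, 1, 1, 0, 2⟩,
  ⟨64, 2, 1, 0, 0, 2⟩, ⟨109, 3, 0, 0, 0, 1⟩]

/-- the terms of a class of stem 290 -/
def l290 : List Tr := [⟨54, 0, 0, 0, 1, 1⟩, ⟨27, 0, 1, 0, 0, 1⟩, ⟨72, 2, 0, 0, 0, 1⟩,
  ⟨63, 1, 1, 1, 0, 2⟩, ⟨64, 0, 3, 0, 0, 1⟩, ⟨111, 2, 1, 0, 0, 2⟩, ⟨114, 3, 0, 0, 0, 2⟩]

/-- the terms of a class of stem 219 -/
def l219 : List Tr := [⟨100, 0, 6, 0, 0, 1⟩, ⟨105, 2, 4, 0, 0, 1⟩, ⟨105, 5, 0, 1, 0, 2⟩,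
  ⟨61, 2, 4, 0, 0, 2⟩, ⟨61, 5, 0, 1, 0, 1⟩, ⟨110, 6, 0, 0, 0, 1⟩, ⟨7, 1, 5, 1, 0, 1⟩,
  ⟨53, 2, 4, 1, 0, 1⟩, ⟨99, 0, 7, 0, 0, 2⟩, ⟨99, 3, 3, 1, 0, 1⟩, ⟨55, 4, 2, 1, 0, 2⟩,
  ⟨57, 2, 5, 0, 0, 2⟩, ⟨57, 5, 1, 1, 0, 2⟩, ⟨104, 3, 4, 0, 0, 2⟩, ⟨104, 6, 0, 1, 0, 2⟩,
  ⟨63, 5, 2, 0, 0, 2⟩, ⟨65, 7, 0, 0, 0, 2⟩, ⟨51, 2, 5, 1, 0, 2⟩, ⟨97, 0, 8, 0, 0, 2⟩,
  ⟨97, 3, 4, 1, 0, 2⟩, ⟨54, 4, 3, 1, 0, 1⟩, ⟨101, 3, 5, 0, 0, 1⟩, ⟨101, 6, 1, 1, 0, 1⟩,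
  ⟨59, 4, 4, 0, 0, 1⟩, ⟨15, 4, 4, 0, 0, 2⟩, ⟨18, 6, 2, 0, 0, 1⟩]

variable [hp : Fact (Nat.Prime 3)] {t : Cob Laz 1} (ht : IsT1 3 t)

include ht

theorem ex259 : ∃ g, LY' t 5 66 2 4 l259 g := by
  have B := wbY ht 66 (by decide)
  have H := B.wx
  obtain ⟨a, h⟩ := H.lift (s := 4) (T := 66) (k := 2) (l := [⟨61, 0, 1, 1, 0, 1⟩,
    ⟨16, 0, 1, 2, 0, 1⟩, ⟨99, 1, 0, 2, 0, 2⟩, ⟨100, 1, 2, 1, 0, 1⟩, ⟨102, 0, 4, 0, 0, 2⟩])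
    (by decide +kernel) (H.kv (by decide +kernel))
  obtain ⟨g, -, -, h1⟩ := B.bock' (w := 66) (H.nm' (H.ext' h (H.cy (b := 5) le_rfl
    (by decide +kernel)) (by decide +kernel)) (by decide)) h.zc
  exact ⟨_, iT_eq 66 3 ▸ H.ext' (H.ident (T := 66) (k := 2) (b := 3) h1.neg l259
    (by decide +kernel)) (H.cy (b := 5) le_rfl (by decide +kernel)) (by decide +kernel)⟩

theorem ex266 : ∃ g, LY' t 6 68 1 3 l266 g := by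
  have B := wbY ht 68 (by decide)
  have H := B.wx
  obtain ⟨a, h⟩ := H.lift (s := 5) (T := 68) (k := 1) (l := [⟨24, 0, 1, 0, 0, 1⟩,
    ⟨72, 1, 0, 0, 0, 1⟩, ⟨18, 0, 0, 2, 0, 2⟩, ⟨66, 0, 1, 1, 0, 1⟩, ⟨115, 2, 0, 0, 0, 2⟩,
    ⟨109, 0, 2, 1, 0, 1⟩]) (by decide +kernel) (H.kv (by decide +kernel))
  obtain ⟨g, -, -, h1⟩ := B.bock' (w := 68) (H.nm' (H.ext' h (H.cy (b := 4) le_rfl
    (by decide +kernel)) (by decide +kernel)) (by decide)) h.zc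
  exact ⟨_, iT_eq 68 3 ▸ H.ext' (H.ident (T := 68) (k := 1) (b := 2) h1 l266
    (by decide +kernel)) (H.cy (b := 4) le_rfl (by decide +kernel)) (by decide +kernel)⟩

theorem ex251 : ∃ g, LY' t 5 64 0 2 [⟨24, 0, 0, 0, 0, 1⟩] g := by
  have B := wbY ht 64 (by decide)
  have H := B.wx
  obtain ⟨a, h⟩ := H.lift (s := 4) (T := 64) (k := 0) (l := [⟨24, 0, 0, 0, 0, 1⟩])
    (by decide +kernel) (H.kv (by decide +kernel))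
  obtain ⟨b, -, h0⟩ := H.named (s := 4) 64 1 [⟨8, 0, 0, 0, 1, 1⟩, ⟨47, 1, 1, 0, 1, 1⟩,
    ⟨59, 0, 2, 1, 0, 1⟩, ⟨62, 1, 2, 0, 0, 1⟩] (by decide +kernel) (by decide +kernel)
  obtain ⟨z, -, h2⟩ := H.ext h (H.cy (b := 3) le_rfl (by decide +kernel)) (.one h0)
    (by decide +kernel)
  obtain ⟨g, -, -, h1⟩ := B.bock' (w := 64) (H.nm' h2 (by decide)) h2.zc
  exact ⟨_, iT_eq 64 3 ▸ H.ext' (H.ident (T := 64) (k := 0) (b := 1) h1.neg _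
    (by decide +kernel)) (H.cy (b := 3) le_rfl (by decide +kernel)) (by decide +kernel)⟩

theorem hb_251 : ∃ g ∈ ZY t 64 5,
    ZY t 65 5 ≤ zmultiples (lc _ (show 0 + 5 = 5 from rfl) v1 g) ⊔ BY t 65 5 := by
  have H := wY ht 65 (by decide)
  obtain ⟨g, h⟩ := ex251 ht
  exact ⟨g, h.zc, (H.skip (T := 65) (a := 0) (b := 2) (by decide +kernel) (H.step (.one (H.v1 ht rfl
    (H.nmE (iT_eq 65 3) h (by decide)))) (by decide +kernel) (H.top (by decide +kernel)))).le⟩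

theorem ex290 : ∃ g, LY' t 6 74 1 3 l290 g := by
  have H := wY ht 74 (by decide)
  obtain ⟨k, hk⟩ := H.liftE (s := 6) (w := 74) (a := 1) (iT_eq 74 3) l290 (by decide +kernel)
    (H.nzTop (by decide +kernel))
  exact H.extE (iT_eq 74 3) hk (𝒵 := ⊥) .nil (by decide +kernel) (by decide +kernel)

theorem ex219 : ∃ g, LY' t 5 56 6 8 l219 g := by
  have H := wY ht 56 (by decide)
  obtain ⟨k, hk⟩ := H.liftE (s := 5) (w := 56) (a := 6) (iT_eq 56 3) l219 (by decide +kernel)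
    (H.nzTop (by decide +kernel))
  exact H.extE (iT_eq 56 3) hk (𝒵 := ⊥) .nil (by decide +kernel) (by decide +kernel)

theorem hb_255 {g} (hg : LY' t 5 66 2 4 l259 g) :
    ZY t 65 5 ≤ zmultiples ![g 1, g 2, 0] ⊔ BY t 65 5 :=
  have H := wY ht 66 (by decide)
  (H.skip (T := 65) (a := 0) (b := 2) (by decide +kernel) (H.step (.one (CY.pp ht (by decide)
    (H.nmE (iT_eq 66 3) hg (by decide)))) (by decide +kernel) (H.top (by decide +kernel)))).le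

theorem hb_270 {g h} (hg : LY' t 5 66 2 4 l259 g) (hh : LY' t 6 68 1 3 l266 h) :
    lc _ (show 1 + 5 = 6 from rfl) (t ^ 3) g ∈
      zmultiples (lc _ (show 0 + 6 = 6 from rfl) v1 h) ⊔ BY t 69 6 :=
  have H := wY ht 69 (by decide)
  H.mem (T := 69) (k := 4) (H.tm ht 3 (zs_pow ht 0 rfl) (show 1 + 5 = 6 from rfl)
    (H.nmE (iT_eq 69 3) hg (by decide))) (.one (H.v1 ht (show 0 + 6 = 6 from rfl)
      (H.nmE (iT_eq 69 3) hh (by decide)))) (H.top (by decide +kernel)) (by decide +kernel)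

theorem hg301 {x c} (hx : Grk 1 2 x c) {n} (hn : LY' t 5 56 6 8 l219 n)
    {S : AddSubgroup (Fin 3 → Cob Laz 7)} (h : lc _ (show 2 + 5 = 7 from rfl) c n ∈ S) :
    Hg rY (θY t) 3 77 S :=
  have H := wY ht 77 (by decide)
  H.skip (T := 77) (b := 10) (by decide +kernel) (H.step (.cons h (H.b1 hx (show 2 + 5 = 7 from rfl)
    (H.nmE (iT_eq 77 3) hn (by decide))) .nil) (by decide +kernel) (H.top (by decide +kernel)))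

theorem hb_259 {x c} (hx : Grk 1 2 x c) : ∃ g ∈ ZY t 66 5, ∃ h ∈ ZY t 68 6, ∃ k ∈ ZY t 74 6,
    ∃ n ∈ ZY t 56 5, ZY t 65 5 ≤ zmultiples ![g 1, g 2, 0] ⊔ BY t 65 5 ∧
      lc _ (show 1 + 5 = 6 from rfl) (t ^ 3) g ∈
        zmultiples (lc _ (show 0 + 6 = 6 from rfl) v1 h) ⊔ BY t 69 6 ∧
      lc _ (show 1 + 6 = 7 from rfl) (t ^ 9) h ∈ closure {lc _ (show 1 + 6 = 7 from rfl) (t ^ 3) k,
        lc _ (show 2 + 5 = 7 from rfl) c n} ⊔ BY t 77 7 := by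
  have H := wY ht 77 (by decide)
  obtain ⟨g, hg⟩ := ex259 ht
  obtain ⟨h, hh⟩ := ex266 ht
  obtain ⟨k, hk⟩ := ex290 ht
  obtain ⟨n, hn⟩ := ex219 ht
  exact ⟨g, hg.zc, h, hh.zc, k, hk.zc, n, hn.zc, hb_255 ht hg, hb_270 ht hg hh,
    H.mem (T := 77) (k := 3) (H.tm ht 9 (zs_nine ht) (show 1 + 6 = 7 from rfl)
      (H.nmE (iT_eq 77 3) hh (by decide))) (.cons (subset_closure (.inl rfl)) (H.tm ht 3
        (zs_pow ht 0 rfl) (show 1 + 6 = 7 from rfl) (H.nmE (iT_eq 77 3) hk (by decide))) .nil)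
      (hg301 ht hx hn (subset_closure (.inr rfl))) (by decide +kernel)⟩

end Vale.Agent.P236EL

end
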