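import Vale.Agent.P236R.HubA
import Vale.Agent.P236R.HubB
import Vale.Agent.P236R.Hub

/-!
# P236R / HubC : the facts for the differentials in the stems 251 to 334 hold
-/

namespace Vale.Agent.P236SY

open Vale.Agent.P251.F Vale.Agent.P251.I Vale.Agent.P236EL

theorem hf {t : Cob Laz 1} (ht : IsT1 3 t) : HF t :=
  haveI : Fact (Nat.Prime 3) := ⟨Nat.prime_three⟩
  ⟨hb_w78 ht, hb_u ht, hb_v85 ht, hb_v218 ht, hb_251 ht, hb_259 ht, hb_i250 ht, hb_i258 ht,
    hb_i265 ht, hb_j265 ht, hb_l289 ht, hb_l299 ht, hb_l333 ht⟩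

end Vale.Agent.P236SY
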