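import Vale.Agent.P236JG.Dat
import Vale.Agent.P236JT.Fa

/-!
# P236R / K291C : checks for the stem 291 of the Moore spectrum
-/

namespace Vale.Agent.P236R

open Vale.Agent.P236EL Vale.Agent.P236KE Vale.Agent.P236K3 Vale.Agent.P236F Vale.Agent.P236JX
  Vale.Agent.P236JT Vale.Agent.P236JG

/-- cochains of stem 291 which vanish on the bottom cell of `Y` -/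
def k291 : List (List Tr) := [[⟨1, 0, 15, 0, 0, 1⟩], [⟨7, 2, 8, 1, 0, 1⟩, ⟨1, 2, 8, 2, 0, 1⟩,
  ⟨2, 1, 11, 1, 0, 1⟩, ⟨3, 0, 14, 0, 0, 1⟩], [⟨4, 0, 7, 2, 0, 1⟩, ⟨6, 0, 9, 1, 0, 2⟩,
  ⟨8, 1, 11, 0, 0, 1⟩, ⟨3, 0, 14, 0, 0, 2⟩], [⟨1, 1, 5, 3, 0, 1⟩, ⟨1, 2, 8, 2, 0, 2⟩,
  ⟨8, 1, 11, 0, 0, 2⟩, ⟨2, 1, 11, 1, 0, 2⟩, ⟨3, 0, 14, 0, 0, 2⟩], [⟨0, 2, 5, 0, 1, 1⟩,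
  ⟨1, 2, 8, 2, 0, 1⟩], [⟨0, 2, 2, 4, 0, 1⟩, ⟨1, 2, 8, 2, 0, 2⟩, ⟨8, 1, 11, 0, 0, 2⟩,
  ⟨3, 0, 14, 0, 0, 1⟩], [⟨9, 1, 4, 2, 0, 1⟩, ⟨7, 1, 5, 2, 0, 1⟩, ⟨1, 2, 8, 2, 0, 2⟩,
  ⟨8, 1, 11, 0, 0, 1⟩, ⟨2, 1, 11, 1, 0, 2⟩, ⟨3, 0, 14, 0, 0, 1⟩], [⟨6, 2, 2, 3, 0, 1⟩,
  ⟨8, 1, 11, 0, 0, 2⟩, ⟨3, 0, 14, 0, 0, 1⟩], [⟨15, 2, 4, 0, 0, 1⟩, ⟨1, 2, 8, 2, 0, 2⟩,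
  ⟨8, 1, 11, 0, 0, 1⟩, ⟨2, 1, 11, 1, 0, 2⟩, ⟨3, 0, 14, 0, 0, 1⟩], [⟨5, 0, 3, 3, 0, 1⟩,
  ⟨12, 0, 6, 0, 0, 1⟩, ⟨6, 2, 2, 3, 0, 1⟩, ⟨5, 1, 6, 2, 0, 1⟩, ⟨8, 0, 8, 1, 0, 1⟩,
  ⟨6, 0, 9, 1, 0, 2⟩, ⟨7, 2, 8, 1, 0, 1⟩], [⟨3, 0, 1, 4, 0, 1⟩, ⟨3, 0, 4, 0, 1, 2⟩,
  ⟨1, 0, 2, 4, 0, 1⟩, ⟨1, 0, 5, 0, 1, 2⟩, ⟨5, 0, 3, 3, 0, 2⟩, ⟨12, 0, 6, 0, 0, 2⟩,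
  ⟨15, 2, 4, 0, 0, 2⟩, ⟨0, 2, 2, 4, 0, 2⟩, ⟨0, 2, 5, 0, 1, 2⟩, ⟨1, 1, 5, 3, 0, 2⟩,
  ⟨4, 0, 7, 2, 0, 1⟩, ⟨5, 1, 6, 2, 0, 1⟩, ⟨8, 0, 8, 1, 0, 1⟩, ⟨2, 0, 8, 2, 0, 2⟩,
  ⟨6, 0, 9, 1, 0, 2⟩, ⟨7, 2, 8, 1, 0, 1⟩, ⟨8, 1, 11, 0, 0, 1⟩, ⟨3, 0, 14, 0, 0, 1⟩],
  [⟨17, 0, 4, 0, 0, 1⟩, ⟨15, 2, 4, 0, 0, 2⟩, ⟨0, 2, 2, 4, 0, 2⟩, ⟨0, 2, 5, 0, 1, 2⟩,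
  ⟨1, 1, 5, 3, 0, 2⟩, ⟨4, 0, 7, 2, 0, 2⟩, ⟨3, 0, 14, 0, 0, 2⟩, ⟨1, 0, 15, 0, 0, 2⟩],
  [⟨9, 0, 1, 3, 0, 1⟩, ⟨16, 0, 4, 0, 0, 2⟩, ⟨7, 0, 2, 3, 0, 1⟩, ⟨15, 2, 4, 0, 0, 1⟩,
  ⟨0, 2, 2, 4, 0, 1⟩, ⟨0, 2, 5, 0, 1, 1⟩, ⟨1, 1, 5, 3, 0, 1⟩, ⟨4, 0, 7, 2, 0, 1⟩,
  ⟨8, 0, 8, 1, 0, 1⟩, ⟨6, 0, 9, 1, 0, 2⟩, ⟨1, 2, 8, 2, 0, 1⟩, ⟨2, 1, 11, 1, 0, 1⟩,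
  ⟨3, 0, 14, 0, 0, 2⟩, ⟨1, 0, 15, 0, 0, 1⟩], [⟨31, 1, 0, 0, 0, 1⟩, ⟨28, 1, 1, 0, 0, 2⟩,
  ⟨15, 1, 1, 1, 0, 1⟩, ⟨24, 1, 2, 0, 0, 2⟩, ⟨7, 1, 5, 2, 0, 2⟩, ⟨5, 1, 6, 2, 0, 2⟩,
  ⟨8, 0, 8, 1, 0, 2⟩, ⟨1, 2, 8, 2, 0, 1⟩, ⟨2, 1, 11, 1, 0, 1⟩]]

/-- the remaining cochain of stem 291 -/
def l291 : List Tr := [⟨12, 0, 6, 0, 0, 1⟩, ⟨15, 2, 4, 0, 0, 2⟩, ⟨0, 2, 2, 4, 0, 2⟩,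
  ⟨0, 2, 5, 0, 1, 2⟩, ⟨1, 1, 5, 3, 0, 2⟩, ⟨4, 0, 7, 2, 0, 1⟩, ⟨6, 0, 9, 1, 0, 2⟩,
  ⟨7, 2, 8, 1, 0, 1⟩]

/-- the family of all classes of stem 291 -/
noncomputable def o291 (m : List Tr) : WJ := WJ.nm eJ 9 75 [(0, 0)] [(3, 3)] m

theorem a291 : grd (eJ.geF 9 75 [(0, 0)] [(3, 3)] [(0, 0)] [(1, 1), (0, 4)] [])
    (eJ.geF 9 75 [(1, 1), (0, 4)] [(4, 4), (3, 7)] [(0, 0)] [(3, 3)]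
      (List.append k291 [l291])) = true := by
  decide +kernel

theorem b291 : WJ.lfK eJ 15 85 [(0, 0)] [(3, 3)] (fun m => ((((o291 m).cbm eJ 90 9).cvm eJ 90 11
    1).cbm eJ 90 11).cbm eJ 90 13) k291 [l291] [] = true := by
  decide +kernel

theorem c291 : WJ.lfM (eY eJ) 9 75 [(0, 0)] [(3, 3)] (fun m => (o291 m).ce0 eJ 9) k291 [] =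
    true := by
  decide +kernel

theorem d291 : (eY eJ).htAF 9 75 0 60 = true := by
  decide +kernel

end Vale.Agent.P236R
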