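import Vale.Agent.P236JG.Dat
import Vale.Agent.P236JT.Fa

/-!
# P236R / PhiC : checks for the stem 228 of `C α`
-/

namespace Vale.Agent.P236R

open Vale.Agent.P236EL Vale.Agent.P236KE Vale.Agent.P236K3 Vale.Agent.P236F Vale.Agent.P236JX
  Vale.Agent.P236JT Vale.Agent.P236JG

/-- cochains of stem 228 in the joint kernel -/
def k228 : List (List Tr) := [[⟨6, 1, 2, 2, 0, 1⟩, ⟨7, 0, 5, 1, 0, 1⟩, ⟨3, 1, 10, 0, 0, 1⟩],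
  [⟨4, 0, 0, 3, 0, 1⟩, ⟨43, 1, 0, 3, 0, 2⟩, ⟨51, 1, 3, 0, 0, 2⟩, ⟨47, 0, 8, 0, 0, 2⟩,
  ⟨45, 0, 9, 0, 0, 1⟩, ⟨3, 1, 10, 0, 0, 2⟩, ⟨1, 1, 11, 0, 0, 2⟩, ⟨42, 2, 10, 0, 0, 1⟩,
  ⟨40, 2, 11, 0, 0, 1⟩], [⟨50, 0, 1, 1, 0, 1⟩, ⟨13, 0, 2, 0, 0, 2⟩, ⟨52, 0, 3, 0, 0, 1⟩,
  ⟨2, 0, 1, 3, 0, 2⟩, ⟨43, 1, 0, 3, 0, 2⟩, ⟨0, 0, 2, 3, 0, 2⟩, ⟨7, 0, 5, 1, 0, 1⟩,
  ⟨46, 1, 5, 1, 0, 1⟩, ⟨3, 0, 7, 1, 0, 1⟩, ⟨44, 1, 6, 1, 0, 2⟩, ⟨47, 0, 8, 0, 0, 2⟩,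
  ⟨1, 0, 8, 1, 0, 2⟩, ⟨42, 1, 7, 1, 0, 1⟩, ⟨45, 0, 9, 0, 0, 1⟩, ⟨40, 1, 8, 1, 0, 1⟩,
  ⟨0, 2, 8, 1, 0, 2⟩, ⟨41, 0, 11, 0, 0, 1⟩, ⟨1, 1, 11, 0, 0, 1⟩, ⟨40, 2, 11, 0, 0, 1⟩]]

/-- cochains of stem 228 in the kernel of `v_1` -/
def m228 : List (List Tr) := [[⟨0, 2, 8, 1, 0, 1⟩, ⟨3, 1, 10, 0, 0, 2⟩, ⟨1, 1, 11, 0, 0, 2⟩,
  ⟨42, 2, 10, 0, 0, 1⟩, ⟨40, 2, 11, 0, 0, 2⟩], [⟨2, 0, 1, 3, 0, 1⟩, ⟨43, 1, 0, 3, 0, 1⟩,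
  ⟨0, 0, 2, 3, 0, 1⟩, ⟨3, 0, 7, 1, 0, 1⟩, ⟨44, 1, 6, 1, 0, 2⟩, ⟨47, 0, 8, 0, 0, 1⟩,
  ⟨1, 0, 8, 1, 0, 1⟩, ⟨42, 1, 7, 1, 0, 2⟩, ⟨45, 0, 9, 0, 0, 1⟩, ⟨40, 1, 8, 1, 0, 2⟩,
  ⟨43, 0, 10, 0, 0, 2⟩, ⟨41, 0, 11, 0, 0, 2⟩, ⟨3, 1, 10, 0, 0, 1⟩, ⟨1, 1, 11, 0, 0, 2⟩,
  ⟨40, 2, 11, 0, 0, 1⟩]]

/-- the remaining cochains of stem 228 -/
def n228 : List (List Tr) := [[⟨1, 1, 11, 0, 0, 2⟩, ⟨42, 2, 10, 0, 0, 1⟩, ⟨40, 2, 11, 0, 0, 1⟩],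
  [⟨45, 0, 9, 0, 0, 1⟩], [⟨52, 0, 3, 0, 0, 1⟩, ⟨47, 0, 8, 0, 0, 2⟩]]

/-- the family of all classes of stem 228 -/
noncomputable def o228 (m : List Tr) : WJ := WJ.nm (eA eJ) 8 59 [(0, 0)] [(3, 3)] m

/-- the product with `β_4 β_(3/3) β_1` on the top cell -/
noncomputable def f228 (m : List Tr) : WJ :=
  ((((o228 m).cjA eJ 8).cbm eJ 90 8).cb2 eJ 90 10 1).cb0 eJ 90 12 2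

theorem a228 : grd ((eA eJ).geF 8 59 [(0, 0)] [(3, 3)] [(0, 0)] [(3, 3)]
    (List.append (List.append k228 m228) n228)) (WJ.lfK (eA eJ) 8 60 [(0, 0)] [(3, 3)]
      (fun m => (o228 m).cvm (eA eJ) 90 8 1) (List.append k228 m228) n228 []) = true := by
  decide +kernel

theorem b228 : grd (WJ.lfK eJ 14 85 [(0, 0)] [(3, 3)] f228 k228 m228 [])
    (WJ.lf0 eJ 14 85 [(0, 2)] [(3, 5)] f228 true) = true := by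
  decide +kernel

theorem d228 : grd (WJ.lfM (eY eJ) 8 58 [(0, 0)] [(3, 3)]
    (fun m => ((o228 m).cjA eJ 8).ce0 eJ 8) k228 []) ((eY eJ).htAF 8 58 0 44) = true := by
  decide +kernel

end Vale.Agent.P236R
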