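import Vale.Agent.P236R.Z330

/-!
# P236: self maps of `Y ⊗ M` and the first differentials on `Y ⊗ M`
-/

open CategoryTheory MonoidalCategory Limits Pretriangulated MonObj

namespace Vale.Agent.P236SY

open GData Vale.Agent.P251 Vale.Agent.P251.T Vale.Agent.P251.S Vale.Agent.P251.H Vale.Agent.P251.M
  Vale.Agent.P251.F Vale.Agent.P251.I TD Vale.Agent.P236EL Vale.Agent.P236F Vale.Agent.P236R
  Vale.Agent.P236Z
open Vale.Agent.P251.St (SHCat)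

variable {T : SHCat} {t : Cob Laz 1} {C : Cx T}

namespace Cx

variable {n m l s u ω w v : ℤ} {a b r : ℕ} {V W : T.C}

theorem hat_comp {y : C.o C.Γ ⟶ C.o (V ⊗ C.M)} (hy : C.E.Dg n s y)
    {Q : C.o (V ⊗ C.M) ⟶ C.o (W ⊗ C.M)} (hQ : C.E.Dg m u Q)
    (h : C.Z0 (C.o (W ⊗ C.M)) (n + m + 1) (s + u)) : C.hat y ≫ Q = C.hat (y ≫ Q) := by
  obtain ⟨y', hy', e⟩ := eq_hat (m := n + m + 1) ((dg_hat hy).comp hQ rfl rfl) (by ring)
  rw [e, h y' hy', comp_zero, add_zero, reassoc_of% rd_hat]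

/-- The square of a class of odd degree vanishes. -/
theorem sq_odd {x : C.o C.Γ ⟶ C.oM} (hx : C.E.Dg n s x) (hn : Odd n) : x ≫ C.hat x = 0 := by
  have h1 := comp_hat_comm hx hx
  have h2 := C.three_syn (x ≫ C.hat x)
  rw [Int.negOnePow_odd _ (hn.mul hn), Units.neg_smul, one_smul, eq_neg_iff_add_eq_zero] at h1
  rwa [show (3 : ℤ) = 1 + 1 + 1 from rfl, add_smul, add_smul, one_smul, h1, zero_add] at h2

namespace CY

variable (P : C.CY t) (ht : IsT1 3 t)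

theorem exists_self {z : Cob Laz a} (hz : (fun _ => z) ∈ ZS ω a) (hn : n + a = 4 * ω)
    (h1 : C.Z0 P.oZ (n - 1) (a + 2)) (h2 : C.Z0 P.oZ (n - 1 + 4) (a + 2))
    (h3 : C.Z0 P.oZ (n - 1 + 4 + 4) (a + 2)) : ∃ g, C.E.Rep n a g (C.φM P.Y a z) := by
  obtain ⟨y, hy⟩ := TD.exists_ob (n := n) (c := C.φM P.Y a z) ((deg_Φ _ _
    (zs_iff.1 hz).1 (by omega)).comp (deg_Qm _ (deg_io _)) (add_zero _)) (φM_cyc hz)
  obtain rfl := P.zero_Y hy.dg h1 h2 h3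
  exact hy.rep

theorem rep_bot {z : Cob Laz a} {g : C.o P.Y ⟶ P.oZ} (hg : C.E.Rep n a g (C.φM P.Y a z)) :
    C.E.Rep n a (C.E.ι P.e₀ ≫ g) (C.psi (mE P.eY) a (Pi.single 0 z)) :=
  P.psi_e₀ z ▸ hg.ι_comp (m := 0) P.st₃.deg₁ (zero_add _)

include ht in
/-- The action of a self map on classes. -/
theorem rep_self {z : Cob Laz a} (hz : (fun _ => z) ∈ ZS ω a) {g : C.o P.Y ⟶ P.oZ}
    (hg : C.E.Rep m a g (C.φM P.Y a z)) (hm : m + a = 4 * ω) {x : C.o C.Γ ⟶ P.oZ}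
    {F : Fin 3 → Cob Laz b} (hx : C.E.Rep n b x (C.psi (mE P.eY) b F)) (hF : F ∈ ZY t w b)
    (hn : n + b = 4 * w) (e : a + b = r) (hl : n + m = l) :
    C.E.Rep l r (x ≫ C.hat g) (C.psi (mE P.eY) r (lc _ e z F)) := by
  obtain rfl : r = b + a := by omega
  have h3 := hx.comp (rep_hat_φ hg) hl
  rw [(Int.negOnePow_eq_iff _ ((a * b : ℕ) : ℤ)).2 ⟨2 * b * ω - a * b, by
    rw [show m = 4 * ω - a by omega]; push_cast; ring⟩, P.chY.cm.cells.psi_cup_φ, ← rc_eq,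
    Units.smul_def, Int.coe_negOnePow_natCast, ← map_zsmul] at h3
  exact P.chY.cm.rep_congr h3 (lc_rc (mc_Y ht) e hz rfl (wt_Y ht) rfl hF) (by push_cast; omega)

variable (hA : P236K.EA) (hR : FR t)
include ht hA hR

/-- The group of stem 177 is hit by differentials. -/
theorem seed_a {G : Fin 3 → Cob Laz 7} (hG : G ∈ ZY t 46 7) : ∃ F, P.DZ 3 2 7 45 46 F G := by
  obtain ⟨y, F, k1, k2, k3, k4⟩ := P.r2 ht hR.van hA hR.ft hR.g142 hR.g139 hR.n138 hR.n177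
  obtain ⟨F', h1⟩ := P.chY.cm.dr_of_tor (k := 3) (s := 2) (w := 45) rfl rfl rfl k1 k3 k4
  obtain ⟨_, ha, b, hb, rfl⟩ := AddSubgroup.mem_sup.1 (hR.l177 F k1 k2 hG)
  obtain ⟨c, rfl⟩ := AddSubgroup.mem_zmultiples_iff.1 ha
  exact ⟨_, P.chY.cm.dr_right (h1.zsmul c) (by rwa [add_sub_cancel_left])⟩

variable (hH : VH t) (hL : LY t 37 6) {z : Cob Laz 1} (hz : Th t z) {x : C.o C.Γ ⟶ C.oM}
  (hx : C.E.Rep 107 1 x (C.φM C.Γ 1 z))
include hL hz hx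

/-- Step R1 for all classes of stem 142. -/
theorem r1' {f : C.o P.Y ⟶ P.oZ} (hf : C.E.Rep 35 1 f (C.φM P.Y 1 (t ^ 9)))
    {G : Fin 3 → Cob Laz 6} (hG : G ∈ ZY t 37 6) : ∃ (y : C.o C.Γ ⟶ P.oZ) (k : ℤ),
      C.E.Rep 142 6 y (C.psi (mE P.eY) 6 G) ∧
        y ≫ C.E.tp 4 _ = k • x ≫ C.hat (C.E.ι P.e₀ ≫ f) := by
  obtain ⟨y, F, k1, k2, k3, u, k4⟩ := P.r1 ht hR.van hf hz hx hA hR.g142 hR.g139 hR.n138
  obtain ⟨_, ha, b, hb, rfl⟩ := AddSubgroup.mem_sup.1 (hL F k1 k2 hG)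
  obtain ⟨c, rfl⟩ := AddSubgroup.mem_zmultiples_iff.1 ha
  have h1 := k3.zsmul c
  rw [← map_zsmul] at h1
  exact ⟨_, c * u, P.chY.cm.rep_congr (w := 37) h1 (by rwa [add_sub_cancel_left]) rfl, by
    rw [Preadditive.zsmul_comp, ← k4, mul_smul, Units.smul_def]⟩

include hH

/-- The products of `h_3` with classes of stem 142 are hit by differentials. -/
theorem seed_b {G : Fin 3 → Cob Laz 6} (hG : G ∈ ZY t 37 6) :
    ∃ F, P.DZ 3 2 7 63 64 F (lc _ (show 1 + 6 = 7 from rfl) z G) := by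
  obtain ⟨f, hf⟩ := P.exists_f ht
  obtain ⟨y, k, h1, h2⟩ := P.r1' ht hA hR hL hz hx hf hG
  obtain ⟨a, ha, h3⟩ := C.exists_assoc'
  have h5 := hat_mact (h3 P.Y) hx.dg (P.rep_hY hf).dg
  have h6 := P.z0_Z₀ ht hH (n := 37) (s := 1) (by decide) _ ((P.rep_hY hf).dg.comp
    ((C.dg_pc _).comp (dg_rm ha) rfl rfl) rfl rfl)
  rw [h6, comp_zero, comp_zero, add_zero, mact_Γ] at h5
  have h7 := comp_mact hx.dg h1.dg =≫ C.E.tp 4 _
  rw [Category.assoc, ← tp_comm, reassoc_of% h2, Preadditive.zsmul_comp, Category.assoc, h5,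
    Linear.comp_units_smul, reassoc_of% sq_odd hx.dg (by decide), zero_comp, smul_zero, smul_zero,
    Linear.units_smul_comp, eq_comm, smul_eq_zero_iff_eq] at h7
  exact P.chY.cm.dr_of_tor (k := 3) rfl rfl rfl (lcZ (mc_Y ht) _ hz.1 (w' := 64) rfl hG)
    (rep_mul hx h1 (r := 7) (l := 249) rfl rfl) (by rw [Linear.units_smul_comp, h7, smul_zero])

/-- The products of `β_(6/3)` with classes of stem 142 are hit by differentials. -/
theorem seed_c {x' : Cob Laz 1} {c : Cob Laz 2} (hc : Grk 1 2 x' c) (h1 : VY t 49 7)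
    (h2 : lc (Fin 3) (show 1 + 2 = 3 from rfl) z (Pi.single 0 c) ∈ BY t 48 3)
    {G : Fin 3 → Cob Laz 6} (hG : G ∈ ZY t 37 6) :
    ∃ F, P.DZ 3 3 8 57 58 F (lc _ (show 2 + 6 = 8 from rfl) c G) := by
  obtain ⟨f, hf⟩ := P.exists_f ht
  obtain ⟨y, k, h3, h4⟩ := P.r1' ht hA hR hL hz hx hf hG
  have zc := hc.zc (ω := 21) rfl
  obtain ⟨g, hg⟩ := P.exists_self (n := 82) zc rfl (P.z0_Z₀ ht hH (by decide))
    (P.z0_Z₀ ht hH (by decide)) (P.z0_Z₀ ht hH (by decide))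
  have z1 := single_ZC (c₀ := 0) (d := dF 3) (θY_zero (t := t)) rfl (zs_nine ht)
  have z2 := single_ZC (c₀ := 0) (d := dF 3) (θY_zero (t := t)) rfl zc
  have h5 := P.rep_self ht zc hg rfl (P.rep_hY hf) z1 rfl (r := 3) (l := 117) rfl rfl
  have h6 := P.rep_self ht (zs_nine ht) hf rfl (P.rep_bot hg) z2 rfl (r := 3) (l := 117) rfl rfl
  obtain ⟨y', hy', h7⟩ := P.chY.cm.eq_add (w := 30) h5 h6 (by
    have h8 := single_BQ (c₀ := 0) (d := dF 3) (θY_zero (t := t)) rfl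
      (lc_comm (d := fun _ : Fin 1 => 0) rfl (show 2 + 1 = 3 from rfl) (show 1 + 2 = 3 from rfl)
        zc (zs_nine ht))
    rwa [Even.neg_one_pow (by decide), one_smul, Pi.sub_apply, Pi.single_sub, lc_apply, lc_apply,
      ← lc_single, ← lc_single] at h8) rfl
  rw [P.z0_Z₀ ht hH (by decide) y' hy', zero_comp, add_zero] at h7
  have h8 := rep_mul hx (P.rep_bot hg) (r := 3) (l := 189) rfl rfl
  have h9 := P.chY.cm.zero_of h8 h2 rfl (P.z0_Z ht hH (L := [(49, 7)]) (by simpa using h1)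
    (by decide))
  rw [smul_eq_zero_iff_eq] at h9
  refine P.chY.cm.dr_of_tor (k := 3) rfl rfl rfl (lcZ (mc_Y ht) _ zc (w' := 58) rfl hG)
    (P.rep_self ht zc hg rfl h3 hG rfl (r := 8) (l := 224) rfl rfl) ?_
  rw [Category.assoc, ← tp_comm, reassoc_of% h4, Preadditive.zsmul_comp, Category.assoc,
    hat_comp (P.rep_hY hf).dg (dg_hat hg.dg) (P.z0_Z₀ ht hH (by decide)), h7,
    ← hat_comp (P.rep_bot hg).dg (dg_hat hf.dg) (P.z0_Z₀ ht hH (by decide)), reassoc_of% h9,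
    zero_comp, smul_zero]

end CY

end Cx

end Vale.Agent.P236SY
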