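import Vale.Agent.P236R.Hub

/-!
# P236: the differential on `Y ⊗ M` into the stem 275
-/

open CategoryTheory MonoidalCategory Limits Pretriangulated MonObj

namespace Vale.Agent.P236SY

open GData Vale.Agent.P251 Vale.Agent.P251.T Vale.Agent.P251.S Vale.Agent.P251.H Vale.Agent.P251.M
  Vale.Agent.P251.F Vale.Agent.P251.I TD Vale.Agent.P236EL Vale.Agent.P236F Vale.Agent.P236R
  Vale.Agent.P236Z AddSubgroup
open Vale.Agent.P251.St (SHCat)

variable {T : SHCat} {t : Cob Laz 1} {C : Cx T}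

variable (t) in
/-- Classes in the stems 228 and 276 and their products. -/
def G228 : Prop := ∀ {x c y d}, Grk 0 2 x c → Grk 0 5 y d → ∃ g ∈ ZY t 58 4, ∃ k ∈ ZY t 70 4,
  ZY t 65 5 ≤ zmultiples (lc _ (show 1 + 4 = 5 from rfl) x g) ⊔ BY t 65 5 ∧
    lc _ (show 1 + 4 = 5 from rfl) y g ∈
      zmultiples (lc _ (show 1 + 4 = 5 from rfl) x k) ⊔ BY t 77 5

variable (t) in
/-- The facts about the cohomology which give the differential. -/
structure TF : Prop where
  g228 : G228 t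
  i227 : ∀ {y d}, Grk 0 5 y d → InjL t y 59 78 9 10 rfl
  l275 : LY t 71 9

namespace Cx.CY

variable (P : C.CY t) (ht : IsT1 3 t) (hA : P236K.EA) (hR : FR t) (hH : VH t) (h : HF t)
  (h' : TF t)
include ht hA hR hH h h'

/-- A class of stem 276 supports a differential. -/
theorem d5_276 : ∃ F G, P.DZ 3 4 9 70 71 F G ∧ G ∉ BY t 71 9 := by
  obtain ⟨x, c, hx⟩ := exists_grk 0 2
  obtain ⟨y, d, hy⟩ := exists_grk 0 5
  obtain ⟨g, hg, k, hk, h1, h2⟩ := h'.g228 hx hy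
  have zx := hx.zx (ω := 7) rfl
  exact ⟨k, P.chY.cm.exists_ne (es := rfl) (ew := rfl) hk fun h3 => P.hub ht hA hR hH h
    (h1.trans (P.chY.cm.zm_k5 (P.ky_lc ht hH zx (by decide) (P.ky_of_lc (es := rfl) (ew := rfl) ht
      hH (hy.zx (ω := 19) rfl) (by decide) hg _ (by decide) rfl (er := rfl) (ev := rfl)
      (P.chY.cm.zm_k5 (P.ky_lc ht hH zx (by decide) h3 _ (by decide) rfl) h2) (h'.i227 hy)) _
        (by decide) rfl)))⟩

theorem t275 : C.Tor P.oZ 4 275 9 := by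
  obtain ⟨F, G, h1, h2⟩ := P.d5_276 ht hA hR hH h h'
  exact P.chY.cm.tor_of_hit (s' := 9) rfl (fun _ hG => P.chY.cm.hit_line h1 h2 h'.l275 hG)
    (P.z0_Z₀ ht hH (by decide)) rfl

end Cx.CY

end Vale.Agent.P236SY
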