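import Vale.Agent.P236EL.Co
import Vale.Agent.P236F.Nm
import Vale.Agent.P236K3.Bk6
import Vale.Agent.P236R.T275

/-!
# P236R / T275A : facts about the cohomology of `Y` for the differential into stem 275
-/

noncomputable section

namespace Vale.Agent.P236EL

open Vale.Agent.P251.F Vale.Agent.P251.I Vale.Agent.P236SY Vale.Agent.P236R
open Vale.Agent.P236KE Vale.Agent.P236K3 Vale.Agent.P236F AddSubgroup Vale.Agent.P236KE.S90

variable [hp : Fact (Nat.Prime 3)] {t : Cob Laz 1} (ht : IsT1 3 t)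

include ht

theorem tf_i227 {y d} (hy : Grk 0 5 y d) : InjL t y 59 78 9 10 rfl := by
  have H := wY ht 78 (by decide)
  refine Al.all (R := rY) (T := 59) (H.skipA (b := 1) (by decide +kernel) ?_)
  exact H.stepA [[⟨56, 0, 1, 0, 0, 1⟩, ⟨57, 1, 0, 0, 0, 2⟩, ⟨12, 0, 2, 0, 0, 1⟩]] (by decide +kernel)
    (H.extA [] (by decide +kernel) (H.sd (by decide) fun _ _ h hc hx' => (H.neN (T := 78) (k := 6)
      (H.gm hy (show 1 + 9 = 10 from rfl) h) (H.nbDs (by decide) (by decide)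
        (H.ds_skip (by decide +kernel) le_rfl)) hc hx').elim)) (by decide +kernel)
    (H.topA (by decide +kernel) fun _ h _ => h)

theorem tf_l275 : LY t 71 9 :=
  (wY ht 71 (by decide)).line (T := 71) 4 [⟨56, 0, 4, 0, 0, 1⟩, ⟨57, 1, 3, 0, 0, 2⟩,
    ⟨61, 2, 2, 0, 0, 1⟩, ⟨108, 4, 0, 0, 0, 2⟩] (by decide +kernel) (by decide +kernel)
      (by decide +kernel)

theorem tf_of (h : G228 t) : TF t := ⟨h, tf_i227 ht, tf_l275 ht⟩

end Vale.Agent.P236EL

end
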