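import Vale.Agent.P236R.Gb
import Vale.Agent.P236R.Main
import Vale.Agent.P236R.Fx
import Vale.Agent.P236SY.Exa
import Vale.Agent.P236SY.LemK

/-!
# P236: the differentials of Toda and the resulting relations
-/

open CategoryTheory MonoidalCategory Limits Pretriangulated MonObj

namespace Vale.Agent.P236SY

open GData Vale.Agent.P251 Vale.Agent.P251.T Vale.Agent.P251.S Vale.Agent.P251.H Vale.Agent.P251.M
  Vale.Agent.P251.F Vale.Agent.P251.I TD Vale.Agent.P236EL Vale.Agent.P236F Vale.Agent.P236R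
  Vale.Agent.P236Z
open Vale.Agent.P251.St (SHCat)

variable {T : SHCat} {t : Cob Laz 1} {C : Cx T}

namespace Cx

variable {J : Type} [Fintype J] {d : J → ℤ} {θ : J → J → Cob Laz 1} {k s s' r r' : ℕ}
  {n m l w w' v v' : ℤ} {W X Z : T.C}

theorem z0_M (ht : IsT1 3 t)
    (h : ∀ (r : ℕ) (w : ℤ), s ≤ r → n + r = 4 * w → 2 * w + r % 2 < 3 * r) : C.Z0 C.oM n s :=
  fun _ hx => cmS.eq_zero hx fun r w h1 h2 _ => vs_of_lt ht (h r w h1 h2)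

theorem CM.z0_of {e : J → (ob C.Γ ⟶ C.Q 0 W)} (H : C.CM e d θ)
    (h : ZC 3 θ d w 3 s ≤ BQ 3 θ d w 3 s) (hn : n + s = 4 * w) (h0 : C.Z0 (C.o W) n (s + 1)) :
    C.Z0 (C.o W) n s := fun _ hx =>
  (H.exists_rep hx hn).elim fun _ h1 => H.zero_of h1.2 (h h1.1) hn h0

namespace CY

variable (P : C.CY t)

theorem β_act' [C.G.Tors X] (y : C.o C.Γ ⟶ C.o X) : y ≫ C.act X P.β = P.β ≫ y :=
  dg_ind (p := fun y => y ≫ C.act X P.β = P.β ≫ y) y (by rw [zero_comp, comp_zero])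
    (fun _ _ _ h => P.β_act h) fun a b ha hb => by
      rw [Preadditive.add_comp, Preadditive.comp_add, ha, hb]

theorem β_comm (y : C.o C.Γ ⟶ C.o C.Γ) : y ≫ P.β = P.β ≫ y := by rw [← β_act', act_Γ]

theorem rep_lb {e : J → (ob C.Γ ⟶ C.Q 0 W)} {y : C.o C.Γ ⟶ C.o W} {F : J → Cob Laz s}
    (hy : C.E.Rep n s y (C.psi e s F)) (h : 2 + s = r) (hl : 10 + n = l) :
    C.E.Rep l r (P.β ≫ y) (C.psi e r (lb t s h F)) := by
  have h1 := rep_pre P.rep_β hy h hl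
  rwa [Int.negOnePow_even _ (Even.mul_right (by decide) _), one_smul] at h1

include P in
theorem dr_lb (ht : IsT1 3 t) (hθ : MC θ) {e : J → (ob C.Γ ⟶ C.Q 0 Z)} {F : J → Cob Laz s}
    {G : J → Cob Laz s'} (h : C.Dr d θ k s s' w w' (mE e) F G) (e₁ : 2 + s = r) (e₂ : 2 + s' = r')
    (ev : 3 + w = v) (ev' : 3 + w' = v') :
    C.Dr d θ k r r' v v' (mE e) (lb t s e₁ F) (lb t s' e₂ G) := by
  have h1 := h.lc_perm hθ (Chart.rep_red P.rep_β) (zs_bb ht) rfl e₁ e₂ (by omega) ev ev'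
  rwa [neg_one_sq, one_smul] at h1

variable (ht : IsT1 3 t) (hA : P236K.EA) (h : FX t) {x : Cob Laz 1} {c : Cob Laz 2}
include ht hA h

omit P in
/-- The differential of Toda on the Moore spectrum. -/
theorem d5_x33 (hx : Grk 1 1 x c) : ∃ u : ℤˣ, C.DM 3 1 6 9 10 (fun _ => x) ((u : ℤ) • b3v t) := by
  obtain ⟨G, hG⟩ := (cmS (C := C)).exists_d5 (hx.zx (ω := 9) rfl) (s' := 6) (w' := 10) rfl rfl
  have h0 : G ∉ BS 10 6 := fun h1 => by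
    obtain ⟨y, h2, h3⟩ := hG.ex' (n := 35) (m := 34) rfl rfl
    rw [cmS.zero_of h3 h1 rfl (z0_M (s := 7) ht fun r w h1 h2 => by omega), zero_comp] at h2
    obtain ⟨x', hx'⟩ := h2.rep
    exact not_exf hA (exf_of ht (j := 1) (hx.zx rfl) (rs_grk ht hx) (by rwa [psi_eS] at hx'))
  obtain ⟨u, hu⟩ := exists_unit (h.g34 hG.cy') h0 (three_mem (b3v_mem ht).1)
  exact ⟨u, cmS.dr_right hG (by simpa using neg_mem hu)⟩

omit P in
theorem tor_34 : C.Tor C.oM 4 34 6 := by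
  obtain ⟨x, c, hx⟩ := exists_grk 1 1
  obtain ⟨u, hu⟩ := d5_x33 (C := C) ht hA h hx
  have h1 := zsmul_mem (hu.mem_cls (n := 34) (b := 4) rfl le_rfl) u
  rw [smul_smul, ← Units.val_mul, Int.units_mul_self, Units.val_one, one_smul] at h1
  exact cmS.kill' (s := 6) (w := 10) rfl (h.g34.trans (cmS.zm_le rfl h1))
    ((z0_M (s := 10) ht fun r w h1 h2 => by omega).kill _) rfl

omit P in
/-- The differential of Toda. -/
theorem d5_c33 (hx : Grk 1 1 x c) : ∃ u : ℤˣ, C.DM 3 2 7 9 10 (fun _ => c) ((u : ℤ) • b3 t t) := by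
  obtain ⟨u, hu⟩ := d5_x33 (C := C) ht hA h hx
  obtain ⟨u', hu'⟩ := (chart_Γ (C := C) (J := Fin 1)).dr_δ 3 1 6 9 10
  refine ⟨u' * u, ?_⟩
  rw [Units.val_mul, mul_smul]
  exact hu' hu (hx.zc rfl).1 (zsmul_mem (b3t_mem ht) _).1
    (funext fun _ => by rw [DD_zero, hx.d]; rfl) (by rw [map_zsmul, DD_b3v ht, smul_comm])

omit hA h in
theorem exists_bd_v : ∃ (v : C.o C.Γ ⟶ C.oM) (k : ℤ), C.E.Dg 4 0 v ∧
    P.α = k • bd (chart_Γ (J := Fin 1)).tf v := by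
  obtain ⟨v, hv⟩ := exists_v (C := C) ht
  obtain ⟨u, hu⟩ := (chart_Γ (C := C) (J := Fin 1)).rep_bd' 0 4
  rw [← psi_eS fun _ => v1] at hv
  have h1 := (hu (c := fun _ => t) (m := 3) (w := 1) hv
    (zs_v1 ht).1 (zs_t ht).1 (funext fun _ => by rw [DD_zero, d_v1 ht]; rfl) rfl rfl).zsmul 2
  rw [psi_un, ← map_zsmul, zsmul_eq_mul, Int.cast_ofNat, Units.smul_def, smul_smul] at h1
  exact ⟨v, _, hv.dg, eq_of_rep_three P.rep_α h1⟩

/-- `τ ^ 4 α β ^ 3 = 0` -/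
theorem toda_α : P.β ≫ P.β ≫ P.β ≫ P.α ≫ C.E.tp 4 _ = 0 := by
  obtain ⟨v, k, hv, e⟩ := P.exists_bd_v ht
  have H := (chart_Γ (C := C) (J := Fin 1)).tf
  have h2 := congrArg (bd H) (tor_34 ht hA h (P.β ≫ P.β ≫ P.β ≫ v)
    (P.dg_β.comp (P.dg_β.comp (P.dg_β.comp hv rfl rfl) rfl rfl) rfl rfl))
  rw [map_zero, tp_bd, comp_bd H H, comp_bd H H, comp_bd H H, Category.assoc, Category.assoc,
    Category.assoc] at h2
  rw [e, Preadditive.zsmul_comp, Preadditive.comp_zsmul, Preadditive.comp_zsmul,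
    Preadditive.comp_zsmul, h2, smul_zero]

theorem exists_ε : ∃ ε, C.E.Dg 37 3 ε ∧
    P.αb ≫ P.β ≫ P.β ≫ P.β ≫ C.E.tp 4 _ = C.E.ι P.p₁ ≫ ε :=
  P.st₁.stri.yo₂ (n := 33) (P.st₃.dg₃.comp (P.dg_β.comp (P.dg_β.comp (P.dg_β.comp (C.E.dg_tp 4 _)
    rfl rfl) rfl rfl) rfl rfl) rfl rfl) (by
      rw [reassoc_of% P.i_αb, reassoc_of% P.β_comm P.α, reassoc_of% P.β_comm P.α,
        reassoc_of% P.β_comm P.α, P.toda_α ht hA h]) rfl

include P in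
theorem z0_44 : C.Z0 C.oM 44 4 := by
  obtain ⟨x, c, hx⟩ := exists_grk 1 1
  obtain ⟨u, hu⟩ := d5_c33 (C := C) ht hA h hx
  have h1 := P.dr_lb ht mc_zero hu (r := 4) (r' := 9) (v := 12) (v' := 13) rfl rfl rfl rfl
  refine cmS.z0 (s := 4) (w := 12) rfl (cmS.line_not rfl h.l44 h1.cy
    (cmS.not_perm h1 (fun h2 => h.n43 ?_) rfl)) (fun y hy => ?_) rfl
  · have h3 := zsmul_mem h2 u
    rwa [map_zsmul, smul_smul, ← Units.val_mul, Int.units_mul_self, Units.val_one, one_smul] at h3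
  · obtain ⟨y, hy', rfl⟩ := P.β_surj (m := 34) (u := 6) (k := 41) (v := 7) hy
      (P.z0_Y₀ ht (by decide)) (P.z0_Y₀ ht (by decide)) rfl rfl rfl rfl
    rw [Category.assoc, tor_34 ht hA h y hy', comp_zero]

include P in
theorem z0_54 : C.Z0 C.oM 54 2 :=
  cmS.z0 (s := 2) (w := 14) rfl (fun _ hF _ => h.v54 hF) (fun y hy => by
    obtain ⟨y, hy', rfl⟩ := P.β_surj (m := 44) (u := 4) (k := 51) (v := 5) hy
      (P.z0_Y₀ ht (by decide)) (P.z0_Y₀ ht (by decide)) rfl rfl rfl rfl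
    rw [P.z0_44 ht hA h y hy', comp_zero, zero_comp]) rfl

/-- A lift of `τ ^ 4 β ^ 3` to the top cell of `C α`. -/
theorem exists_B : ∃ B, ∃ F ∈ ZS 9 2, C.E.Rep 34 2 B (C.psi (mE P.eA) 2 ![F 0, 0]) ∧
    P.β ≫ P.β ≫ P.β ≫ C.rd _ ≫ C.E.tp 4 _ = B ≫ P.jA := by
  have h0 : ∀ k : ℕ, C.E.Dg 30 (6 - k) (P.β ≫ P.β ≫ P.β ≫ C.rd _ ≫ C.E.tp k _) := fun k =>
    P.dg_β.comp (P.dg_β.comp (P.dg_β.comp ((C.dg_rd _).comp (C.E.dg_tp k _) rfl rfl) rfl rfl)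
      rfl rfl) rfl (by ring)
  obtain ⟨B, hB, e⟩ := P.of_jA (m := 34) (h0 4) (by
    have h1 := P.toda_α ht hA h
    simp only [Category.assoc]
    rw [tp_comm, reassoc_of% C.rd_sr, ← tp_comm, reassoc_of% h1, zero_comp]) rfl
  obtain ⟨G, hG, h1⟩ := P.chA.cm.exists_rep (s := 2) (w := 9) hB rfl
  obtain ⟨F, hF, h2⟩ := P.ex_iA hG (v := 8) (cmS.by_of_τ (P.rep_jA h1 rfl) (cw_top hG.1 1 rfl)
    (h0 3) rfl (by rw [← e, C.E.tp_succ 3]; simp only [Category.assoc]) rfl) rfl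
  exact ⟨B, F, hF, P.chA.cm.rep_congr (w := 9) h1 (by simpa using neg_mem h2) rfl, e⟩

include P in
theorem d5_cc (hx : Grk 1 1 x c) : ∃ u : ℤˣ, C.DM 3 6 11 21 22
    (lb t 4 rfl (lc _ (show 2 + 2 = 4 from rfl) c fun _ => c))
    ((u : ℤ) • lb t 9 rfl (lb t 7 rfl (lb t 5 rfl (lb t 3 rfl (cal t fun _ => c))))) := by
  obtain ⟨u, hu⟩ := d5_c33 (C := C) ht hA h hx
  have h1 := Dr.lc mc_zero (z := c) (z' := (u : ℤ) • b3 t t 0) (by rwa [zs_eta (_ • _)] at hu) hu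
    (r := 4) (r' := 9) (v := 18) (v' := 19) rfl rfl rfl (by decide) rfl rfl
  have h2 := lc_comm (d := fun _ : Fin 1 => 0) rfl (show 2 + 7 = 9 from rfl)
    (show 7 + 2 = 9 from rfl) (hx.zc (ω := 9) rfl) (b3t_mem ht)
  have h3 := lbB ht mc_zero (show 2 + 7 = 9 from rfl) (w' := 19) rfl (lbB ht mc_zero
    (show 2 + 5 = 7 from rfl) (w' := 16) rfl (lbB ht mc_zero (show 2 + 3 = 5 from rfl) (w' := 13) rfl
      (lc_comm (d := fun _ : Fin 1 => 0) rfl (show 2 + 1 = 3 from rfl) (show 1 + 2 = 3 from rfl)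
        (hx.zc (ω := 9) rfl) (zs_t ht))))
  have h4 : lc (Fin 1) (show 7 + 2 = 9 from rfl) (b3 t t 0) (fun _ => c) = lb t 7 rfl (lb t 5 rfl
      (lb t 3 rfl (lc _ (show 1 + 2 = 3 from rfl) t fun _ => c))) := by
    rw [← lc_lc (show 2 + 1 = 3 from rfl) (show 3 + 2 = 5 from rfl),
      ← lc_lc (show 2 + 3 = 5 from rfl) (show 5 + 2 = 7 from rfl),
      ← lc_lc (show 2 + 5 = 7 from rfl) (show 7 + 2 = 9 from rfl)]
    rfl
  have h5 : (cal t fun _ => c) = (2 : ℤ) • lc _ (show 2 + 1 = 3 from rfl) c fun _ => t := by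
    rw [← map_zsmul, zsmul_eq_mul]
    rfl
  refine ⟨u, map_zsmul (lb t 9 (show 2 + 9 = 11 from rfl)) _ _ ▸
    P.dr_lb ht mc_zero (cmS.dr_right h1 ?_) rfl rfl rfl rfl⟩
  rw [Even.neg_one_pow (by decide), one_smul] at h2 h3
  rw [map_sub, map_sub, map_sub, ← h4] at h3
  rw [h5, neg_one_sq, one_smul, map_zsmul, map_zsmul, map_zsmul, map_zsmul, map_zsmul,
    AddMonoidHom.smul_apply, ← smul_add, ← smul_sub]
  refine zsmul_mem ?_ _
  convert sub_mem (zsmul_mem h3 2) h2 using 1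
  module

omit hA h P in
theorem d5_c2 {x₂ : Cob Laz 1} {c₂ : Cob Laz 2} (hx : Grk 0 2 x₂ c₂) : C.DM 3 6 11 21 22
    (lc _ (show 2 + 4 = 6 from rfl) c₂ (lc _ (show 2 + 2 = 4 from rfl) c₂ fun _ => c₂)) 0 := by
  obtain ⟨G, hG⟩ := (cmS (C := C)).exists_d5 (hx.zc (ω := 7) rfl) (s' := 7) (w' := 8) rfl rfl
  have h1 : C.DM 3 2 7 7 8 (fun _ => c₂) fun _ => 0 :=
    cmS.dr_right hG (sub_mem (zero_mem _) (vs_of_lt ht (by decide) hG.cy'))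
  have h2 := Dr.lc mc_zero h1 (Dr.lc mc_zero h1 h1 (r := 4) (r' := 9) (v := 14) (v' := 15)
    rfl rfl rfl (by decide) rfl rfl) (r := 6) (r' := 11) (v := 21) (v' := 22)
    rfl rfl rfl (by decide) rfl rfl
  rwa [map_zero, map_zero, AddMonoidHom.zero_apply, AddMonoidHom.zero_apply, zero_add, zero_add,
    show (fun _ => 0 : Fin 1 → Cob Laz 7) = 0 from rfl, map_zero, smul_zero, map_zero,
    smul_zero] at h2

variable {x₄ : Cob Laz 1} {c₄ : Cob Laz 2} (h₄ : Grk 0 4 x₄ c₄)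
include h₄

/-- The differential on `β_4`. -/
theorem d5_c4 {B : C.o C.Γ ⟶ P.oA} {F : Fin 1 → Cob Laz 2} (hF : F ∈ ZS 9 2)
    (hB : C.E.Rep 34 2 B (C.psi (mE P.eA) 2 ![F 0, 0])) : ∃ (y : C.o C.Γ ⟶ C.oM) (k : ℤ),
      C.E.Dg 57 7 y ∧ C.E.Ob 58 2 (C.φM C.Γ 2 c₄) (y ≫ C.E.tp 3 _) ∧
        P.β ≫ P.β ≫ B ≫ P.abar = k • y := by
  obtain ⟨x, c, hx⟩ := exists_grk 1 1
  obtain ⟨x₂, c₂, h₂⟩ := exists_grk 0 2
  obtain ⟨u, hu⟩ := P.d5_cc ht hA h hx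
  obtain ⟨G, hG⟩ := (cmS (C := C)).exists_d5 (h₄.zc (ω := 15) rfl) (s' := 7) (w' := 16) rfl rfl
  obtain ⟨_, h1, b, hb, e⟩ := AddSubgroup.mem_sup.1 (h.rel hx h₂ h₄)
  obtain ⟨a, a', rfl⟩ := AddSubgroup.mem_closure_pair.1 h1
  have h2 := cmS.d5_uniq hu (((d5_c2 ht h₂).zsmul a).add ((P.dr_lb ht mc_zero
    (P.dr_lb ht mc_zero hG (r := 4) (r' := 9) (v := 18) (v' := 19) rfl rfl rfl rfl) rfl rfl rfl
      rfl).zsmul a')) (by rwa [← e, add_sub_cancel_left])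
  obtain ⟨_, h0, b', hb', e'⟩ := AddSubgroup.mem_sup.1 (h.g33 hx hF)
  obtain ⟨k, rfl⟩ := AddSubgroup.mem_zmultiples_iff.1 h0
  obtain ⟨y, h3, h4⟩ := hG.ex' (n := 58) (m := 57) rfl rfl
  have h5 := P.rep_abar hB (l := 37) rfl
  rw [Int.negOnePow_even _ (by decide), one_smul] at h5
  have h6 := (P.rep_lb (P.rep_lb h5 (r := 5) (l := 47) rfl rfl) (r := 7) (l := 57) rfl rfl).sub
    (h4.zsmul (k * u * a'))
  rw [← map_zsmul, ← map_sub] at h6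
  have h7 := cmS.zero_of (w := 22) (P.rep_lb (P.rep_lb h6 (r := 9) (l := 67) rfl rfl) (r := 11)
    (l := 77) rfl rfl) (by
      have h8 := lbB ht mc_zero (show 2 + 9 = 11 from rfl) (w' := 22) rfl (lbB ht mc_zero
        (show 2 + 7 = 9 from rfl) (w' := 19) rfl (lbB ht mc_zero (show 2 + 5 = 7 from rfl)
          (w' := 16) rfl (lbB ht mc_zero (show 2 + 3 = 5 from rfl) (w' := 13) rfl
            (lc_of_BQ mc_zero (show 2 + 1 = 3 from rfl) rfl hb' (nsmul_mem (zs_t ht) 2)))))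
      have h9 : (fun _ : Fin 1 => Cob.cup (![F 0, 0] 0) (2 * t) + Cob.cup (![F 0, 0] 1)
          (2 * t ^ 2)) = k • (cal t fun _ => c) + lc _ (show 2 + 1 = 3 from rfl) (b' default)
            (2 • fun _ => t) := funext fun _ => by
        simp [← e', Cob.cup, lc_apply, P236EL.cupE_rfl, add_mul, _root_.mul_assoc]
      rw [h9]
      convert add_mem (zsmul_mem h2 (k * u)) h8 using 1
      simp only [map_add, map_sub, map_zsmul, smul_sub, smul_smul, _root_.mul_assoc,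
        ← Units.val_mul, Int.units_mul_self, Units.val_one, _root_.mul_one, smul_zero, zero_add]
      abel) rfl (fun z hz => by
    obtain ⟨z, hz', rfl⟩ := cmS.div3 (s := 12) (s' := 15) (w := 23) hz rfl rfl
    rw [cmS.z0_of h.v77 rfl (z0_M (s := 16) ht fun r w h1 h2 => by omega) z hz', zero_comp])
  rw [psi_eS] at h3
  exact ⟨y, _, h4.dg, h3, sub_eq_zero.1 (P.β_inj h6.dg (P.z0_Y₀ ht (by decide))
    (P.z0_Y₀ ht (by decide)) (P.β_inj (n := 67) (s := 9) (P.dg_β.comp h6.dg rfl rfl)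
      (P.z0_Y₀ ht (by decide)) (P.z0_Y₀ ht (by decide)) h7))⟩

omit hA h in
theorem exists_g : ∃ g, C.E.Rep 58 2 g (C.φM P.Y 2 c₄) := by
  obtain ⟨y, hy⟩ := TD.exists_ob (n := 58) (c := C.φM P.Y 2 c₄) ((deg_Φ _ _
    (zs_iff.1 (h₄.zc (ω := 15) rfl)).1 rfl).comp (deg_Qm _ (deg_io _)) rfl) (φM_cyc (h₄.zc rfl))
  obtain rfl := P.zero_Y hy.dg (P.z0_Y₀ ht (by decide)) (P.z0_Y₀ ht (by decide))
    (P.z0_Y₀ ht (by decide))
  exact hy.rep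

/-- `τ ^ 8 β ^ 5` comes from the top cell of `Y`. -/
theorem toda_five {g : C.o P.Y ⟶ P.oZ} (hg : C.E.Rep 58 2 g (C.φM P.Y 2 c₄)) : ∃ k : ℤ,
    P.β ≫ P.β ≫ P.β ≫ P.β ≫ P.β ≫ C.rd _ ≫ C.E.tp 8 _ = k • C.E.ι P.e₀ ≫ g ≫ P.jy := by
  obtain ⟨B, F, hF, hB, e⟩ := P.exists_B ht hA h
  obtain ⟨y, k, hy, h1, h2⟩ := P.d5_c4 ht hA h h₄ hF hB
  obtain ⟨u, hu⟩ := (P.st₃.wr C.M).gb
  have h0 := hg.ι_comp (m := 0) (l := 58) P.st₃.deg₁ rfl
  rw [← φM_wr] at h0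
  obtain ⟨y', hy', h3, h4⟩ := hu (l := 54) h1 h0 rfl
  obtain ⟨y', hy'', rfl⟩ := P.chA.cm.div3 (s := 3) (s' := 6) (w := 15) hy' rfl rfl
  generalize u * _ = u at h4
  rw [Category.assoc, tp_comm, ← Category.assoc, ← Linear.units_smul_comp, ← sub_eq_zero,
    ← Preadditive.sub_comp] at h4
  have h5 := sub_eq_zero.1 (cmS.tp3_inj (w := 16) ((hy''.comp P.sZ.dg₃ rfl rfl).sub (hy.usmul u))
    rfl h4)
  obtain ⟨z, hz, h6⟩ := P.of_qq (m := 58) ((P.dg_β.comp (P.dg_β.comp hB.dg rfl rfl) rfl rfl).sub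
    ((hy''.usmul u).zsmul k)) (by
      rw [Preadditive.sub_comp, Category.assoc, Category.assoc, h2, Preadditive.zsmul_comp,
        Linear.units_smul_comp, h5, smul_smul u, Int.units_mul_self, one_smul, sub_self]) rfl
  rw [P.z0_Y₀ ht (by decide) z hz, zero_comp, sub_eq_zero] at h6
  refine ⟨k * u, ?_⟩
  rw [C.E.tp_add 4 4, reassoc_of% e, ← tp_comm, reassoc_of% h6, ← qq_jA, reassoc_of% h3,
    C.E.tp_succ 3, Category.assoc, mul_smul, Preadditive.zsmul_comp, Linear.units_smul_comp,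
    Units.smul_def]

end CY

/-- The relations of Toda, for a class `ε` of stem 37 and a self map `Q` of `Y ⊗ M` which is
detected by `c₄`. -/
structure CY.Toda (P : C.CY t) (c₄ : Cob Laz 2) (ε : C.oM ⟶ C.oM) (Q : P.oZ ⟶ P.oZ) (k : ℤ) :
    Prop where
  dε : C.E.Dg 37 3 ε
  dQ : C.E.Dg 58 2 Q
  three : ∀ a : C.o C.Γ ⟶ P.oA, P.β ≫ P.β ≫ P.β ≫ a ≫ P.abar ≫ C.E.tp 4 _ = a ≫ P.jA ≫ ε
  four : ∀ a : C.o C.Γ ⟶ P.oA,
    P.β ≫ a ≫ P.abar ≫ ε ≫ C.E.tp 4 _ = a ≫ P.ee ≫ (-k • Q ≫ P.jy)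
  five : ∀ m : C.o C.Γ ⟶ C.oM,
    P.β ≫ P.β ≫ P.β ≫ P.β ≫ P.β ≫ m ≫ C.E.tp 8 _ = k • m ≫ P.e0 ≫ Q ≫ P.jy
  rep : ∀ {n l w : ℤ} {s r : ℕ} {z : C.o C.Γ ⟶ P.oZ} {F : Fin 3 → Cob Laz s},
    C.E.Rep n s z (C.psi (mE P.eY) s F) → F ∈ ZY t w s → n + s = 4 * w → ∀ e : 2 + s = r,
      n + 58 = l → C.E.Rep l r (z ≫ Q) (C.psi (mE P.eY) r (lc _ e c₄ F))

namespace CY

variable (P : C.CY t)

theorem sr_β : C.U.sr C.M P.β = C.act _ P.β := by rw [← sr_act, act_Γ]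

theorem toda (ht : IsT1 3 t) (hA : P236K.EA) (h : FX t) {x₄ : Cob Laz 1} {c₄ : Cob Laz 2}
    (h₄ : Grk 0 4 x₄ c₄) : ∃ ε Q k, P.Toda c₄ ε Q k := by
  obtain ⟨ε, dε, e⟩ := P.exists_ε ht hA h
  obtain ⟨g, hg⟩ := P.exists_g ht h₄
  obtain ⟨k, hk⟩ := P.toda_five ht hA h h₄ hg
  have h1 : P.α ≫ ε = -P.β ≫ P.β ≫ P.β ≫ P.β ≫ C.E.tp 4 _ := by
    rw [← P.αt_p, Category.assoc, ← e, ← Category.assoc, ← Preadditive.neg_comp, β, neg_neg]
  obtain ⟨y, hy, h2⟩ := P.st₁.stri.yo₂ (n := 50) (s := 2) (m := 54)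
    ((P.st₃.dg₃.comp (P.dg_β.comp (dε.comp ((C.dg_rd _).comp (C.E.dg_tp 4 _) rfl rfl) rfl rfl)
      rfl rfl) rfl rfl).add ((P.st₂.stri.dg₁.comp (hg.dg.comp P.sE.dg₂ rfl rfl) rfl rfl).zsmul k))
    (by
      rw [Preadditive.comp_add, reassoc_of% P.i_αb, reassoc_of% P.β_comm P.α, reassoc_of% h1,
        Preadditive.comp_zsmul, ← ι_comp_assoc, ← hk, C.E.tp_add 4 4, Preadditive.neg_comp,
        Preadditive.comp_neg]
      simp only [Category.assoc]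
      rw [reassoc_of% C.E.tp_comm 4 (C.rd C.Γ), neg_add_cancel]) rfl
  rw [P.z0_54 ht hA h y hy, comp_zero, add_eq_zero_iff_eq_neg, ← neg_smul] at h2
  have hj : ∀ {V : T.C} (f : ob V ⟶ ob P.Y), C.hat (C.E.ι f ≫ g ≫ P.jy) =
      C.E.ι (wr f C.M) ≫ C.hat g ≫ P.jy := fun f => by
    rw [← sr_hat, UF.sr_ι, jy, ← C.U.sr_ι C.M P.p₂, hat_sr]
  refine ⟨C.U.sr C.M ε, C.hat g, k, C.U.dg_sr _ dε, dg_hat hg.dg, fun a => ?_, fun a => ?_,
    fun m => ?_, fun {n l w s r z F} hz hF hn e hl => ?_⟩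
  · have h3 := congrArg (C.U.sr C.M) e
    simp only [UF.sr_comp, UF.sr_ι, UF.sr_tp, sr_β] at h3
    rw [← h3]
    simp only [← Category.assoc, P.β_act']
  · have h3 := congrArg C.hat h2
    rw [map_zsmul, hj, ← sr_hat, ← sr_hat, ← sr_hat, hat_tp, ← Category.id_comp (C.rd _), hat_rd,
      UF.sr_id, Category.id_comp, sr_β] at h3
    rw [Preadditive.comp_zsmul, ← h3]
    simp only [← Category.assoc, P.β_act']
  · have h3 := congrArg C.hat hk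
    rw [map_zsmul, hj, ← sr_hat, ← sr_hat, ← sr_hat, ← sr_hat, ← sr_hat, hat_tp,
      ← Category.id_comp (C.rd _), hat_rd, UF.sr_id, Category.id_comp, sr_β] at h3
    rw [← Preadditive.comp_zsmul, ← h3]
    simp only [← Category.assoc, P.β_act']
  · obtain rfl : r = s + 2 := by omega
    have h3 := (hz.comp (rep_hat_φ hg) hl).usmul ((s : ℤ) * 58).negOnePow
    rw [smul_smul, Int.units_mul_self, one_smul, P.chY.cm.cells.psi_cup_φ, ← rc_eq,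
      Int.negOnePow_even _ (Even.mul_left (by decide) _), one_smul] at h3
    have h4 := lc_rc (mc_Y ht) e (h₄.zc rfl) rfl (wt_Y ht) rfl hF
    rw [Even.neg_one_pow (even_two_mul s), one_smul] at h4
    exact P.chY.cm.rep_congr h3 h4 (by push_cast; omega)

namespace Toda

variable {P} {c₄ : Cob Laz 2} {ε : C.oM ⟶ C.oM} {Q : P.oZ ⟶ P.oZ} {k : ℤ} (h : P.Toda c₄ ε Q k)
include h

theorem five_atil (m : C.o C.Γ ⟶ C.oM) :
    P.β ≫ P.β ≫ P.β ≫ P.β ≫ P.β ≫ m ≫ P.atil ≫ C.E.tp 8 _ = 0 := by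
  rw [← tp_comm, reassoc_of% h.five, Preadditive.zsmul_comp, Category.assoc, Category.assoc,
    Category.assoc, P.sE.zero₂, comp_zero, comp_zero, comp_zero, smul_zero]

/-- `τ ^ 8 β ^ 6 = 0` -/
theorem six (m : C.o C.Γ ⟶ C.oM) :
    P.β ≫ P.β ≫ P.β ≫ P.β ≫ P.β ≫ P.β ≫ m ≫ C.E.tp 8 _ = 0 := by
  have h1 := h.five_atil m =≫ P.abar
  simp only [Category.assoc, tp_comm, zero_comp] at h1
  rwa [reassoc_of% P.atil_abar, Preadditive.neg_comp, Preadditive.comp_neg, reassoc_of% P.β_act',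
    Preadditive.comp_neg, Preadditive.comp_neg, Preadditive.comp_neg, Preadditive.comp_neg,
    Preadditive.comp_neg, neg_eq_zero] at h1

/-- The map `Q` raises the filtration of a group which is killed by `c₄`. -/
theorem kill {n l w w' : ℤ} {s r : ℕ} {u : ℤ} {V : C.E.Syn} {f : P.oZ ⟶ V} (hn : n + s = 4 * w)
    (e : 2 + s = r) (hl : n + 58 = l) (hw : 15 + w = w') (hu : u = r + 4)
    (hF : ∀ F ∈ ZY t w s, lc _ e c₄ F ∈ BY t w' r) (h0 : Kill (C.E.tp 4 _ ≫ f) l u) :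
    Kill (Q ≫ f) n s := fun z hz => by
  obtain ⟨F, h1, h2⟩ := P.chY.cm.exists_rep hz hn
  obtain ⟨y, hy, e'⟩ := P.chY.cm.div4 (h.rep h2 h1 hn e hl) (hF F h1) (by omega)
  rw [reassoc_of% e', h0 y (hu ▸ hy)]

/-- Lemma K. -/
theorem lemK (hK : P.KZ) (hF : ∀ F ∈ ZY t 69 4, lc _ (show 2 + 4 = 6 from rfl) c₄ F ∈ BY t 84 6)
    (h0 : Kill (C.E.tp 4 _ ≫ P.jy) 330 10) : C.Tor C.oM 12 322 18 :=
  hK.tor h.three h.four fun z hz => by
    rw [Preadditive.comp_zsmul, h.kill (s := 4) (w := 69) rfl rfl rfl rfl rfl hF h0 z hz, smul_zero]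

end Toda

end CY

end Cx

end Vale.Agent.P236SY
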